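import Vale.Agent.P032.H475.Fast

/-!
# Hexagons around a centre with six colours: box tables
-/

namespace Vale.Agent.P032.Words.Trie

/-! ### 01 02 03 14 15 24 35 (13|50: 13 never) -/

namespace F30a

/-- the data -/
def D : Dat where
  A := 7
  N := 16
  nb := [96, 88, 56, 70, 38, 85, 43]
  op := [127, 127, 127, 127, 127, 127, 127]
  nbT := [96, 49240, 41016, 4166, 2086, 21845, 10923, 53312, 43040, 20544, 10272, 54608, 43688, 21828,
10914, 6534]
  opT := [65535, 16383, 24575, 61439, 63487, 43775, 54655, 65471, 65503, 65471, 65503, 65455, 65495,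
65467, 65501, 65529]
  PL := [[0], [1], [2], [3], [4], [5], [6], [0, 1], [0, 2], [0, 3], [0, 4], [1, 5], [2, 6], [3, 5], [4,
6], [3, 4]]
  L := [3, 5, 9, 18, 34, 20, 40]
  P := [3, 5, 9, 18, 34, 20, 40, 7, 11, 19, 35, 21, 41, 22, 42, 50]
  r := 0
  tie := [0, 0, 0, 0, 0, 0, 0, 0, 0, 0, 0, 0, 0, 0, 0, 0]

/-- changes of the value at a tie -/
def J : List (List ℕ) := [[]]

/-- reachable values -/
def R : List (List ℕ) := [[1], [2], [4], [8], [0x10], [0x20], [0x40], [0x80], [0x100], [0x200], [0x400], [0x800],
[0x1000], [0x2000], [0x4000], [0x8000], [0x10000], [0x20000], [0x40000], [0x80000], [0x100000],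
[0x200000], [0x400000], [0x800000], [0x1000000], [0x2000000], [0x4000000], [0x8000000],
[0x10000000], [0x20000000], [0x40000000], [0x80000000], [0x100000000], [0x200000000],
[0x400000000], [0x800000000], [0x1000000000], [0x2000000000], [0x4000000000], [0x8000000000],
[0x10000000000], [0x20000000000], [0x40000000000], [0x80000000000], [0x100000000000],
[0x200000000000], [0x400000000000], [0x800000000000], [0x1000000000000], [0x2000000000000],
[0x4000000000000], [0x8000000000000], [0x10000000000000], [0x20000000000000],
[0x40000000000000], [0x80000000000000], [0x100000000000000], [0x200000000000000],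
[0x400000000000000], [0x800000000000000], [0x1000000000000000], [0x2000000000000000],
[0x4000000000000000], [0x8000000000000000], [0x10000000000000000], [0x20000000000000000],
[0x40000000000000000], [0x80000000000000000], [0x100000000000000000], [0x200000000000000000],
[0x400000000000000000], [0x800000000000000000], [0x1000000000000000000],
[0x2000000000000000000]]

noncomputable def q0 : Tr := .c 5 (.l 0) (.c 6 (.l 1) .e)
noncomputable def q1 : Tr := .c 5 (.l 0) .e
noncomputable def r0 : Tr := .c 0 q0 (.c 2 q1 (.c 4 q1 (.c 6 q1 .e)))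
noncomputable def q2 : Tr := .c 5 (.l 2) (.c 6 (.l 3) .e)
noncomputable def q3 : Tr := .c 6 (.l 3) .e
noncomputable def r1 : Tr := .c 0 q2 (.c 1 q3 (.c 3 q3 (.c 5 q3 .e)))
noncomputable def t0 : Tr := .c 5 r0 (.c 6 r1 .e)
noncomputable def q4 : Tr := .c 6 (.l 4) .e
noncomputable def r2 : Tr := .c 1 q4 (.c 2 q1 (.c 6 q1 .e))
noncomputable def r3 : Tr := .c 1 q4 (.c 2 q1 (.c 5 q4 .e))
noncomputable def t1 : Tr := .c 3 r2 (.c 4 r3 (.c 5 r0 .e))
noncomputable def q5 : Tr := .c 6 (.l 5) .e
noncomputable def r4 : Tr := .c 3 q5 (.c 4 q1 (.c 6 q1 .e))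
noncomputable def q6 : Tr := .c 6 (.l 6) .e
noncomputable def q7 : Tr := .c 5 (.l 7) .e
noncomputable def r5 : Tr := .c 3 q6 (.c 4 q7 (.c 5 q6 .e))
noncomputable def t2 : Tr := .c 1 r4 (.c 2 r5 (.c 5 r0 .e))
noncomputable def q8 : Tr := .c 6 (.l 8) .e
noncomputable def r6 : Tr := .c 5 q8 (.c 6 q1 .e)
noncomputable def t3 : Tr := .c 0 r6 (.c 1 r4 (.c 3 r2 (.c 5 r0 .e)))
noncomputable def q9 : Tr := .c 5 (.l 9) (.c 6 (.l 10) .e)
noncomputable def q10 : Tr := .c 5 (.l 9) .e
noncomputable def r7 : Tr := .c 0 q9 (.c 2 q10 (.c 4 q10 (.c 6 q10 .e)))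
noncomputable def q11 : Tr := .c 5 (.l 11) (.c 6 (.l 12) .e)
noncomputable def q12 : Tr := .c 6 (.l 12) .e
noncomputable def r8 : Tr := .c 0 q11 (.c 1 q12 (.c 3 q12 (.c 5 q12 .e)))
noncomputable def t4 : Tr := .c 5 r7 (.c 6 r8 .e)
noncomputable def q13 : Tr := .c 5 (.l 13) .e
noncomputable def r9 : Tr := .c 1 q12 (.c 2 q13 (.c 6 q13 .e))
noncomputable def r10 : Tr := .c 1 q12 (.c 2 q13 (.c 5 q12 .e))
noncomputable def t5 : Tr := .c 3 r9 (.c 4 r10 (.c 6 r8 .e))
noncomputable def q14 : Tr := .c 6 (.l 14) .e
noncomputable def q15 : Tr := .c 5 (.l 15) .e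
noncomputable def r11 : Tr := .c 3 q14 (.c 4 q15 (.c 6 q15 .e))
noncomputable def q16 : Tr := .c 5 (.l 16) .e
noncomputable def r12 : Tr := .c 3 q12 (.c 4 q16 (.c 5 q12 .e))
noncomputable def t6 : Tr := .c 1 r11 (.c 2 r12 (.c 6 r8 .e))
noncomputable def q17 : Tr := .c 5 (.l 17) .e
noncomputable def r13 : Tr := .c 5 q12 (.c 6 q17 .e)
noncomputable def t7 : Tr := .c 0 r13 (.c 2 r12 (.c 4 r10 (.c 6 r8 .e)))
noncomputable def q18 : Tr := .c 3 (.l 12) (.c 4 (.l 12) (.c 6 (.l 12) .e))
noncomputable def q19 : Tr := .c 3 (.l 18) (.c 4 (.l 18) .e)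
noncomputable def q20 : Tr := .c 3 (.l 18) .e
noncomputable def r14 : Tr := .c 1 q18 (.c 2 q19 (.c 6 q20 .e))
noncomputable def q21 : Tr := .c 4 (.l 12) (.c 6 (.l 12) .e)
noncomputable def r15 : Tr := .c 1 q18 (.c 2 q19 (.c 5 q21 .e))
noncomputable def r16 : Tr := .c 0 q12 (.c 1 q18 (.c 3 q12 (.c 5 q21 .e)))
noncomputable def t8 : Tr := .c 3 r14 (.c 4 r15 (.c 6 r16 .e))
noncomputable def q22 : Tr := .c 3 (.l 19) (.c 4 (.l 19) (.c 6 (.l 19) .e))
noncomputable def q23 : Tr := .c 3 (.l 20) (.c 4 (.l 20) .e)
noncomputable def q24 : Tr := .c 3 (.l 20) .e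
noncomputable def r17 : Tr := .c 1 q22 (.c 2 q23 (.c 6 q24 .e))
noncomputable def q25 : Tr := .c 4 (.l 19) (.c 6 (.l 19) .e)
noncomputable def r18 : Tr := .c 1 q22 (.c 2 q23 (.c 5 q25 .e))
noncomputable def q26 : Tr := .c 6 (.l 21) .e
noncomputable def r19 : Tr := .c 0 q26 (.c 2 q23 (.c 6 q24 .e))
noncomputable def t9 : Tr := .c 3 r17 (.c 4 r18 (.c 5 r19 .e))
noncomputable def q27 : Tr := .c 4 (.l 22) (.c 6 (.l 22) .e)
noncomputable def r20 : Tr := .c 5 q27 (.c 6 q24 .e)
noncomputable def q28 : Tr := .c 6 (.l 23) .e
noncomputable def r21 : Tr := .c 3 q28 (.c 6 q24 .e)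
noncomputable def t10 : Tr := .c 0 r20 (.c 1 r21 (.c 3 r17 (.c 5 r19 .e)))
noncomputable def q29 : Tr := .c 3 (.l 24) .e
noncomputable def r22 : Tr := .c 5 q21 (.c 6 q29 .e)
noncomputable def r23 : Tr := .c 3 q12 (.c 5 q21 .e)
noncomputable def t11 : Tr := .c 0 r22 (.c 2 r23 (.c 4 r15 (.c 6 r16 .e)))
noncomputable def q30 : Tr := .c 6 (.l 10) .e
noncomputable def q31 : Tr := .c 3 (.l 25) (.c 4 (.l 25) .e)
noncomputable def q32 : Tr := .c 3 (.l 25) .e
noncomputable def r24 : Tr := .c 0 q30 (.c 2 q31 (.c 6 q32 .e))
noncomputable def t12 : Tr := .c 5 r24 (.c 6 r16 .e)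
noncomputable def q33 : Tr := .c 3 (.l 26) .e
noncomputable def r25 : Tr := .c 3 q14 (.c 6 q33 .e)
noncomputable def t13 : Tr := .c 1 r25 (.c 2 r23 (.c 6 r16 .e))
noncomputable def q34 : Tr := .c 3 (.l 27) (.c 4 (.l 27) .e)
noncomputable def q35 : Tr := .c 3 (.l 28) (.c 4 (.l 28) (.c 5 (.l 28) .e))
noncomputable def q36 : Tr := .c 3 (.l 28) (.c 5 (.l 28) .e)
noncomputable def r26 : Tr := .c 1 q34 (.c 2 q35 (.c 6 q36 .e))
noncomputable def q37 : Tr := .c 4 (.l 27) .e
noncomputable def r27 : Tr := .c 1 q34 (.c 2 q35 (.c 5 q37 .e))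
noncomputable def q38 : Tr := .c 5 (.l 29) .e
noncomputable def r28 : Tr := .c 0 q38 (.c 1 q34 (.c 5 q37 .e))
noncomputable def t14 : Tr := .c 3 r26 (.c 4 r27 (.c 6 r28 .e))
noncomputable def q39 : Tr := .c 3 (.l 30) (.c 4 (.l 30) .e)
noncomputable def q40 : Tr := .c 3 (.l 0) (.c 4 (.l 0) (.c 5 (.l 0) .e))
noncomputable def q41 : Tr := .c 3 (.l 0) (.c 5 (.l 0) .e)
noncomputable def r29 : Tr := .c 1 q39 (.c 2 q40 (.c 6 q41 .e))
noncomputable def q42 : Tr := .c 4 (.l 30) .e
noncomputable def r30 : Tr := .c 1 q39 (.c 2 q40 (.c 5 q42 .e))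
noncomputable def r31 : Tr := .c 0 q1 (.c 2 q40 (.c 4 q1 (.c 6 q41 .e)))
noncomputable def t15 : Tr := .c 3 r29 (.c 4 r30 (.c 5 r31 .e))
noncomputable def q43 : Tr := .c 4 (.l 31) .e
noncomputable def r32 : Tr := .c 5 q43 (.c 6 q41 .e)
noncomputable def r33 : Tr := .c 4 q1 (.c 6 q41 .e)
noncomputable def t16 : Tr := .c 0 r32 (.c 1 r33 (.c 3 r29 (.c 5 r31 .e)))
noncomputable def q44 : Tr := .c 3 (.l 32) (.c 5 (.l 32) .e)
noncomputable def r34 : Tr := .c 5 q37 (.c 6 q44 .e)
noncomputable def q45 : Tr := .c 5 (.l 33) .e
noncomputable def r35 : Tr := .c 4 q45 (.c 5 q37 .e)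
noncomputable def t17 : Tr := .c 0 r34 (.c 2 r35 (.c 4 r27 (.c 6 r28 .e)))
noncomputable def q46 : Tr := .c 5 (.l 2) .e
noncomputable def q47 : Tr := .c 3 (.l 34) (.c 4 (.l 34) .e)
noncomputable def q48 : Tr := .c 4 (.l 34) .e
noncomputable def r36 : Tr := .c 0 q46 (.c 1 q47 (.c 5 q48 .e))
noncomputable def t18 : Tr := .c 5 r31 (.c 6 r36 .e)
noncomputable def q49 : Tr := .c 4 (.l 35) .e
noncomputable def r37 : Tr := .c 4 q7 (.c 5 q49 .e)
noncomputable def t19 : Tr := .c 1 r33 (.c 2 r37 (.c 5 r31 .e))
noncomputable def q50 : Tr := .c 1 (.l 0) (.c 2 (.l 36) (.c 6 (.l 36) .e))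
noncomputable def q51 : Tr := .c 1 (.l 0) (.c 2 (.l 36) .e)
noncomputable def q52 : Tr := .c 1 (.l 0) .e
noncomputable def r38 : Tr := .c 3 q50 (.c 4 q51 (.c 6 q52 .e))
noncomputable def q53 : Tr := .c 1 (.l 7) (.c 2 (.l 37) (.c 6 (.l 37) .e))
noncomputable def q54 : Tr := .c 1 (.l 7) (.c 2 (.l 37) .e)
noncomputable def q55 : Tr := .c 2 (.l 37) (.c 6 (.l 37) .e)
noncomputable def r39 : Tr := .c 3 q53 (.c 4 q54 (.c 5 q55 .e))
noncomputable def q56 : Tr := .c 6 (.l 37) .e
noncomputable def r40 : Tr := .c 0 q56 (.c 1 q56 (.c 3 q53 (.c 5 q55 .e)))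
noncomputable def t20 : Tr := .c 1 r38 (.c 2 r39 (.c 6 r40 .e))
noncomputable def q57 : Tr := .c 6 (.l 38) .e
noncomputable def r41 : Tr := .c 0 q57 (.c 4 q51 (.c 6 q52 .e))
noncomputable def t21 : Tr := .c 1 r38 (.c 2 r39 (.c 5 r41 .e))
noncomputable def q58 : Tr := .c 2 (.l 39) (.c 6 (.l 39) .e)
noncomputable def r42 : Tr := .c 5 q58 (.c 6 q52 .e)
noncomputable def q59 : Tr := .c 6 (.l 40) .e
noncomputable def r43 : Tr := .c 1 q59 (.c 6 q52 .e)
noncomputable def t22 : Tr := .c 0 r42 (.c 1 r38 (.c 3 r43 (.c 5 r41 .e)))
noncomputable def q60 : Tr := .c 1 (.l 41) (.c 2 (.l 14) (.c 6 (.l 14) .e))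
noncomputable def q61 : Tr := .c 1 (.l 41) (.c 2 (.l 14) .e)
noncomputable def q62 : Tr := .c 1 (.l 41) .e
noncomputable def r44 : Tr := .c 3 q60 (.c 4 q61 (.c 6 q62 .e))
noncomputable def q63 : Tr := .c 1 (.l 42) (.c 2 (.l 12) (.c 6 (.l 12) .e))
noncomputable def q64 : Tr := .c 1 (.l 42) (.c 2 (.l 12) .e)
noncomputable def q65 : Tr := .c 2 (.l 12) (.c 6 (.l 12) .e)
noncomputable def r45 : Tr := .c 3 q63 (.c 4 q64 (.c 5 q65 .e))
noncomputable def r46 : Tr := .c 0 q12 (.c 1 q12 (.c 3 q63 (.c 5 q65 .e)))
noncomputable def t23 : Tr := .c 1 r44 (.c 2 r45 (.c 6 r46 .e))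
noncomputable def q66 : Tr := .c 6 (.l 43) .e
noncomputable def r47 : Tr := .c 0 q66 (.c 4 q61 (.c 6 q62 .e))
noncomputable def t24 : Tr := .c 1 r44 (.c 2 r45 (.c 5 r47 .e))
noncomputable def q67 : Tr := .c 1 (.l 44) .e
noncomputable def r48 : Tr := .c 5 q65 (.c 6 q67 .e)
noncomputable def r49 : Tr := .c 1 q12 (.c 5 q65 .e)
noncomputable def t25 : Tr := .c 0 r48 (.c 2 r45 (.c 4 r49 (.c 6 r46 .e)))
noncomputable def q68 : Tr := .c 1 (.l 45) (.c 2 (.l 46) .e)
noncomputable def q69 : Tr := .c 1 (.l 45) .e
noncomputable def r50 : Tr := .c 0 q30 (.c 4 q68 (.c 6 q69 .e))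
noncomputable def t26 : Tr := .c 5 r50 (.c 6 r46 .e)
noncomputable def q70 : Tr := .c 1 (.l 47) .e
noncomputable def r51 : Tr := .c 1 q12 (.c 6 q70 .e)
noncomputable def t27 : Tr := .c 3 r51 (.c 4 r49 (.c 6 r46 .e))
noncomputable def q71 : Tr := .c 1 (.l 0) (.c 2 (.l 36) (.c 5 (.l 0) .e))
noncomputable def q72 : Tr := .c 1 (.l 0) (.c 5 (.l 0) .e)
noncomputable def r52 : Tr := .c 3 q51 (.c 4 q71 (.c 6 q72 .e))
noncomputable def q73 : Tr := .c 1 (.l 7) (.c 2 (.l 37) (.c 5 (.l 7) .e))
noncomputable def q74 : Tr := .c 2 (.l 37) .e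
noncomputable def r53 : Tr := .c 3 q54 (.c 4 q73 (.c 5 q74 .e))
noncomputable def q75 : Tr := .c 5 (.l 48) .e
noncomputable def r54 : Tr := .c 0 q75 (.c 3 q54 (.c 5 q74 .e))
noncomputable def t28 : Tr := .c 1 r52 (.c 2 r53 (.c 6 r54 .e))
noncomputable def r55 : Tr := .c 0 q1 (.c 2 q1 (.c 4 q71 (.c 6 q72 .e)))
noncomputable def t29 : Tr := .c 1 r52 (.c 2 r53 (.c 5 r55 .e))
noncomputable def q76 : Tr := .c 2 (.l 39) .e
noncomputable def r56 : Tr := .c 5 q76 (.c 6 q72 .e)
noncomputable def r57 : Tr := .c 2 q1 (.c 6 q72 .e)
noncomputable def t30 : Tr := .c 0 r56 (.c 1 r52 (.c 3 r57 (.c 5 r55 .e)))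
noncomputable def q77 : Tr := .c 1 (.l 41) (.c 2 (.l 14) (.c 5 (.l 41) .e))
noncomputable def q78 : Tr := .c 1 (.l 41) (.c 5 (.l 41) .e)
noncomputable def r58 : Tr := .c 3 q61 (.c 4 q77 (.c 6 q78 .e))
noncomputable def q79 : Tr := .c 1 (.l 42) (.c 2 (.l 12) (.c 5 (.l 42) .e))
noncomputable def q80 : Tr := .c 2 (.l 12) .e
noncomputable def r59 : Tr := .c 3 q64 (.c 4 q79 (.c 5 q80 .e))
noncomputable def q81 : Tr := .c 5 (.l 49) .e
noncomputable def r60 : Tr := .c 0 q81 (.c 3 q64 (.c 5 q80 .e))
noncomputable def t31 : Tr := .c 1 r58 (.c 2 r59 (.c 6 r60 .e))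
noncomputable def q82 : Tr := .c 5 (.l 41) .e
noncomputable def r61 : Tr := .c 0 q82 (.c 2 q82 (.c 4 q77 (.c 6 q78 .e)))
noncomputable def t32 : Tr := .c 1 r58 (.c 2 r59 (.c 5 r61 .e))
noncomputable def q83 : Tr := .c 1 (.l 44) (.c 5 (.l 44) .e)
noncomputable def r62 : Tr := .c 5 q80 (.c 6 q83 .e)
noncomputable def q84 : Tr := .c 5 (.l 47) .e
noncomputable def r63 : Tr := .c 2 q84 (.c 5 q80 .e)
noncomputable def t33 : Tr := .c 0 r62 (.c 2 r59 (.c 4 r63 (.c 6 r60 .e)))
noncomputable def q85 : Tr := .c 1 (.l 50) (.c 2 (.l 51) .e)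
noncomputable def q86 : Tr := .c 2 (.l 51) .e
noncomputable def r64 : Tr := .c 0 q46 (.c 3 q85 (.c 5 q86 .e))
noncomputable def t34 : Tr := .c 5 r55 (.c 6 r64 .e)
noncomputable def q87 : Tr := .c 2 (.l 40) .e
noncomputable def r65 : Tr := .c 2 q1 (.c 5 q87 .e)
noncomputable def t35 : Tr := .c 3 r57 (.c 4 r65 (.c 5 r55 .e))
noncomputable def q88 : Tr := .c 0 (.l 12) (.c 2 (.l 12) (.c 4 (.l 12) (.c 6 (.l 12) .e)))
noncomputable def q89 : Tr := .c 0 (.l 52) .e
noncomputable def r66 : Tr := .c 5 q88 (.c 6 q89 .e)
noncomputable def r67 : Tr := .c 3 q65 (.c 4 q80 (.c 5 q88 .e))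
noncomputable def q90 : Tr := .c 4 (.l 18) .e
noncomputable def r68 : Tr := .c 1 q21 (.c 2 q90 (.c 5 q88 .e))
noncomputable def r69 : Tr := .c 0 q12 (.c 1 q21 (.c 3 q65 (.c 5 q88 .e)))
noncomputable def t36 : Tr := .c 0 r66 (.c 2 r67 (.c 4 r68 (.c 6 r69 .e)))
noncomputable def q91 : Tr := .c 0 (.l 53) (.c 2 (.l 53) (.c 4 (.l 53) (.c 6 (.l 53) .e)))
noncomputable def q92 : Tr := .c 0 (.l 54) .e
noncomputable def r70 : Tr := .c 5 q91 (.c 6 q92 .e)
noncomputable def q93 : Tr := .c 2 (.l 55) (.c 6 (.l 55) .e)
noncomputable def q94 : Tr := .c 2 (.l 55) .e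
noncomputable def r71 : Tr := .c 3 q93 (.c 4 q94 (.c 6 q92 .e))
noncomputable def q95 : Tr := .c 4 (.l 56) (.c 6 (.l 56) .e)
noncomputable def q96 : Tr := .c 4 (.l 57) .e
noncomputable def r72 : Tr := .c 1 q95 (.c 2 q96 (.c 6 q92 .e))
noncomputable def q97 : Tr := .c 6 (.l 58) .e
noncomputable def r73 : Tr := .c 0 q97 (.c 2 q96 (.c 4 q94 (.c 6 q92 .e)))
noncomputable def t37 : Tr := .c 0 r70 (.c 1 r71 (.c 3 r72 (.c 5 r73 .e)))
noncomputable def q98 : Tr := .c 2 (.l 14) (.c 6 (.l 14) .e)
noncomputable def q99 : Tr := .c 2 (.l 14) .e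
noncomputable def q100 : Tr := .c 0 (.l 59) .e
noncomputable def r74 : Tr := .c 3 q98 (.c 4 q99 (.c 6 q100 .e))
noncomputable def t38 : Tr := .c 1 r74 (.c 2 r67 (.c 6 r69 .e))
noncomputable def q101 : Tr := .c 4 (.l 26) .e
noncomputable def r75 : Tr := .c 0 q66 (.c 2 q101 (.c 4 q99 (.c 6 q100 .e)))
noncomputable def t39 : Tr := .c 1 r74 (.c 2 r67 (.c 5 r75 .e))
noncomputable def q102 : Tr := .c 0 (.l 60) .e
noncomputable def r76 : Tr := .c 1 q21 (.c 2 q90 (.c 6 q102 .e))
noncomputable def t40 : Tr := .c 3 r76 (.c 4 r68 (.c 6 r69 .e))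
noncomputable def q103 : Tr := .c 4 (.l 20) .e
noncomputable def q104 : Tr := .c 0 (.l 61) .e
noncomputable def r77 : Tr := .c 1 q25 (.c 2 q103 (.c 6 q104 .e))
noncomputable def q105 : Tr := .c 0 (.l 19) (.c 2 (.l 19) (.c 4 (.l 19) (.c 6 (.l 19) .e)))
noncomputable def r78 : Tr := .c 1 q25 (.c 2 q103 (.c 5 q105 .e))
noncomputable def q106 : Tr := .c 2 (.l 23) .e
noncomputable def r79 : Tr := .c 0 q26 (.c 2 q103 (.c 4 q106 (.c 6 q104 .e)))
noncomputable def t41 : Tr := .c 3 r77 (.c 4 r78 (.c 5 r79 .e))
noncomputable def q107 : Tr := .c 4 (.l 25) .e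
noncomputable def q108 : Tr := .c 2 (.l 46) .e
noncomputable def q109 : Tr := .c 0 (.l 62) .e
noncomputable def r80 : Tr := .c 0 q30 (.c 2 q107 (.c 4 q108 (.c 6 q109 .e)))
noncomputable def t42 : Tr := .c 5 r80 (.c 6 r69 .e)
noncomputable def q110 : Tr := .c 0 (.l 63) .e
noncomputable def q111 : Tr := .c 0 (.l 64) (.c 1 (.l 64) (.c 3 (.l 64) (.c 5 (.l 64) .e)))
noncomputable def r81 : Tr := .c 5 q110 (.c 6 q111 .e)
noncomputable def q112 : Tr := .c 1 (.l 65) .e
noncomputable def q113 : Tr := .c 1 (.l 65) (.c 5 (.l 65) .e)
noncomputable def r82 : Tr := .c 3 q112 (.c 4 q113 (.c 5 q110 .e))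
noncomputable def q114 : Tr := .c 3 (.l 66) .e
noncomputable def q115 : Tr := .c 3 (.l 67) (.c 5 (.l 67) .e)
noncomputable def r83 : Tr := .c 1 q114 (.c 2 q115 (.c 5 q110 .e))
noncomputable def q116 : Tr := .c 5 (.l 68) .e
noncomputable def r84 : Tr := .c 0 q116 (.c 1 q114 (.c 3 q112 (.c 5 q110 .e)))
noncomputable def t43 : Tr := .c 0 r81 (.c 2 r82 (.c 4 r83 (.c 6 r84 .e)))
noncomputable def q117 : Tr := .c 0 (.l 69) .e
noncomputable def q118 : Tr := .c 0 (.l 0) (.c 1 (.l 0) (.c 3 (.l 0) (.c 5 (.l 0) .e)))
noncomputable def r85 : Tr := .c 5 q117 (.c 6 q118 .e)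
noncomputable def r86 : Tr := .c 3 q52 (.c 4 q72 (.c 6 q118 .e))
noncomputable def q119 : Tr := .c 3 (.l 30) .e
noncomputable def r87 : Tr := .c 1 q119 (.c 2 q41 (.c 6 q118 .e))
noncomputable def r88 : Tr := .c 0 q1 (.c 2 q41 (.c 4 q72 (.c 6 q118 .e)))
noncomputable def t44 : Tr := .c 0 r85 (.c 1 r86 (.c 3 r87 (.c 5 r88 .e)))
noncomputable def q120 : Tr := .c 1 (.l 7) .e
noncomputable def q121 : Tr := .c 1 (.l 7) (.c 5 (.l 7) .e)
noncomputable def q122 : Tr := .c 0 (.l 70) .e
noncomputable def r89 : Tr := .c 3 q120 (.c 4 q121 (.c 5 q122 .e))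
noncomputable def q123 : Tr := .c 3 (.l 35) .e
noncomputable def r90 : Tr := .c 0 q75 (.c 1 q123 (.c 3 q120 (.c 5 q122 .e)))
noncomputable def t45 : Tr := .c 1 r86 (.c 2 r89 (.c 6 r90 .e))
noncomputable def t46 : Tr := .c 1 r86 (.c 2 r89 (.c 5 r88 .e))
noncomputable def q124 : Tr := .c 3 (.l 27) .e
noncomputable def q125 : Tr := .c 0 (.l 28) (.c 1 (.l 28) (.c 3 (.l 28) (.c 5 (.l 28) .e)))
noncomputable def r91 : Tr := .c 1 q124 (.c 2 q36 (.c 6 q125 .e))
noncomputable def q126 : Tr := .c 0 (.l 71) .e
noncomputable def r92 : Tr := .c 1 q124 (.c 2 q36 (.c 5 q126 .e))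
noncomputable def q127 : Tr := .c 1 (.l 33) .e
noncomputable def r93 : Tr := .c 0 q38 (.c 1 q124 (.c 3 q127 (.c 5 q126 .e)))
noncomputable def t47 : Tr := .c 3 r91 (.c 4 r92 (.c 6 r93 .e))
noncomputable def q128 : Tr := .c 0 (.l 72) .e
noncomputable def r94 : Tr := .c 1 q119 (.c 2 q41 (.c 5 q128 .e))
noncomputable def t48 : Tr := .c 3 r87 (.c 4 r94 (.c 5 r88 .e))
noncomputable def q129 : Tr := .c 3 (.l 34) .e
noncomputable def q130 : Tr := .c 1 (.l 50) .e
noncomputable def q131 : Tr := .c 0 (.l 73) .e
noncomputable def r95 : Tr := .c 0 q46 (.c 1 q129 (.c 3 q130 (.c 5 q131 .e)))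
noncomputable def t49 : Tr := .c 5 r88 (.c 6 r95 .e)

/-- the diagram -/
noncomputable def T : Tr := (.c 0 (.c 5 (.c 0 t0 (.c 2 t1 (.c 4 t2 (.c 6 t3 .e)))) (.c 6 (.c 0 t4 (.c 1 t5 (.c 3 t6 (.c 5
t7 .e)))) .e)) (.c 1 (.c 3 (.c 1 t8 (.c 2 t9 (.c 6 t10 .e))) (.c 4 (.c 1 t8 (.c 2 t9 (.c 5 t11
.e))) (.c 6 (.c 0 t12 (.c 1 t8 (.c 3 t13 (.c 5 t11 .e)))) .e))) (.c 2 (.c 3 (.c 1 t14 (.c 2 t15
(.c 6 t16 .e))) (.c 4 (.c 1 t14 (.c 2 t15 (.c 5 t17 .e))) (.c 5 (.c 0 t18 (.c 2 t15 (.c 4 t19
(.c 6 t16 .e)))) .e))) (.c 3 (.c 1 (.c 3 t20 (.c 4 t21 (.c 6 t22 .e))) (.c 2 (.c 3 t23 (.c 4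
t24 (.c 5 t25 .e))) (.c 6 (.c 0 t26 (.c 1 t27 (.c 3 t23 (.c 5 t25 .e)))) .e))) (.c 4 (.c 1 (.c
3 t28 (.c 4 t29 (.c 6 t30 .e))) (.c 2 (.c 3 t31 (.c 4 t32 (.c 5 t33 .e))) (.c 5 (.c 0 t34 (.c 2
t35 (.c 4 t29 (.c 6 t30 .e)))) .e))) (.c 5 (.c 0 (.c 5 t36 (.c 6 t37 .e)) (.c 2 (.c 3 t38 (.c 4
t39 (.c 5 t36 .e))) (.c 4 (.c 1 t40 (.c 2 t41 (.c 5 t36 .e))) (.c 6 (.c 0 t42 (.c 1 t40 (.c 3
t38 (.c 5 t36 .e)))) .e)))) (.c 6 (.c 0 (.c 5 t43 (.c 6 t44 .e)) (.c 1 (.c 3 t45 (.c 4 t46 (.c
6 t44 .e))) (.c 3 (.c 1 t47 (.c 2 t48 (.c 6 t44 .e))) (.c 5 (.c 0 t49 (.c 2 t48 (.c 4 t46 (.c 6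
t44 .e)))) .e)))) .e)))))))

theorem k0 : chkQ0 D J R 74 T = true := by decide +kernel
theorem pr : Fast.preF D J 74 T = true := by decide +kernel
theorem c0 : csP D J T 0 = true := csP_of_csF pr (by decide +kernel)
theorem c1 : csP D J T 1 = true := csP_of_csF pr (by decide +kernel)
theorem c2 : csP D J T 2 = true := csP_of_csF pr (by decide +kernel)
theorem c3 : csP D J T 3 = true := csP_of_csF pr (by decide +kernel)
theorem c4 : csP D J T 4 = true := csP_of_csF pr (by decide +kernel)
theorem c5 : csP D J T 5 = true := csP_of_csF pr (by decide +kernel)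
theorem c6 : csP D J T 6 = true := csP_of_csF pr (by decide +kernel)
theorem c7 : csP D J T 7 = true := csP_of_csF pr (by decide +kernel)
theorem c8 : csP D J T 8 = true := csP_of_csF pr (by decide +kernel)
theorem c9 : csP D J T 9 = true := csP_of_csF pr (by decide +kernel)
theorem c10 : csP D J T 10 = true := csP_of_csF pr (by decide +kernel)
theorem c11 : csP D J T 11 = true := csP_of_csF pr (by decide +kernel)
theorem c12 : csP D J T 12 = true := csP_of_csF pr (by decide +kernel)
theorem c13 : csP D J T 13 = true := csP_of_csF pr (by decide +kernel)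
theorem c14 : csP D J T 14 = true := csP_of_csF pr (by decide +kernel)
theorem c15 : csP D J T 15 = true := csP_of_csF pr (by decide +kernel)

theorem cs : ∀ p < D.N, csP D J T p = true := by
  intro p hp
  have hp : p < 16 := hp
  interval_cases p
  · exact c0
  · exact c1
  · exact c2
  · exact c3
  · exact c4
  · exact c5
  · exact c6
  · exact c7
  · exact c8
  · exact c9
  · exact c10
  · exact c11
  · exact c12
  · exact c13
  · exact c14
  · exact c15

/-- the box table -/
theorem tab : BoxTab D := boxTab_of (by decide) (by decide) k0 cs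

end F30a

/-! ### 01 02 03 14 15 24 35 (13|50: 50 never) -/

namespace F30b

/-- the data -/
def D : Dat where
  A := 7
  N := 16
  nb := [96, 88, 56, 70, 38, 85, 43]
  op := [127, 127, 127, 127, 127, 127, 127]
  nbT := [96, 32856, 16440, 10310, 6182, 42325, 21163, 41024, 20512, 43072, 22560, 50712, 42320, 21160,
44356, 23202]
  opT := [65535, 32767, 49151, 55295, 59391, 23295, 44415, 65471, 65503, 65471, 65503, 65511, 65455,
65495, 65467, 65501]
  PL := [[0], [1], [2], [3], [4], [5], [6], [0, 1], [0, 2], [0, 3], [0, 4], [1, 2], [1, 5], [2, 6], [3,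
5], [4, 6]]
  L := [3, 5, 9, 18, 34, 20, 40]
  P := [3, 5, 9, 18, 34, 20, 40, 7, 11, 19, 35, 13, 21, 41, 22, 42]
  r := 0
  tie := [0, 0, 0, 0, 0, 0, 0, 0, 0, 0, 0, 0, 0, 0, 0, 0]

/-- changes of the value at a tie -/
def J : List (List ℕ) := [[]]

/-- reachable values -/
def R : List (List ℕ) := [[1], [2], [4], [8], [0x10], [0x20], [0x40], [0x80], [0x100], [0x200], [0x400], [0x800],
[0x1000], [0x2000], [0x4000], [0x8000], [0x10000], [0x20000], [0x40000], [0x80000], [0x100000],
[0x200000], [0x400000], [0x800000], [0x1000000], [0x2000000], [0x4000000], [0x8000000],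
[0x10000000], [0x20000000], [0x40000000], [0x80000000], [0x100000000], [0x200000000],
[0x400000000], [0x800000000], [0x1000000000], [0x2000000000], [0x4000000000], [0x8000000000],
[0x10000000000], [0x20000000000], [0x40000000000], [0x80000000000], [0x100000000000],
[0x200000000000], [0x400000000000], [0x800000000000], [0x1000000000000], [0x2000000000000],
[0x4000000000000], [0x8000000000000], [0x10000000000000], [0x20000000000000],
[0x40000000000000], [0x80000000000000], [0x100000000000000], [0x200000000000000],
[0x400000000000000], [0x800000000000000], [0x1000000000000000], [0x2000000000000000],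
[0x4000000000000000], [0x8000000000000000], [0x10000000000000000], [0x20000000000000000],
[0x40000000000000000], [0x80000000000000000], [0x100000000000000000], [0x200000000000000000],
[0x400000000000000000], [0x800000000000000000], [0x1000000000000000000],
[0x2000000000000000000]]

noncomputable def q0 : Tr := .c 5 (.l 0) (.c 6 (.l 1) .e)
noncomputable def q1 : Tr := .c 5 (.l 0) .e
noncomputable def r0 : Tr := .c 0 q0 (.c 2 q1 (.c 4 q1 (.c 6 q1 .e)))
noncomputable def q2 : Tr := .c 5 (.l 2) (.c 6 (.l 3) .e)
noncomputable def q3 : Tr := .c 6 (.l 3) .e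
noncomputable def r1 : Tr := .c 0 q2 (.c 1 q3 (.c 3 q3 (.c 5 q3 .e)))
noncomputable def t0 : Tr := .c 5 r0 (.c 6 r1 .e)
noncomputable def q4 : Tr := .c 6 (.l 4) .e
noncomputable def r2 : Tr := .c 1 q4 (.c 2 q1 (.c 6 q1 .e))
noncomputable def q5 : Tr := .c 6 (.l 5) .e
noncomputable def q6 : Tr := .c 5 (.l 6) .e
noncomputable def r3 : Tr := .c 1 q5 (.c 2 q6 (.c 5 q5 .e))
noncomputable def t1 : Tr := .c 3 r2 (.c 4 r3 (.c 5 r0 .e))
noncomputable def q7 : Tr := .c 6 (.l 7) .e
noncomputable def r4 : Tr := .c 3 q7 (.c 4 q1 (.c 6 q1 .e))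
noncomputable def r5 : Tr := .c 3 q7 (.c 4 q1 (.c 5 q7 .e))
noncomputable def t2 : Tr := .c 1 r4 (.c 2 r5 (.c 5 r0 .e))
noncomputable def q8 : Tr := .c 6 (.l 8) .e
noncomputable def r6 : Tr := .c 5 q8 (.c 6 q1 .e)
noncomputable def t3 : Tr := .c 0 r6 (.c 1 r4 (.c 3 r2 (.c 5 r0 .e)))
noncomputable def q9 : Tr := .c 5 (.l 9) (.c 6 (.l 10) .e)
noncomputable def q10 : Tr := .c 5 (.l 9) .e
noncomputable def r7 : Tr := .c 0 q9 (.c 2 q10 (.c 4 q10 (.c 6 q10 .e)))
noncomputable def q11 : Tr := .c 5 (.l 11) (.c 6 (.l 12) .e)
noncomputable def q12 : Tr := .c 6 (.l 12) .e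
noncomputable def r8 : Tr := .c 0 q11 (.c 1 q12 (.c 3 q12 (.c 5 q12 .e)))
noncomputable def t4 : Tr := .c 5 r7 (.c 6 r8 .e)
noncomputable def q13 : Tr := .c 6 (.l 13) .e
noncomputable def q14 : Tr := .c 5 (.l 14) .e
noncomputable def r9 : Tr := .c 1 q13 (.c 2 q14 (.c 6 q14 .e))
noncomputable def q15 : Tr := .c 5 (.l 15) .e
noncomputable def r10 : Tr := .c 1 q12 (.c 2 q15 (.c 5 q12 .e))
noncomputable def t5 : Tr := .c 3 r9 (.c 4 r10 (.c 6 r8 .e))
noncomputable def q16 : Tr := .c 5 (.l 16) .e
noncomputable def r11 : Tr := .c 3 q12 (.c 4 q16 (.c 6 q16 .e))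
noncomputable def r12 : Tr := .c 3 q12 (.c 4 q16 (.c 5 q12 .e))
noncomputable def t6 : Tr := .c 1 r11 (.c 2 r12 (.c 6 r8 .e))
noncomputable def q17 : Tr := .c 5 (.l 17) .e
noncomputable def r13 : Tr := .c 5 q12 (.c 6 q17 .e)
noncomputable def t7 : Tr := .c 0 r13 (.c 2 r12 (.c 4 r10 (.c 6 r8 .e)))
noncomputable def q18 : Tr := .c 3 (.l 0) (.c 4 (.l 18) (.c 6 (.l 18) .e))
noncomputable def q19 : Tr := .c 3 (.l 0) (.c 4 (.l 18) .e)
noncomputable def q20 : Tr := .c 3 (.l 0) .e
noncomputable def r14 : Tr := .c 1 q18 (.c 2 q19 (.c 6 q20 .e))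
noncomputable def q21 : Tr := .c 3 (.l 6) (.c 4 (.l 19) (.c 6 (.l 19) .e))
noncomputable def q22 : Tr := .c 3 (.l 6) (.c 4 (.l 19) .e)
noncomputable def q23 : Tr := .c 4 (.l 19) (.c 6 (.l 19) .e)
noncomputable def r15 : Tr := .c 1 q21 (.c 2 q22 (.c 5 q23 .e))
noncomputable def q24 : Tr := .c 6 (.l 19) .e
noncomputable def r16 : Tr := .c 0 q24 (.c 1 q21 (.c 3 q24 (.c 5 q23 .e)))
noncomputable def t8 : Tr := .c 3 r14 (.c 4 r15 (.c 6 r16 .e))
noncomputable def q25 : Tr := .c 6 (.l 20) .e
noncomputable def r17 : Tr := .c 0 q25 (.c 2 q19 (.c 6 q20 .e))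
noncomputable def t9 : Tr := .c 3 r14 (.c 4 r15 (.c 5 r17 .e))
noncomputable def q26 : Tr := .c 4 (.l 21) (.c 6 (.l 21) .e)
noncomputable def r18 : Tr := .c 5 q26 (.c 6 q20 .e)
noncomputable def q27 : Tr := .c 6 (.l 22) .e
noncomputable def r19 : Tr := .c 3 q27 (.c 6 q20 .e)
noncomputable def t10 : Tr := .c 0 r18 (.c 1 r19 (.c 3 r14 (.c 5 r17 .e)))
noncomputable def q28 : Tr := .c 3 (.l 23) (.c 4 (.l 13) (.c 6 (.l 13) .e))
noncomputable def q29 : Tr := .c 3 (.l 23) (.c 4 (.l 13) .e)
noncomputable def q30 : Tr := .c 3 (.l 23) .e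
noncomputable def r20 : Tr := .c 1 q28 (.c 2 q29 (.c 6 q30 .e))
noncomputable def q31 : Tr := .c 3 (.l 24) (.c 4 (.l 12) (.c 6 (.l 12) .e))
noncomputable def q32 : Tr := .c 3 (.l 24) (.c 4 (.l 12) .e)
noncomputable def q33 : Tr := .c 4 (.l 12) (.c 6 (.l 12) .e)
noncomputable def r21 : Tr := .c 1 q31 (.c 2 q32 (.c 5 q33 .e))
noncomputable def r22 : Tr := .c 0 q12 (.c 1 q31 (.c 3 q12 (.c 5 q33 .e)))
noncomputable def t11 : Tr := .c 3 r20 (.c 4 r21 (.c 6 r22 .e))
noncomputable def q34 : Tr := .c 6 (.l 25) .e
noncomputable def r23 : Tr := .c 0 q34 (.c 2 q29 (.c 6 q30 .e))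
noncomputable def t12 : Tr := .c 3 r20 (.c 4 r21 (.c 5 r23 .e))
noncomputable def q35 : Tr := .c 3 (.l 26) .e
noncomputable def r24 : Tr := .c 5 q33 (.c 6 q35 .e)
noncomputable def r25 : Tr := .c 3 q12 (.c 5 q33 .e)
noncomputable def t13 : Tr := .c 0 r24 (.c 2 r25 (.c 4 r21 (.c 6 r22 .e)))
noncomputable def q36 : Tr := .c 6 (.l 10) .e
noncomputable def q37 : Tr := .c 3 (.l 27) (.c 4 (.l 28) .e)
noncomputable def q38 : Tr := .c 3 (.l 27) .e
noncomputable def r26 : Tr := .c 0 q36 (.c 2 q37 (.c 6 q38 .e))
noncomputable def t14 : Tr := .c 5 r26 (.c 6 r22 .e)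
noncomputable def q39 : Tr := .c 3 (.l 29) .e
noncomputable def r27 : Tr := .c 3 q12 (.c 6 q39 .e)
noncomputable def t15 : Tr := .c 1 r27 (.c 2 r25 (.c 6 r22 .e))
noncomputable def q40 : Tr := .c 3 (.l 0) (.c 4 (.l 18) (.c 5 (.l 0) .e))
noncomputable def q41 : Tr := .c 3 (.l 0) (.c 5 (.l 0) .e)
noncomputable def r28 : Tr := .c 1 q19 (.c 2 q40 (.c 6 q41 .e))
noncomputable def q42 : Tr := .c 3 (.l 6) (.c 4 (.l 19) (.c 5 (.l 6) .e))
noncomputable def q43 : Tr := .c 4 (.l 19) .e
noncomputable def r29 : Tr := .c 1 q22 (.c 2 q42 (.c 5 q43 .e))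
noncomputable def q44 : Tr := .c 5 (.l 30) .e
noncomputable def r30 : Tr := .c 0 q44 (.c 1 q22 (.c 5 q43 .e))
noncomputable def t16 : Tr := .c 3 r28 (.c 4 r29 (.c 6 r30 .e))
noncomputable def r31 : Tr := .c 0 q1 (.c 2 q40 (.c 4 q1 (.c 6 q41 .e)))
noncomputable def t17 : Tr := .c 3 r28 (.c 4 r29 (.c 5 r31 .e))
noncomputable def q45 : Tr := .c 4 (.l 21) .e
noncomputable def r32 : Tr := .c 5 q45 (.c 6 q41 .e)
noncomputable def r33 : Tr := .c 4 q1 (.c 6 q41 .e)
noncomputable def t18 : Tr := .c 0 r32 (.c 1 r33 (.c 3 r28 (.c 5 r31 .e)))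
noncomputable def q46 : Tr := .c 3 (.l 23) (.c 4 (.l 13) (.c 5 (.l 23) .e))
noncomputable def q47 : Tr := .c 3 (.l 23) (.c 5 (.l 23) .e)
noncomputable def r34 : Tr := .c 1 q29 (.c 2 q46 (.c 6 q47 .e))
noncomputable def q48 : Tr := .c 3 (.l 24) (.c 4 (.l 12) (.c 5 (.l 24) .e))
noncomputable def q49 : Tr := .c 4 (.l 12) .e
noncomputable def r35 : Tr := .c 1 q32 (.c 2 q48 (.c 5 q49 .e))
noncomputable def q50 : Tr := .c 5 (.l 31) .e
noncomputable def r36 : Tr := .c 0 q50 (.c 1 q32 (.c 5 q49 .e))
noncomputable def t19 : Tr := .c 3 r34 (.c 4 r35 (.c 6 r36 .e))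
noncomputable def q51 : Tr := .c 5 (.l 23) .e
noncomputable def r37 : Tr := .c 0 q51 (.c 2 q46 (.c 4 q51 (.c 6 q47 .e)))
noncomputable def t20 : Tr := .c 3 r34 (.c 4 r35 (.c 5 r37 .e))
noncomputable def q52 : Tr := .c 3 (.l 26) (.c 5 (.l 26) .e)
noncomputable def r38 : Tr := .c 5 q49 (.c 6 q52 .e)
noncomputable def q53 : Tr := .c 5 (.l 29) .e
noncomputable def r39 : Tr := .c 4 q53 (.c 5 q49 .e)
noncomputable def t21 : Tr := .c 0 r38 (.c 2 r39 (.c 4 r35 (.c 6 r36 .e)))
noncomputable def q54 : Tr := .c 5 (.l 2) .e
noncomputable def q55 : Tr := .c 3 (.l 32) (.c 4 (.l 33) .e)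
noncomputable def q56 : Tr := .c 4 (.l 33) .e
noncomputable def r40 : Tr := .c 0 q54 (.c 1 q55 (.c 5 q56 .e))
noncomputable def t22 : Tr := .c 5 r31 (.c 6 r40 .e)
noncomputable def q57 : Tr := .c 4 (.l 22) .e
noncomputable def r41 : Tr := .c 4 q1 (.c 5 q57 .e)
noncomputable def t23 : Tr := .c 1 r33 (.c 2 r41 (.c 5 r31 .e))
noncomputable def q58 : Tr := .c 1 (.l 12) (.c 2 (.l 12) (.c 6 (.l 12) .e))
noncomputable def q59 : Tr := .c 1 (.l 34) (.c 2 (.l 34) .e)
noncomputable def q60 : Tr := .c 1 (.l 34) .e
noncomputable def r42 : Tr := .c 3 q58 (.c 4 q59 (.c 6 q60 .e))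
noncomputable def q61 : Tr := .c 2 (.l 12) (.c 6 (.l 12) .e)
noncomputable def r43 : Tr := .c 3 q58 (.c 4 q59 (.c 5 q61 .e))
noncomputable def r44 : Tr := .c 0 q12 (.c 1 q12 (.c 3 q58 (.c 5 q61 .e)))
noncomputable def t24 : Tr := .c 1 r42 (.c 2 r43 (.c 6 r44 .e))
noncomputable def q62 : Tr := .c 1 (.l 35) (.c 2 (.l 35) (.c 6 (.l 35) .e))
noncomputable def q63 : Tr := .c 1 (.l 36) (.c 2 (.l 36) .e)
noncomputable def q64 : Tr := .c 1 (.l 36) .e
noncomputable def r45 : Tr := .c 3 q62 (.c 4 q63 (.c 6 q64 .e))
noncomputable def q65 : Tr := .c 2 (.l 35) (.c 6 (.l 35) .e)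
noncomputable def r46 : Tr := .c 3 q62 (.c 4 q63 (.c 5 q65 .e))
noncomputable def q66 : Tr := .c 6 (.l 37) .e
noncomputable def r47 : Tr := .c 0 q66 (.c 4 q63 (.c 6 q64 .e))
noncomputable def t25 : Tr := .c 1 r45 (.c 2 r46 (.c 5 r47 .e))
noncomputable def q67 : Tr := .c 2 (.l 38) (.c 6 (.l 38) .e)
noncomputable def r48 : Tr := .c 5 q67 (.c 6 q64 .e)
noncomputable def q68 : Tr := .c 6 (.l 39) .e
noncomputable def r49 : Tr := .c 1 q68 (.c 6 q64 .e)
noncomputable def t26 : Tr := .c 0 r48 (.c 1 r45 (.c 3 r49 (.c 5 r47 .e)))
noncomputable def q69 : Tr := .c 1 (.l 40) .e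
noncomputable def r50 : Tr := .c 5 q61 (.c 6 q69 .e)
noncomputable def r51 : Tr := .c 1 q12 (.c 5 q61 .e)
noncomputable def t27 : Tr := .c 0 r50 (.c 2 r43 (.c 4 r51 (.c 6 r44 .e)))
noncomputable def q70 : Tr := .c 1 (.l 41) (.c 2 (.l 41) .e)
noncomputable def q71 : Tr := .c 1 (.l 41) .e
noncomputable def r52 : Tr := .c 0 q36 (.c 4 q70 (.c 6 q71 .e))
noncomputable def t28 : Tr := .c 5 r52 (.c 6 r44 .e)
noncomputable def q72 : Tr := .c 1 (.l 42) .e
noncomputable def r53 : Tr := .c 1 q13 (.c 6 q72 .e)
noncomputable def t29 : Tr := .c 3 r53 (.c 4 r51 (.c 6 r44 .e))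
noncomputable def q73 : Tr := .c 1 (.l 43) (.c 2 (.l 43) .e)
noncomputable def q74 : Tr := .c 1 (.l 44) (.c 2 (.l 44) (.c 5 (.l 44) .e))
noncomputable def q75 : Tr := .c 1 (.l 44) (.c 5 (.l 44) .e)
noncomputable def r54 : Tr := .c 3 q73 (.c 4 q74 (.c 6 q75 .e))
noncomputable def q76 : Tr := .c 2 (.l 43) .e
noncomputable def r55 : Tr := .c 3 q73 (.c 4 q74 (.c 5 q76 .e))
noncomputable def q77 : Tr := .c 5 (.l 45) .e
noncomputable def r56 : Tr := .c 0 q77 (.c 3 q73 (.c 5 q76 .e))
noncomputable def t30 : Tr := .c 1 r54 (.c 2 r55 (.c 6 r56 .e))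
noncomputable def q78 : Tr := .c 1 (.l 46) (.c 2 (.l 46) .e)
noncomputable def q79 : Tr := .c 1 (.l 0) (.c 2 (.l 0) (.c 5 (.l 0) .e))
noncomputable def q80 : Tr := .c 1 (.l 0) (.c 5 (.l 0) .e)
noncomputable def r57 : Tr := .c 3 q78 (.c 4 q79 (.c 6 q80 .e))
noncomputable def q81 : Tr := .c 2 (.l 46) .e
noncomputable def r58 : Tr := .c 3 q78 (.c 4 q79 (.c 5 q81 .e))
noncomputable def r59 : Tr := .c 0 q1 (.c 2 q1 (.c 4 q79 (.c 6 q80 .e)))
noncomputable def t31 : Tr := .c 1 r57 (.c 2 r58 (.c 5 r59 .e))
noncomputable def q82 : Tr := .c 2 (.l 47) .e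
noncomputable def r60 : Tr := .c 5 q82 (.c 6 q80 .e)
noncomputable def r61 : Tr := .c 2 q1 (.c 6 q80 .e)
noncomputable def t32 : Tr := .c 0 r60 (.c 1 r57 (.c 3 r61 (.c 5 r59 .e)))
noncomputable def q83 : Tr := .c 1 (.l 48) (.c 5 (.l 48) .e)
noncomputable def r62 : Tr := .c 5 q76 (.c 6 q83 .e)
noncomputable def q84 : Tr := .c 5 (.l 49) .e
noncomputable def r63 : Tr := .c 2 q84 (.c 5 q76 .e)
noncomputable def t33 : Tr := .c 0 r62 (.c 2 r55 (.c 4 r63 (.c 6 r56 .e)))
noncomputable def q85 : Tr := .c 1 (.l 50) (.c 2 (.l 50) .e)
noncomputable def q86 : Tr := .c 2 (.l 50) .e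
noncomputable def r64 : Tr := .c 0 q54 (.c 3 q85 (.c 5 q86 .e))
noncomputable def t34 : Tr := .c 5 r59 (.c 6 r64 .e)
noncomputable def q87 : Tr := .c 2 (.l 51) .e
noncomputable def r65 : Tr := .c 2 q6 (.c 5 q87 .e)
noncomputable def t35 : Tr := .c 3 r61 (.c 4 r65 (.c 5 r59 .e))
noncomputable def q88 : Tr := .c 0 (.l 12) (.c 2 (.l 12) (.c 4 (.l 12) (.c 6 (.l 12) .e)))
noncomputable def q89 : Tr := .c 0 (.l 52) .e
noncomputable def r66 : Tr := .c 5 q88 (.c 6 q89 .e)
noncomputable def q90 : Tr := .c 2 (.l 34) .e
noncomputable def r67 : Tr := .c 3 q61 (.c 4 q90 (.c 5 q88 .e))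
noncomputable def r68 : Tr := .c 1 q33 (.c 2 q49 (.c 5 q88 .e))
noncomputable def r69 : Tr := .c 0 q12 (.c 1 q33 (.c 3 q61 (.c 5 q88 .e)))
noncomputable def t36 : Tr := .c 0 r66 (.c 2 r67 (.c 4 r68 (.c 6 r69 .e)))
noncomputable def q91 : Tr := .c 0 (.l 53) (.c 2 (.l 53) (.c 4 (.l 53) (.c 6 (.l 53) .e)))
noncomputable def q92 : Tr := .c 0 (.l 54) .e
noncomputable def r70 : Tr := .c 5 q91 (.c 6 q92 .e)
noncomputable def q93 : Tr := .c 2 (.l 55) (.c 6 (.l 55) .e)
noncomputable def q94 : Tr := .c 2 (.l 56) .e
noncomputable def r71 : Tr := .c 3 q93 (.c 4 q94 (.c 6 q92 .e))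
noncomputable def q95 : Tr := .c 4 (.l 57) (.c 6 (.l 57) .e)
noncomputable def q96 : Tr := .c 4 (.l 57) .e
noncomputable def r72 : Tr := .c 1 q95 (.c 2 q96 (.c 6 q92 .e))
noncomputable def q97 : Tr := .c 6 (.l 58) .e
noncomputable def r73 : Tr := .c 0 q97 (.c 2 q96 (.c 4 q94 (.c 6 q92 .e)))
noncomputable def t37 : Tr := .c 0 r70 (.c 1 r71 (.c 3 r72 (.c 5 r73 .e)))
noncomputable def q98 : Tr := .c 0 (.l 59) .e
noncomputable def r74 : Tr := .c 3 q61 (.c 4 q90 (.c 6 q98 .e))
noncomputable def t38 : Tr := .c 1 r74 (.c 2 r67 (.c 6 r69 .e))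
noncomputable def q99 : Tr := .c 2 (.l 36) .e
noncomputable def q100 : Tr := .c 0 (.l 60) .e
noncomputable def r75 : Tr := .c 3 q65 (.c 4 q99 (.c 6 q100 .e))
noncomputable def q101 : Tr := .c 0 (.l 35) (.c 2 (.l 35) (.c 4 (.l 35) (.c 6 (.l 35) .e)))
noncomputable def r76 : Tr := .c 3 q65 (.c 4 q99 (.c 5 q101 .e))
noncomputable def q102 : Tr := .c 4 (.l 39) .e
noncomputable def r77 : Tr := .c 0 q66 (.c 2 q102 (.c 4 q99 (.c 6 q100 .e)))
noncomputable def t39 : Tr := .c 1 r75 (.c 2 r76 (.c 5 r77 .e))
noncomputable def q103 : Tr := .c 4 (.l 13) (.c 6 (.l 13) .e)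
noncomputable def q104 : Tr := .c 4 (.l 13) .e
noncomputable def q105 : Tr := .c 0 (.l 61) .e
noncomputable def r78 : Tr := .c 1 q103 (.c 2 q104 (.c 6 q105 .e))
noncomputable def t40 : Tr := .c 3 r78 (.c 4 r68 (.c 6 r69 .e))
noncomputable def q106 : Tr := .c 2 (.l 42) .e
noncomputable def r79 : Tr := .c 0 q34 (.c 2 q104 (.c 4 q106 (.c 6 q105 .e)))
noncomputable def t41 : Tr := .c 3 r78 (.c 4 r68 (.c 5 r79 .e))
noncomputable def q107 : Tr := .c 4 (.l 28) .e
noncomputable def q108 : Tr := .c 2 (.l 41) .e
noncomputable def q109 : Tr := .c 0 (.l 62) .e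
noncomputable def r80 : Tr := .c 0 q36 (.c 2 q107 (.c 4 q108 (.c 6 q109 .e)))
noncomputable def t42 : Tr := .c 5 r80 (.c 6 r69 .e)
noncomputable def q110 : Tr := .c 0 (.l 63) .e
noncomputable def q111 : Tr := .c 0 (.l 64) (.c 1 (.l 64) (.c 3 (.l 64) (.c 5 (.l 64) .e)))
noncomputable def r81 : Tr := .c 5 q110 (.c 6 q111 .e)
noncomputable def q112 : Tr := .c 1 (.l 65) .e
noncomputable def q113 : Tr := .c 1 (.l 66) (.c 5 (.l 66) .e)
noncomputable def r82 : Tr := .c 3 q112 (.c 4 q113 (.c 5 q110 .e))
noncomputable def q114 : Tr := .c 3 (.l 67) .e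
noncomputable def q115 : Tr := .c 3 (.l 67) (.c 5 (.l 67) .e)
noncomputable def r83 : Tr := .c 1 q114 (.c 2 q115 (.c 5 q110 .e))
noncomputable def q116 : Tr := .c 5 (.l 68) .e
noncomputable def r84 : Tr := .c 0 q116 (.c 1 q114 (.c 3 q112 (.c 5 q110 .e)))
noncomputable def t43 : Tr := .c 0 r81 (.c 2 r82 (.c 4 r83 (.c 6 r84 .e)))
noncomputable def q117 : Tr := .c 0 (.l 69) .e
noncomputable def q118 : Tr := .c 0 (.l 0) (.c 1 (.l 0) (.c 3 (.l 0) (.c 5 (.l 0) .e)))
noncomputable def r85 : Tr := .c 5 q117 (.c 6 q118 .e)
noncomputable def q119 : Tr := .c 1 (.l 46) .e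
noncomputable def r86 : Tr := .c 3 q119 (.c 4 q80 (.c 6 q118 .e))
noncomputable def r87 : Tr := .c 1 q20 (.c 2 q41 (.c 6 q118 .e))
noncomputable def r88 : Tr := .c 0 q1 (.c 2 q41 (.c 4 q80 (.c 6 q118 .e)))
noncomputable def t44 : Tr := .c 0 r85 (.c 1 r86 (.c 3 r87 (.c 5 r88 .e)))
noncomputable def q120 : Tr := .c 1 (.l 43) .e
noncomputable def q121 : Tr := .c 0 (.l 44) (.c 1 (.l 44) (.c 3 (.l 44) (.c 5 (.l 44) .e)))
noncomputable def r89 : Tr := .c 3 q120 (.c 4 q75 (.c 6 q121 .e))
noncomputable def q122 : Tr := .c 0 (.l 70) .e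
noncomputable def r90 : Tr := .c 3 q120 (.c 4 q75 (.c 5 q122 .e))
noncomputable def q123 : Tr := .c 3 (.l 49) .e
noncomputable def r91 : Tr := .c 0 q77 (.c 1 q123 (.c 3 q120 (.c 5 q122 .e)))
noncomputable def t45 : Tr := .c 1 r89 (.c 2 r90 (.c 6 r91 .e))
noncomputable def q124 : Tr := .c 0 (.l 71) .e
noncomputable def r92 : Tr := .c 3 q119 (.c 4 q80 (.c 5 q124 .e))
noncomputable def t46 : Tr := .c 1 r86 (.c 2 r92 (.c 5 r88 .e))
noncomputable def q125 : Tr := .c 3 (.l 6) .e
noncomputable def q126 : Tr := .c 3 (.l 6) (.c 5 (.l 6) .e)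
noncomputable def q127 : Tr := .c 0 (.l 72) .e
noncomputable def r93 : Tr := .c 1 q125 (.c 2 q126 (.c 5 q127 .e))
noncomputable def q128 : Tr := .c 1 (.l 51) .e
noncomputable def r94 : Tr := .c 0 q44 (.c 1 q125 (.c 3 q128 (.c 5 q127 .e)))
noncomputable def t47 : Tr := .c 3 r87 (.c 4 r93 (.c 6 r94 .e))
noncomputable def t48 : Tr := .c 3 r87 (.c 4 r93 (.c 5 r88 .e))
noncomputable def q129 : Tr := .c 3 (.l 32) .e
noncomputable def q130 : Tr := .c 1 (.l 50) .e
noncomputable def q131 : Tr := .c 0 (.l 73) .e
noncomputable def r95 : Tr := .c 0 q54 (.c 1 q129 (.c 3 q130 (.c 5 q131 .e)))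
noncomputable def t49 : Tr := .c 5 r88 (.c 6 r95 .e)

/-- the diagram -/
noncomputable def T : Tr := (.c 0 (.c 5 (.c 0 t0 (.c 2 t1 (.c 4 t2 (.c 6 t3 .e)))) (.c 6 (.c 0 t4 (.c 1 t5 (.c 3 t6 (.c 5
t7 .e)))) .e)) (.c 1 (.c 3 (.c 1 t8 (.c 2 t9 (.c 6 t10 .e))) (.c 4 (.c 1 t11 (.c 2 t12 (.c 5
t13 .e))) (.c 6 (.c 0 t14 (.c 1 t11 (.c 3 t15 (.c 5 t13 .e)))) .e))) (.c 2 (.c 3 (.c 1 t16 (.c
2 t17 (.c 6 t18 .e))) (.c 4 (.c 1 t19 (.c 2 t20 (.c 5 t21 .e))) (.c 5 (.c 0 t22 (.c 2 t17 (.c 4
t23 (.c 6 t18 .e)))) .e))) (.c 3 (.c 1 (.c 3 t24 (.c 4 t25 (.c 6 t26 .e))) (.c 2 (.c 3 t24 (.c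
4 t25 (.c 5 t27 .e))) (.c 6 (.c 0 t28 (.c 1 t29 (.c 3 t24 (.c 5 t27 .e)))) .e))) (.c 4 (.c 1
(.c 3 t30 (.c 4 t31 (.c 6 t32 .e))) (.c 2 (.c 3 t30 (.c 4 t31 (.c 5 t33 .e))) (.c 5 (.c 0 t34
(.c 2 t35 (.c 4 t31 (.c 6 t32 .e)))) .e))) (.c 5 (.c 0 (.c 5 t36 (.c 6 t37 .e)) (.c 2 (.c 3 t38
(.c 4 t39 (.c 5 t36 .e))) (.c 4 (.c 1 t40 (.c 2 t41 (.c 5 t36 .e))) (.c 6 (.c 0 t42 (.c 1 t40
(.c 3 t38 (.c 5 t36 .e)))) .e)))) (.c 6 (.c 0 (.c 5 t43 (.c 6 t44 .e)) (.c 1 (.c 3 t45 (.c 4
t46 (.c 6 t44 .e))) (.c 3 (.c 1 t47 (.c 2 t48 (.c 6 t44 .e))) (.c 5 (.c 0 t49 (.c 2 t48 (.c 4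
t46 (.c 6 t44 .e)))) .e)))) .e)))))))

theorem k0 : chkQ0 D J R 74 T = true := by decide +kernel
theorem pr : Fast.preF D J 74 T = true := by decide +kernel
theorem c0 : csP D J T 0 = true := csP_of_csF pr (by decide +kernel)
theorem c1 : csP D J T 1 = true := csP_of_csF pr (by decide +kernel)
theorem c2 : csP D J T 2 = true := csP_of_csF pr (by decide +kernel)
theorem c3 : csP D J T 3 = true := csP_of_csF pr (by decide +kernel)
theorem c4 : csP D J T 4 = true := csP_of_csF pr (by decide +kernel)
theorem c5 : csP D J T 5 = true := csP_of_csF pr (by decide +kernel)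
theorem c6 : csP D J T 6 = true := csP_of_csF pr (by decide +kernel)
theorem c7 : csP D J T 7 = true := csP_of_csF pr (by decide +kernel)
theorem c8 : csP D J T 8 = true := csP_of_csF pr (by decide +kernel)
theorem c9 : csP D J T 9 = true := csP_of_csF pr (by decide +kernel)
theorem c10 : csP D J T 10 = true := csP_of_csF pr (by decide +kernel)
theorem c11 : csP D J T 11 = true := csP_of_csF pr (by decide +kernel)
theorem c12 : csP D J T 12 = true := csP_of_csF pr (by decide +kernel)
theorem c13 : csP D J T 13 = true := csP_of_csF pr (by decide +kernel)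
theorem c14 : csP D J T 14 = true := csP_of_csF pr (by decide +kernel)
theorem c15 : csP D J T 15 = true := csP_of_csF pr (by decide +kernel)

theorem cs : ∀ p < D.N, csP D J T p = true := by
  intro p hp
  have hp : p < 16 := hp
  interval_cases p
  · exact c0
  · exact c1
  · exact c2
  · exact c3
  · exact c4
  · exact c5
  · exact c6
  · exact c7
  · exact c8
  · exact c9
  · exact c10
  · exact c11
  · exact c12
  · exact c13
  · exact c14
  · exact c15

/-- the box table -/
theorem tab : BoxTab D := boxTab_of (by decide) (by decide) k0 cs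

end F30b

/-! ### 01 02 03 14 15 24 35 (13|50: tie) -/

namespace F30t

/-- the data -/
def D : Dat where
  A := 7
  N := 17
  nb := [96, 88, 56, 70, 38, 85, 43]
  op := [127, 127, 127, 127, 127, 127, 127]
  nbT := [96, 98392, 81976, 10310, 6182, 42325, 21163, 106560, 86048, 43072, 22560, 116248, 107856,
86696, 44356, 23202, 14726]
  opT := [63487, 30719, 47103, 55295, 59391, 21247, 42367, 63423, 63455, 63423, 63455, 65536, 63407,
63447, 63419, 63453, 2048]
  PL := [[0], [1], [2], [3], [4], [5], [6], [0, 1], [0, 2], [0, 3], [0, 4], [1, 2], [1, 5], [2, 6], [3,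
5], [4, 6], [3, 4]]
  L := [3, 5, 9, 18, 34, 20, 40]
  P := [3, 5, 9, 18, 34, 20, 40, 7, 11, 19, 35, 13, 21, 41, 22, 42, 50]
  r := 1
  tie := [0, 0, 0, 0, 0, 0, 0, 0, 0, 0, 0, 1, 0, 0, 0, 0, 0]

/-- changes of the value at a tie -/
def J : List (List ℕ) := [[], [0x264d800000001881815002d28380000000a250000320605400b4a0e00000004894000000241, 2, 4, 8,
0x10,
0x20, 0x2000000001400000000004894000000041, 0x80,
0x100,
0x1000000000500000000000a2500000000000000000000000000000000000201, 0x400, 0x800,
0x1000,
0x2000,
0x152a01801400048800001924c34c0002d800090001220000034930d30000b6004c000,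
0x9000122000001000003000000000c000,
0x10000, 0x20000,
0x1400048800000800000c00000000000000000000000000000000000044000, 0x80000,
0x100000, 0x200000,
0x1080000048003012c00000, 0x2100000090003024c00000, 0x1000000,
0x420000004800c086400000,
0x840000009000c106800000, 0x8000000,
0x10800003000600b0400000,
0x10001000000000000000000000000000000000000000002100800400060b70804000,
0x10001000000000000000000000000000000000000000000000800400000b60004000,
0x4200000300180192000000,
0x10001000000000000000000000000000000000000000008400800400180be4004000,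
0x10001000000000000000000000000000000000000000000000800400000b60004000,
0x400000000,
0x10001000000000000000000000000000000000000000000000800400000b60004000,
0x120000005000027000c00000,
0x24000000a00004b000c00000, 0x200000000140000000500489d006000041,
0x88000000a00010e006000000,
0x2000000001400000000004894000000041, 0x1200000500000e1030000000,
0x2400000a0000162030000000,
0x20000000014000000500049b4180000041, 0x8800000a00001c8180000000,
0x200000000000,
0x400000000000, 0x2000000001400000000004894000000041, 0x1000000000000,
0x2000000000000,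
0x2000000001400000000004894000000041,
0x110000000003158000002400000,
0x900012200000100030b800000480c000,
0x9000122000001000003000000000c000,
0x44000000000c2c8000002400000,
0x88000000000c4d0000004800000,
0x140000000000000000000000000000000000000000110000024130b08000090004000,
0x4400000000c0740000090000000,
0x100010000000000000000000000000000000000008800000008c0680000b60004000,
0x140000000000000000000000000000000000000000000000024130900000000004000,
0x84000000000017018005000000000,
0x10800000000002b01800a000000000,
0x21000000000004d0c0005000000000,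
0x42000000000008e0c000a000000000,
0x1400000000000000000000000000000000000000840000000241719000a0000004000,
0x1400000000000000000000000000000000000001080000000241b2900140000004000,
0x2100000000000d46000a0000000000,
0x4200000000000e8600140000000000,
0x140000000000000000000000000000000000000000000000024130900000000004000,
0x200000000000000000,
0x400000000000000000,
0x10001000000000000000000000000000000000000000000000800400000b60004000,
0x1000000000000000000,
0x2000000000000000000,
0x140000000000000000000000000000000000000000000000024130900000000004000,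
0x8000000000000000000,
0x9000122000001000003000000000c000,
0x140000000000000000000000000000000000000000000000024130900000000004000,
0x40000000000000000000,
0x50061380000000000010400000,
0xa0062580000000000020800000,
0x60000000000000000000000000000000000000001200000052084e80000000000082000001,
0x600000000000000000000000000000000000000012000000a2088f00000000000104000001,
0x60000000000000000000000000000000000000001200000002080e00000000000000000001,
0x500307080000000000010400000,
0xa0030b100000000000020800000, 0x500c0d200000000000082000000,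
0xa00c0e400000000000104000000,
0x10000000000000000000000,
0x200100000000000000000000000000000000000000006054008160180000000021000000001,
0x280002e0180000000042000000000,
0x600000000000000000000000000000000000000012000280028c0e00000000108000000001,
0x280000723000000000021000000000,
0x500000b43000000000042000000000,
0x2000280001d0c000000004894000000041,
0x500000e8c000000000108000000000,
0x2000000001400000000004894000000041,
0x60000000000000000000000000000000000000001200000002080e00000000000000000001,
0x4000000000000000000000000,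
0x200100000000000000000000000000000000000000006054008020000000000000000000001,
0xc170000280000108000000000000,
0x9000d2b000051000003000000000c000,
0x304d0000280000240000000000000,
0x308e0000500000480000000000000,
0x180710005000000108000000000000,
0x90181b2000a01000003000000000c000,
0x600d40005000000240000000000000,
0x600e8000a000000480000000000000,
0x9000122000001000003000000000c000,
0x2000000000000000000000000000,
0x2001000000000000000000000000000000000000000060dc038020000011000000000000001,
0x12c0300c0000022000000000000000,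
0x2001000000000000000000000000000000000000000062740c8020000044000000000000001,
0x4380c00c0000088000000000000000,
0x200100000000000000000000000000000000000000006054008020000000000000000000001,
0x384300500000011000000000000000,
0x588300a00000022000000000000000,
0x690c00500000044000000000000000,
0x720c00a00000088000000000000000,
0x800000000000000000000000000000,
0x1000000000000000000000000000000,
0x200100000000000000000000000000000000000000006054008020000000000000000000001,
0x200100000000000000000000000000000000000000006054008020000000000000000000001,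
0x8000000000000000000000000000000,
0x9000122000001000003000000000c000,
0x20000000000000000000000000000000,
0x40000000000000000000000000000000,
0x9000122000001000003000000000c000,
0x100000000000000000000000000000000,
0x60000000000000000000000000000000000000001200000002080e00000000000000000001,
0x400000000000000000000000000000000,
0x800000000000000000000000000000000,
0x60000000000000000000000000000000000000001200000002080e00000000000000000001,
0x2000000001400000000004894000000041,
0x4000000000000000000000000000000000,
0x8000000000000000000000000000000000,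
0x420000012000c04b0000000000000000000000000000000000,
0x840000024000c0930000000000000000000000000000000000,
0x40000000000000000000000000000000000,
0x108000001200302190000000000000000000000000000000000,
0x2100000024003041a0000000000000000000000000000000000,
0x200000000000000000000000000000000000,
0x4200000c001802c10000000000000000000000000000000000,
0x20080000000000008402001000182dc20000000000000000000000000000004000,
0x20080000000000000002001000002d800000000000000000000000000000004000,
0x10800000c006006480000000000000000000000000000000000,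
0x20080000000000021002001000602f900000000000000000000000000000004000,
0x20080000000000000002001000002d800000000000000000000000000000004000,
0x10000000000000000000000000000000000000,
0x20080000000000000002001000002d800000000000000000000000000000004000,
0x48000001400009c0030000000000000000000000000000000000,
0x90000002800012c0030000000000000000000000000000000000,
0x1000000000500000001400a2740180000000000000000000000000000000201,
0x22000000280004380180000000000000000000000000000000000,
0x1000000000500000000000a2500000000000000000000000000000000000201,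
0x4800001400003840c00000000000000000000000000000000000,
0x9000002800005880c00000000000000000000000000000000000,
0x1000000000500000014000a6d06000000000000000000000000000000000201,
0x22000002800007206000000000000000000000000000000000000,
0x8000000000000000000000000000000000000000,
0x10000000000000000000000000000000000000000,
0x1000000000500000000000a2500000000000000000000000000000000000201,
0x40000000000000000000000000000000000000000,
0x1000000000500000000000a2500000000000000000000000000000000000201,
0x100000000000000000000000000000000000000000,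
0x44000000000c5600000090000000000000000000000000000000000,
0x14000488000008000c2e00000120000000000000000000000000000044000,
0x1400048800000800000c00000000000000000000000000000000000044000,
0x1100000000030b200000090000000000000000000000000000000000,
0x22000000000313400000120000000000000000000000000000000000,
0x2800000000004400001104c2c200002400000000000000000000000000000004000,
0x1100000000301d000002400000000000000000000000000000000000,
0x20080000002200000002301a00002d800000000000000000000000000000004000,
0x2800000000000000001104c24000000000000000000000000000000000000004000,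
0x21000000000005c0600140000000000000000000000000000000000000,
0x4200000000000ac0600280000000000000000000000000000000000000,
0x8400000000001343000140000000000000000000000000000000000000,
0x10800000000002383000280000000000000000000000000000000000000,
0x2800000002100000001105c64002800000000000000000000000000000000004000,
0x2800000004200000001106ca4005000000000000000000000000000000000004000,
0x8400000000003518002800000000000000000000000000000000000000,
0x10800000000003a18005000000000000000000000000000000000000000,
0x2800000000000000001104c24000000000000000000000000000000000000004000,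
0x8000000000000000000000000000000000000000000000,
0x10000000000000000000000000000000000000000000000,
0x20080000000000000002001000002d800000000000000000000000000000004000,
0x40000000000000000000000000000000000000000000000,
0x80000000000000000000000000000000000000000000000,
0x2800000000000000001104c24000000000000000000000000000000000000004000,
0x200000000000000000000000000000000000000000000000,
0x400000000000000000000000000000000000000000000000,
0x1400048800000800000c00000000000000000000000000000000000044000,
0x2800000000000000001104c24000000000000000000000000000000000000004000,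
0x140184e000000000000410000000000000000000000000000000000,
0x2801896000000000000820000000000000000000000000000000000,
0xc0000000008800000148213a000000000002080000000000000000000000000000000001,
0xc0000000008800000288223c000000000004100000000000000000000000000000000001,
0xc00000000088000000082038000000000000000000000000000000000000000000000001,
0x1400c1c2000000000000410000000000000000000000000000000000,
0x2800c2c4000000000000820000000000000000000000000000000000,
0x14030348000000000002080000000000000000000000000000000000,
0x28030390000000000004100000000000000000000000000000000000,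
0x400000000000000000000000000000000000000000000000000,
0x4080000000000181500205806000000000840000000000000000000000000000000000001,
0xa0000b806000000001080000000000000000000000000000000000000,
0xc00000000088000a000a3038000000004200000000000000000000000000000000000001,
0xa00001c8c0000000000840000000000000000000000000000000000000,
0x1400002d0c0000000001080000000000000000000000000000000000000,
0x10000a0000743000000000a2500000000000000000000000000000000000201,
0x1400003a300000000004200000000000000000000000000000000000000,
0x1000000000500000000000a2500000000000000000000000000000000000201,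
0xc00000000088000000082038000000000000000000000000000000000000000000000001,
0x100000000000000000000000000000000000000000000000000000,
0x4080000000000181500200800000000000000000000000000000000000000000000000001,
0x305c0000a000004200000000000000000000000000000000000000000,
0x140034ac00014800000c00000000000000000000000000000000000044000,
0xc1340000a000009000000000000000000000000000000000000000000,
0xc23800014000012000000000000000000000000000000000000000000,
0x601c400140000004200000000000000000000000000000000000000000,
0x140606c800280800000c00000000000000000000000000000000000044000,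
0x18035000140000009000000000000000000000000000000000000000000,
0x1803a000280000012000000000000000000000000000000000000000000,
0x1400048800000800000c00000000000000000000000000000000000044000,
0x80000000000000000000000000000000000000000000000000000000,
0x4080000000000183700e00800000440000000000000000000000000000000000000000001,
0x4b00c03000000880000000000000000000000000000000000000000000,
0x4080000000000189d03200800001100000000000000000000000000000000000000000001,
0x10e03003000002200000000000000000000000000000000000000000000,
0x4080000000000181500200800000000000000000000000000000000000000000000000001,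
0xe10c014000000440000000000000000000000000000000000000000000,
0x1620c028000000880000000000000000000000000000000000000000000,
0x1a430014000001100000000000000000000000000000000000000000000,
0x1c830028000002200000000000000000000000000000000000000000000,
0x20000000000000000000000000000000000000000000000000000000000,
0x40000000000000000000000000000000000000000000000000000000000,
0x4080000000000181500200800000000000000000000000000000000000000000000000001,
0x4080000000000181500200800000000000000000000000000000000000000000000000001,
0x200000000000000000000000000000000000000000000000000000000000,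
0x1400048800000800000c00000000000000000000000000000000000044000,
0x800000000000000000000000000000000000000000000000000000000000,
0x1400048800000800000c00000000000000000000000000000000000044000,
0x2000000000000000000000000000000000000000000000000000000000000,
0x4000000000000000000000000000000000000000000000000000000000000,
0xc00000000088000000082038000000000000000000000000000000000000000000000001,
0x10000000000000000000000000000000000000000000000000000000000000,
0x20000000000000000000000000000000000000000000000000000000000000,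
0x40000000000000000000000000000000000000000000000000000000000000,
0xc00000000088000000082038000000000000000000000000000000000000000000000001,
0x1000000000500000000000a2500000000000000000000000000000000000201,
0x200000000000000000000000000000000000000000000000000000000000000,
0x400000000000000000000000000000000000000000000000000000000000000,
0x20080000000000000002001000002d800000000000000000000000000000004000,
0x10001000000000000000000000000000000000000000000000800400000b60004000,
0x2000000000000000000000000000000000000000000000000000000000000000,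
0x4000000000000000000000000000000000000000000000000000000000000000,
0x8000000000000000000000000000000000000000000000000000000000000000,
0x10000000000000000000000000000000000000000000000000000000000000000,
0x20000000000000000000000000000000000000000000000000000000000000000,
0x40000000000000000000000000000000000000000000000000000000000000000,
0x80000000000000000000000000000000000000000000000000000000000000000,
0x100000000000000000000000000000000000000000000000000000000000000000,
0x20080000000000000002001000002d800000000000000000000000000000004000,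
0x400000000000000000000000000000000000000000000000000000000000000000,
0x2800000000000000001104c24000000000000000000000000000000000000004000,
0x1000000000000000000000000000000000000000000000000000000000000000000,
0x2800000000000000001104c24000000000000000000000000000000000000004000,
0x4000000000000000000000000000000000000000000000000000000000000000000,
0x8000000000000000000000000000000000000000000000000000000000000000000,
0x10001000000000000000000000000000000000000000000000800400000b60004000,
0x20000000000000000000000000000000000000000000000000000000000000000000,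
0x140000000000000000000000000000000000000000000000024130900000000004000,
0x80000000000000000000000000000000000000000000000000000000000000000000,
0x140000000000000000000000000000000000000000000000024130900000000004000,
0x200000000000000000000000000000000000000000000000000000000000000000000,
0x400000000000000000000000000000000000000000000000000000000000000000000,
0x800000000000000000000000000000000000000000000000000000000000000000000,
0x1000000000000000000000000000000000000000000000000000000000000000000000,
0x2000000000000000000000000000000000000000000000000000000000000000000000,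
0x4000000000000000000000000000000000000000000000000000000000000000000000,
0x8000000000000000000000000000000000000000000000000000000000000000000000,
0x10000000000000000000000000000000000000000000000000000000000000000000000,
0x20000000000000000000000000000000000000000000000000000000000000000000000,
0x40000000000000000000000000000000000000000000000000000000000000000000000,
0x4080000000000181500200800000000000000000000000000000000000000000000000001,
0x200100000000000000000000000000000000000000006054008020000000000000000000001,
0x200000000000000000000000000000000000000000000000000000000000000000000000,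
0xc00000000088000000082038000000000000000000000000000000000000000000000001,
0xc00000000088000000082038000000000000000000000000000000000000000000000001,
0x1000000000000000000000000000000000000000000000000000000000000000000000000,
0x2000000000000000000000000000000000000000000000000000000000000000000000000,
0x4080000000000181500200800000000000000000000000000000000000000000000000001,
0x8000000000000000000000000000000000000000000000000000000000000000000000000,
0x10000000000000000000000000000000000000000000000000000000000000000000000000,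
0x60000000000000000000000000000000000000001200000002080e00000000000000000001,
0x60000000000000000000000000000000000000001200000002080e00000000000000000001,
0x80000000000000000000000000000000000000000000000000000000000000000000000000,
0x100000000000000000000000000000000000000000000000000000000000000000000000000,
0x200100000000000000000000000000000000000000006054008020000000000000000000001,
0x400000000000000000000000000000000000000000000000000000000000000000000000000,
0x800000000000000000000000000000000000000000000000000000000000000000000000000]]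

/-- reachable values -/
def R : List (List ℕ) := [[1, 0x264d800000001881815002d28380000000a250000320605400b4a0e00000004894000000241], [2, 2],
[4, 4], [8, 8], [0x10, 0x10], [0x20, 0x20], [0x40, 0x2000000001400000000004894000000041],
[0x80, 0x80], [0x100, 0x100], [0x200,
0x1000000000500000000000a2500000000000000000000000000000000000201], [0x400, 0x400], [0x800,
0x800], [0x1000, 0x1000], [0x2000, 0x2000], [0x4000,
0x152a01801400048800001924c34c0002d800090001220000034930d30000b6004c000], [0x8000,
0x9000122000001000003000000000c000], [0x10000, 0x10000], [0x20000, 0x20000], [0x40000,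
0x1400048800000800000c00000000000000000000000000000000000044000], [0x80000, 0x80000],
[0x100000, 0x100000], [0x200000, 0x200000], [0x400000, 0x1080000048003012c00000], [0x800000,
0x2100000090003024c00000], [0x1000000, 0x1000000], [0x2000000, 0x420000004800c086400000],
[0x4000000, 0x840000009000c106800000], [0x8000000, 0x8000000], [0x10000000,
0x10800003000600b0400000], [0x20000000,
0x10001000000000000000000000000000000000000000002100800400060b70804000], [0x40000000,
0x10001000000000000000000000000000000000000000000000800400000b60004000], [0x80000000,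
0x4200000300180192000000], [0x100000000,
0x10001000000000000000000000000000000000000000008400800400180be4004000], [0x200000000,
0x10001000000000000000000000000000000000000000000000800400000b60004000], [0x400000000,
0x400000000], [0x800000000,
0x10001000000000000000000000000000000000000000000000800400000b60004000], [0x1000000000,
0x120000005000027000c00000], [0x2000000000, 0x24000000a00004b000c00000], [0x4000000000,
0x200000000140000000500489d006000041], [0x8000000000, 0x88000000a00010e006000000],
[0x10000000000, 0x2000000001400000000004894000000041], [0x20000000000,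
0x1200000500000e1030000000], [0x40000000000, 0x2400000a0000162030000000], [0x80000000000,
0x20000000014000000500049b4180000041], [0x100000000000, 0x8800000a00001c8180000000],
[0x200000000000, 0x200000000000], [0x400000000000, 0x400000000000], [0x800000000000,
0x2000000001400000000004894000000041], [0x1000000000000, 0x1000000000000], [0x2000000000000,
0x2000000000000], [0x4000000000000, 0x2000000001400000000004894000000041], [0x8000000000000,
0x110000000003158000002400000], [0x10000000000000, 0x900012200000100030b800000480c000],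
[0x20000000000000, 0x9000122000001000003000000000c000], [0x40000000000000,
0x44000000000c2c8000002400000], [0x80000000000000, 0x88000000000c4d0000004800000],
[0x100000000000000, 0x140000000000000000000000000000000000000000110000024130b08000090004000],
[0x200000000000000, 0x4400000000c0740000090000000], [0x400000000000000,
0x100010000000000000000000000000000000000008800000008c0680000b60004000], [0x800000000000000,
0x140000000000000000000000000000000000000000000000024130900000000004000], [0x1000000000000000,
0x84000000000017018005000000000], [0x2000000000000000, 0x10800000000002b01800a000000000],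
[0x4000000000000000, 0x21000000000004d0c0005000000000], [0x8000000000000000,
0x42000000000008e0c000a000000000], [0x10000000000000000,
0x1400000000000000000000000000000000000000840000000241719000a0000004000], [0x20000000000000000,
0x1400000000000000000000000000000000000001080000000241b2900140000004000], [0x40000000000000000,
0x2100000000000d46000a0000000000], [0x80000000000000000, 0x4200000000000e8600140000000000],
[0x100000000000000000,
0x140000000000000000000000000000000000000000000000024130900000000004000],
[0x200000000000000000, 0x200000000000000000], [0x400000000000000000, 0x400000000000000000],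
[0x800000000000000000, 0x10001000000000000000000000000000000000000000000000800400000b60004000],
[0x1000000000000000000, 0x1000000000000000000], [0x2000000000000000000, 0x2000000000000000000],
[0x4000000000000000000,
0x140000000000000000000000000000000000000000000000024130900000000004000],
[0x8000000000000000000, 0x8000000000000000000], [0x10000000000000000000,
0x9000122000001000003000000000c000], [0x20000000000000000000,
0x140000000000000000000000000000000000000000000000024130900000000004000],
[0x40000000000000000000, 0x40000000000000000000], [0x80000000000000000000,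
0x50061380000000000010400000], [0x100000000000000000000, 0xa0062580000000000020800000],
[0x200000000000000000000,
0x60000000000000000000000000000000000000001200000052084e80000000000082000001],
[0x400000000000000000000,
0x600000000000000000000000000000000000000012000000a2088f00000000000104000001],
[0x800000000000000000000,
0x60000000000000000000000000000000000000001200000002080e00000000000000000001],
[0x1000000000000000000000, 0x500307080000000000010400000], [0x2000000000000000000000,
0xa0030b100000000000020800000], [0x4000000000000000000000, 0x500c0d200000000000082000000],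
[0x8000000000000000000000, 0xa00c0e400000000000104000000], [0x10000000000000000000000,
0x10000000000000000000000], [0x20000000000000000000000,
0x200100000000000000000000000000000000000000006054008160180000000021000000001],
[0x40000000000000000000000, 0x280002e0180000000042000000000], [0x80000000000000000000000,
0x600000000000000000000000000000000000000012000280028c0e00000000108000000001],
[0x100000000000000000000000, 0x280000723000000000021000000000], [0x200000000000000000000000,
0x500000b43000000000042000000000], [0x400000000000000000000000,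
0x2000280001d0c000000004894000000041], [0x800000000000000000000000,
0x500000e8c000000000108000000000], [0x1000000000000000000000000,
0x2000000001400000000004894000000041], [0x2000000000000000000000000,
0x60000000000000000000000000000000000000001200000002080e00000000000000000001],
[0x4000000000000000000000000, 0x4000000000000000000000000], [0x8000000000000000000000000,
0x200100000000000000000000000000000000000000006054008020000000000000000000001],
[0x10000000000000000000000000, 0xc170000280000108000000000000], [0x20000000000000000000000000,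
0x9000d2b000051000003000000000c000], [0x40000000000000000000000000,
0x304d0000280000240000000000000], [0x80000000000000000000000000,
0x308e0000500000480000000000000], [0x100000000000000000000000000,
0x180710005000000108000000000000], [0x200000000000000000000000000,
0x90181b2000a01000003000000000c000], [0x400000000000000000000000000,
0x600d40005000000240000000000000], [0x800000000000000000000000000,
0x600e8000a000000480000000000000], [0x1000000000000000000000000000,
0x9000122000001000003000000000c000], [0x2000000000000000000000000000,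
0x2000000000000000000000000000], [0x4000000000000000000000000000,
0x2001000000000000000000000000000000000000000060dc038020000011000000000000001],
[0x8000000000000000000000000000, 0x12c0300c0000022000000000000000],
[0x10000000000000000000000000000,
0x2001000000000000000000000000000000000000000062740c8020000044000000000000001],
[0x20000000000000000000000000000, 0x4380c00c0000088000000000000000],
[0x40000000000000000000000000000,
0x200100000000000000000000000000000000000000006054008020000000000000000000001],
[0x80000000000000000000000000000, 0x384300500000011000000000000000],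
[0x100000000000000000000000000000, 0x588300a00000022000000000000000],
[0x200000000000000000000000000000, 0x690c00500000044000000000000000],
[0x400000000000000000000000000000, 0x720c00a00000088000000000000000],
[0x800000000000000000000000000000, 0x800000000000000000000000000000],
[0x1000000000000000000000000000000, 0x1000000000000000000000000000000],
[0x2000000000000000000000000000000,
0x200100000000000000000000000000000000000000006054008020000000000000000000001],
[0x4000000000000000000000000000000,
0x200100000000000000000000000000000000000000006054008020000000000000000000001],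
[0x8000000000000000000000000000000, 0x8000000000000000000000000000000],
[0x10000000000000000000000000000000, 0x9000122000001000003000000000c000],
[0x20000000000000000000000000000000, 0x20000000000000000000000000000000],
[0x40000000000000000000000000000000, 0x40000000000000000000000000000000],
[0x80000000000000000000000000000000, 0x9000122000001000003000000000c000],
[0x100000000000000000000000000000000, 0x100000000000000000000000000000000],
[0x200000000000000000000000000000000,
0x60000000000000000000000000000000000000001200000002080e00000000000000000001],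
[0x400000000000000000000000000000000, 0x400000000000000000000000000000000],
[0x800000000000000000000000000000000, 0x800000000000000000000000000000000],
[0x1000000000000000000000000000000000,
0x60000000000000000000000000000000000000001200000002080e00000000000000000001],
[0x2000000000000000000000000000000000, 0x2000000001400000000004894000000041],
[0x4000000000000000000000000000000000, 0x4000000000000000000000000000000000],
[0x8000000000000000000000000000000000, 0x8000000000000000000000000000000000],
[0x10000000000000000000000000000000000, 0x420000012000c04b0000000000000000000000000000000000],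
[0x20000000000000000000000000000000000, 0x840000024000c0930000000000000000000000000000000000],
[0x40000000000000000000000000000000000, 0x40000000000000000000000000000000000],
[0x80000000000000000000000000000000000, 0x108000001200302190000000000000000000000000000000000],
[0x100000000000000000000000000000000000,
0x2100000024003041a0000000000000000000000000000000000],
[0x200000000000000000000000000000000000, 0x200000000000000000000000000000000000],
[0x400000000000000000000000000000000000, 0x4200000c001802c10000000000000000000000000000000000],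
[0x800000000000000000000000000000000000,
0x20080000000000008402001000182dc20000000000000000000000000000004000],
[0x1000000000000000000000000000000000000,
0x20080000000000000002001000002d800000000000000000000000000000004000],
[0x2000000000000000000000000000000000000,
0x10800000c006006480000000000000000000000000000000000],
[0x4000000000000000000000000000000000000,
0x20080000000000021002001000602f900000000000000000000000000000004000],
[0x8000000000000000000000000000000000000,
0x20080000000000000002001000002d800000000000000000000000000000004000],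
[0x10000000000000000000000000000000000000, 0x10000000000000000000000000000000000000],
[0x20000000000000000000000000000000000000,
0x20080000000000000002001000002d800000000000000000000000000000004000],
[0x40000000000000000000000000000000000000,
0x48000001400009c0030000000000000000000000000000000000],
[0x80000000000000000000000000000000000000,
0x90000002800012c0030000000000000000000000000000000000],
[0x100000000000000000000000000000000000000,
0x1000000000500000001400a2740180000000000000000000000000000000201],
[0x200000000000000000000000000000000000000,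
0x22000000280004380180000000000000000000000000000000000],
[0x400000000000000000000000000000000000000,
0x1000000000500000000000a2500000000000000000000000000000000000201],
[0x800000000000000000000000000000000000000,
0x4800001400003840c00000000000000000000000000000000000],
[0x1000000000000000000000000000000000000000,
0x9000002800005880c00000000000000000000000000000000000],
[0x2000000000000000000000000000000000000000,
0x1000000000500000014000a6d06000000000000000000000000000000000201],
[0x4000000000000000000000000000000000000000,
0x22000002800007206000000000000000000000000000000000000],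
[0x8000000000000000000000000000000000000000, 0x8000000000000000000000000000000000000000],
[0x10000000000000000000000000000000000000000, 0x10000000000000000000000000000000000000000],
[0x20000000000000000000000000000000000000000,
0x1000000000500000000000a2500000000000000000000000000000000000201],
[0x40000000000000000000000000000000000000000, 0x40000000000000000000000000000000000000000],
[0x80000000000000000000000000000000000000000,
0x1000000000500000000000a2500000000000000000000000000000000000201],
[0x100000000000000000000000000000000000000000, 0x100000000000000000000000000000000000000000],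
[0x200000000000000000000000000000000000000000,
0x44000000000c5600000090000000000000000000000000000000000],
[0x400000000000000000000000000000000000000000,
0x14000488000008000c2e00000120000000000000000000000000000044000],
[0x800000000000000000000000000000000000000000,
0x1400048800000800000c00000000000000000000000000000000000044000],
[0x1000000000000000000000000000000000000000000,
0x1100000000030b200000090000000000000000000000000000000000],
[0x2000000000000000000000000000000000000000000,
0x22000000000313400000120000000000000000000000000000000000],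
[0x4000000000000000000000000000000000000000000,
0x2800000000004400001104c2c200002400000000000000000000000000000004000],
[0x8000000000000000000000000000000000000000000,
0x1100000000301d000002400000000000000000000000000000000000],
[0x10000000000000000000000000000000000000000000,
0x20080000002200000002301a00002d800000000000000000000000000000004000],
[0x20000000000000000000000000000000000000000000,
0x2800000000000000001104c24000000000000000000000000000000000000004000],
[0x40000000000000000000000000000000000000000000,
0x21000000000005c0600140000000000000000000000000000000000000],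
[0x80000000000000000000000000000000000000000000,
0x4200000000000ac0600280000000000000000000000000000000000000],
[0x100000000000000000000000000000000000000000000,
0x8400000000001343000140000000000000000000000000000000000000],
[0x200000000000000000000000000000000000000000000,
0x10800000000002383000280000000000000000000000000000000000000],
[0x400000000000000000000000000000000000000000000,
0x2800000002100000001105c64002800000000000000000000000000000000004000],
[0x800000000000000000000000000000000000000000000,
0x2800000004200000001106ca4005000000000000000000000000000000000004000],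
[0x1000000000000000000000000000000000000000000000,
0x8400000000003518002800000000000000000000000000000000000000],
[0x2000000000000000000000000000000000000000000000,
0x10800000000003a18005000000000000000000000000000000000000000],
[0x4000000000000000000000000000000000000000000000,
0x2800000000000000001104c24000000000000000000000000000000000000004000],
[0x8000000000000000000000000000000000000000000000,
0x8000000000000000000000000000000000000000000000],
[0x10000000000000000000000000000000000000000000000,
0x10000000000000000000000000000000000000000000000],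
[0x20000000000000000000000000000000000000000000000,
0x20080000000000000002001000002d800000000000000000000000000000004000],
[0x40000000000000000000000000000000000000000000000,
0x40000000000000000000000000000000000000000000000],
[0x80000000000000000000000000000000000000000000000,
0x80000000000000000000000000000000000000000000000],
[0x100000000000000000000000000000000000000000000000,
0x2800000000000000001104c24000000000000000000000000000000000000004000],
[0x200000000000000000000000000000000000000000000000,
0x200000000000000000000000000000000000000000000000],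
[0x400000000000000000000000000000000000000000000000,
0x400000000000000000000000000000000000000000000000],
[0x800000000000000000000000000000000000000000000000,
0x1400048800000800000c00000000000000000000000000000000000044000],
[0x1000000000000000000000000000000000000000000000000,
0x2800000000000000001104c24000000000000000000000000000000000000004000],
[0x2000000000000000000000000000000000000000000000000,
0x140184e000000000000410000000000000000000000000000000000],
[0x4000000000000000000000000000000000000000000000000,
0x2801896000000000000820000000000000000000000000000000000],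
[0x8000000000000000000000000000000000000000000000000,
0xc0000000008800000148213a000000000002080000000000000000000000000000000001],
[0x10000000000000000000000000000000000000000000000000,
0xc0000000008800000288223c000000000004100000000000000000000000000000000001],
[0x20000000000000000000000000000000000000000000000000,
0xc00000000088000000082038000000000000000000000000000000000000000000000001],
[0x40000000000000000000000000000000000000000000000000,
0x1400c1c2000000000000410000000000000000000000000000000000],
[0x80000000000000000000000000000000000000000000000000,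
0x2800c2c4000000000000820000000000000000000000000000000000],
[0x100000000000000000000000000000000000000000000000000,
0x14030348000000000002080000000000000000000000000000000000],
[0x200000000000000000000000000000000000000000000000000,
0x28030390000000000004100000000000000000000000000000000000],
[0x400000000000000000000000000000000000000000000000000,
0x400000000000000000000000000000000000000000000000000],
[0x800000000000000000000000000000000000000000000000000,
0x4080000000000181500205806000000000840000000000000000000000000000000000001],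
[0x1000000000000000000000000000000000000000000000000000,
0xa0000b806000000001080000000000000000000000000000000000000],
[0x2000000000000000000000000000000000000000000000000000,
0xc00000000088000a000a3038000000004200000000000000000000000000000000000001],
[0x4000000000000000000000000000000000000000000000000000,
0xa00001c8c0000000000840000000000000000000000000000000000000],
[0x8000000000000000000000000000000000000000000000000000,
0x1400002d0c0000000001080000000000000000000000000000000000000],
[0x10000000000000000000000000000000000000000000000000000,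
0x10000a0000743000000000a2500000000000000000000000000000000000201],
[0x20000000000000000000000000000000000000000000000000000,
0x1400003a300000000004200000000000000000000000000000000000000],
[0x40000000000000000000000000000000000000000000000000000,
0x1000000000500000000000a2500000000000000000000000000000000000201],
[0x80000000000000000000000000000000000000000000000000000,
0xc00000000088000000082038000000000000000000000000000000000000000000000001],
[0x100000000000000000000000000000000000000000000000000000,
0x100000000000000000000000000000000000000000000000000000],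
[0x200000000000000000000000000000000000000000000000000000,
0x4080000000000181500200800000000000000000000000000000000000000000000000001],
[0x400000000000000000000000000000000000000000000000000000,
0x305c0000a000004200000000000000000000000000000000000000000],
[0x800000000000000000000000000000000000000000000000000000,
0x140034ac00014800000c00000000000000000000000000000000000044000],
[0x1000000000000000000000000000000000000000000000000000000,
0xc1340000a000009000000000000000000000000000000000000000000],
[0x2000000000000000000000000000000000000000000000000000000,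
0xc23800014000012000000000000000000000000000000000000000000],
[0x4000000000000000000000000000000000000000000000000000000,
0x601c400140000004200000000000000000000000000000000000000000],
[0x8000000000000000000000000000000000000000000000000000000,
0x140606c800280800000c00000000000000000000000000000000000044000],
[0x10000000000000000000000000000000000000000000000000000000,
0x18035000140000009000000000000000000000000000000000000000000],
[0x20000000000000000000000000000000000000000000000000000000,
0x1803a000280000012000000000000000000000000000000000000000000],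
[0x40000000000000000000000000000000000000000000000000000000,
0x1400048800000800000c00000000000000000000000000000000000044000],
[0x80000000000000000000000000000000000000000000000000000000,
0x80000000000000000000000000000000000000000000000000000000],
[0x100000000000000000000000000000000000000000000000000000000,
0x4080000000000183700e00800000440000000000000000000000000000000000000000001],
[0x200000000000000000000000000000000000000000000000000000000,
0x4b00c03000000880000000000000000000000000000000000000000000],
[0x400000000000000000000000000000000000000000000000000000000,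
0x4080000000000189d03200800001100000000000000000000000000000000000000000001],
[0x800000000000000000000000000000000000000000000000000000000,
0x10e03003000002200000000000000000000000000000000000000000000],
[0x1000000000000000000000000000000000000000000000000000000000,
0x4080000000000181500200800000000000000000000000000000000000000000000000001],
[0x2000000000000000000000000000000000000000000000000000000000,
0xe10c014000000440000000000000000000000000000000000000000000],
[0x4000000000000000000000000000000000000000000000000000000000,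
0x1620c028000000880000000000000000000000000000000000000000000],
[0x8000000000000000000000000000000000000000000000000000000000,
0x1a430014000001100000000000000000000000000000000000000000000],
[0x10000000000000000000000000000000000000000000000000000000000,
0x1c830028000002200000000000000000000000000000000000000000000],
[0x20000000000000000000000000000000000000000000000000000000000,
0x20000000000000000000000000000000000000000000000000000000000],
[0x40000000000000000000000000000000000000000000000000000000000,
0x40000000000000000000000000000000000000000000000000000000000],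
[0x80000000000000000000000000000000000000000000000000000000000,
0x4080000000000181500200800000000000000000000000000000000000000000000000001],
[0x100000000000000000000000000000000000000000000000000000000000,
0x4080000000000181500200800000000000000000000000000000000000000000000000001],
[0x200000000000000000000000000000000000000000000000000000000000,
0x200000000000000000000000000000000000000000000000000000000000],
[0x400000000000000000000000000000000000000000000000000000000000,
0x1400048800000800000c00000000000000000000000000000000000044000],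
[0x800000000000000000000000000000000000000000000000000000000000,
0x800000000000000000000000000000000000000000000000000000000000],
[0x1000000000000000000000000000000000000000000000000000000000000,
0x1400048800000800000c00000000000000000000000000000000000044000],
[0x2000000000000000000000000000000000000000000000000000000000000,
0x2000000000000000000000000000000000000000000000000000000000000],
[0x4000000000000000000000000000000000000000000000000000000000000,
0x4000000000000000000000000000000000000000000000000000000000000],
[0x8000000000000000000000000000000000000000000000000000000000000,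
0xc00000000088000000082038000000000000000000000000000000000000000000000001],
[0x10000000000000000000000000000000000000000000000000000000000000,
0x10000000000000000000000000000000000000000000000000000000000000],
[0x20000000000000000000000000000000000000000000000000000000000000,
0x20000000000000000000000000000000000000000000000000000000000000],
[0x40000000000000000000000000000000000000000000000000000000000000,
0x40000000000000000000000000000000000000000000000000000000000000],
[0x80000000000000000000000000000000000000000000000000000000000000,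
0xc00000000088000000082038000000000000000000000000000000000000000000000001],
[0x100000000000000000000000000000000000000000000000000000000000000,
0x1000000000500000000000a2500000000000000000000000000000000000201],
[0x200000000000000000000000000000000000000000000000000000000000000,
0x200000000000000000000000000000000000000000000000000000000000000],
[0x400000000000000000000000000000000000000000000000000000000000000,
0x400000000000000000000000000000000000000000000000000000000000000],
[0x800000000000000000000000000000000000000000000000000000000000000,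
0x20080000000000000002001000002d800000000000000000000000000000004000],
[0x1000000000000000000000000000000000000000000000000000000000000000,
0x10001000000000000000000000000000000000000000000000800400000b60004000],
[0x2000000000000000000000000000000000000000000000000000000000000000,
0x2000000000000000000000000000000000000000000000000000000000000000],
[0x4000000000000000000000000000000000000000000000000000000000000000,
0x4000000000000000000000000000000000000000000000000000000000000000],
[0x8000000000000000000000000000000000000000000000000000000000000000,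
0x8000000000000000000000000000000000000000000000000000000000000000],
[0x10000000000000000000000000000000000000000000000000000000000000000,
0x10000000000000000000000000000000000000000000000000000000000000000],
[0x20000000000000000000000000000000000000000000000000000000000000000,
0x20000000000000000000000000000000000000000000000000000000000000000],
[0x40000000000000000000000000000000000000000000000000000000000000000,
0x40000000000000000000000000000000000000000000000000000000000000000],
[0x80000000000000000000000000000000000000000000000000000000000000000,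
0x80000000000000000000000000000000000000000000000000000000000000000],
[0x100000000000000000000000000000000000000000000000000000000000000000,
0x100000000000000000000000000000000000000000000000000000000000000000],
[0x200000000000000000000000000000000000000000000000000000000000000000,
0x20080000000000000002001000002d800000000000000000000000000000004000],
[0x400000000000000000000000000000000000000000000000000000000000000000,
0x400000000000000000000000000000000000000000000000000000000000000000],
[0x800000000000000000000000000000000000000000000000000000000000000000,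
0x2800000000000000001104c24000000000000000000000000000000000000004000],
[0x1000000000000000000000000000000000000000000000000000000000000000000,
0x1000000000000000000000000000000000000000000000000000000000000000000],
[0x2000000000000000000000000000000000000000000000000000000000000000000,
0x2800000000000000001104c24000000000000000000000000000000000000004000],
[0x4000000000000000000000000000000000000000000000000000000000000000000,
0x4000000000000000000000000000000000000000000000000000000000000000000],
[0x8000000000000000000000000000000000000000000000000000000000000000000,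
0x8000000000000000000000000000000000000000000000000000000000000000000],
[0x10000000000000000000000000000000000000000000000000000000000000000000,
0x10001000000000000000000000000000000000000000000000800400000b60004000],
[0x20000000000000000000000000000000000000000000000000000000000000000000,
0x20000000000000000000000000000000000000000000000000000000000000000000],
[0x40000000000000000000000000000000000000000000000000000000000000000000,
0x140000000000000000000000000000000000000000000000024130900000000004000],
[0x80000000000000000000000000000000000000000000000000000000000000000000,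
0x80000000000000000000000000000000000000000000000000000000000000000000],
[0x100000000000000000000000000000000000000000000000000000000000000000000,
0x140000000000000000000000000000000000000000000000024130900000000004000],
[0x200000000000000000000000000000000000000000000000000000000000000000000,
0x200000000000000000000000000000000000000000000000000000000000000000000],
[0x400000000000000000000000000000000000000000000000000000000000000000000,
0x400000000000000000000000000000000000000000000000000000000000000000000],
[0x800000000000000000000000000000000000000000000000000000000000000000000,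
0x800000000000000000000000000000000000000000000000000000000000000000000],
[0x1000000000000000000000000000000000000000000000000000000000000000000000,
0x1000000000000000000000000000000000000000000000000000000000000000000000],
[0x2000000000000000000000000000000000000000000000000000000000000000000000,
0x2000000000000000000000000000000000000000000000000000000000000000000000],
[0x4000000000000000000000000000000000000000000000000000000000000000000000,
0x4000000000000000000000000000000000000000000000000000000000000000000000],
[0x8000000000000000000000000000000000000000000000000000000000000000000000,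
0x8000000000000000000000000000000000000000000000000000000000000000000000],
[0x10000000000000000000000000000000000000000000000000000000000000000000000,
0x10000000000000000000000000000000000000000000000000000000000000000000000],
[0x20000000000000000000000000000000000000000000000000000000000000000000000,
0x20000000000000000000000000000000000000000000000000000000000000000000000],
[0x40000000000000000000000000000000000000000000000000000000000000000000000,
0x40000000000000000000000000000000000000000000000000000000000000000000000],
[0x80000000000000000000000000000000000000000000000000000000000000000000000,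
0x4080000000000181500200800000000000000000000000000000000000000000000000001],
[0x100000000000000000000000000000000000000000000000000000000000000000000000,
0x200100000000000000000000000000000000000000006054008020000000000000000000001],
[0x200000000000000000000000000000000000000000000000000000000000000000000000,
0x200000000000000000000000000000000000000000000000000000000000000000000000],
[0x400000000000000000000000000000000000000000000000000000000000000000000000,
0xc00000000088000000082038000000000000000000000000000000000000000000000001],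
[0x800000000000000000000000000000000000000000000000000000000000000000000000,
0xc00000000088000000082038000000000000000000000000000000000000000000000001],
[0x1000000000000000000000000000000000000000000000000000000000000000000000000,
0x1000000000000000000000000000000000000000000000000000000000000000000000000],
[0x2000000000000000000000000000000000000000000000000000000000000000000000000,
0x2000000000000000000000000000000000000000000000000000000000000000000000000],
[0x4000000000000000000000000000000000000000000000000000000000000000000000000,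
0x4080000000000181500200800000000000000000000000000000000000000000000000001],
[0x8000000000000000000000000000000000000000000000000000000000000000000000000,
0x8000000000000000000000000000000000000000000000000000000000000000000000000],
[0x10000000000000000000000000000000000000000000000000000000000000000000000000,
0x10000000000000000000000000000000000000000000000000000000000000000000000000],
[0x20000000000000000000000000000000000000000000000000000000000000000000000000,
0x60000000000000000000000000000000000000001200000002080e00000000000000000001],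
[0x40000000000000000000000000000000000000000000000000000000000000000000000000,
0x60000000000000000000000000000000000000001200000002080e00000000000000000001],
[0x80000000000000000000000000000000000000000000000000000000000000000000000000,
0x80000000000000000000000000000000000000000000000000000000000000000000000000],
[0x100000000000000000000000000000000000000000000000000000000000000000000000000,
0x100000000000000000000000000000000000000000000000000000000000000000000000000],
[0x200000000000000000000000000000000000000000000000000000000000000000000000000,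
0x200100000000000000000000000000000000000000006054008020000000000000000000001],
[0x400000000000000000000000000000000000000000000000000000000000000000000000000,
0x400000000000000000000000000000000000000000000000000000000000000000000000000],
[0x800000000000000000000000000000000000000000000000000000000000000000000000000,
0x800000000000000000000000000000000000000000000000000000000000000000000000000]]

noncomputable def q0 : Tr := .c 5 (.l 0) (.c 6 (.l 1) .e)
noncomputable def q1 : Tr := .c 5 (.l 0) .e
noncomputable def r0 : Tr := .c 0 q0 (.c 2 q1 (.c 4 q1 (.c 6 q1 .e)))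
noncomputable def q2 : Tr := .c 5 (.l 2) (.c 6 (.l 3) .e)
noncomputable def q3 : Tr := .c 6 (.l 3) .e
noncomputable def r1 : Tr := .c 0 q2 (.c 1 q3 (.c 3 q3 (.c 5 q3 .e)))
noncomputable def t0 : Tr := .c 5 r0 (.c 6 r1 .e)
noncomputable def q4 : Tr := .c 6 (.l 4) .e
noncomputable def r2 : Tr := .c 1 q4 (.c 2 q1 (.c 6 q1 .e))
noncomputable def q5 : Tr := .c 6 (.l 5) .e
noncomputable def q6 : Tr := .c 5 (.l 6) .e
noncomputable def r3 : Tr := .c 1 q5 (.c 2 q6 (.c 5 q5 .e))
noncomputable def t1 : Tr := .c 3 r2 (.c 4 r3 (.c 5 r0 .e))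
noncomputable def q7 : Tr := .c 6 (.l 7) .e
noncomputable def r4 : Tr := .c 3 q7 (.c 4 q1 (.c 6 q1 .e))
noncomputable def q8 : Tr := .c 6 (.l 8) .e
noncomputable def q9 : Tr := .c 5 (.l 9) .e
noncomputable def r5 : Tr := .c 3 q8 (.c 4 q9 (.c 5 q8 .e))
noncomputable def t2 : Tr := .c 1 r4 (.c 2 r5 (.c 5 r0 .e))
noncomputable def q10 : Tr := .c 6 (.l 10) .e
noncomputable def r6 : Tr := .c 5 q10 (.c 6 q1 .e)
noncomputable def t3 : Tr := .c 0 r6 (.c 1 r4 (.c 3 r2 (.c 5 r0 .e)))
noncomputable def q11 : Tr := .c 5 (.l 11) (.c 6 (.l 12) .e)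
noncomputable def q12 : Tr := .c 5 (.l 11) .e
noncomputable def r7 : Tr := .c 0 q11 (.c 2 q12 (.c 4 q12 (.c 6 q12 .e)))
noncomputable def q13 : Tr := .c 5 (.l 13) (.c 6 (.l 14) .e)
noncomputable def q14 : Tr := .c 6 (.l 14) .e
noncomputable def r8 : Tr := .c 0 q13 (.c 1 q14 (.c 3 q14 (.c 5 q14 .e)))
noncomputable def t4 : Tr := .c 5 r7 (.c 6 r8 .e)
noncomputable def q15 : Tr := .c 6 (.l 15) .e
noncomputable def q16 : Tr := .c 5 (.l 16) .e
noncomputable def r9 : Tr := .c 1 q15 (.c 2 q16 (.c 6 q16 .e))
noncomputable def q17 : Tr := .c 5 (.l 17) .e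
noncomputable def r10 : Tr := .c 1 q14 (.c 2 q17 (.c 5 q14 .e))
noncomputable def t5 : Tr := .c 3 r9 (.c 4 r10 (.c 6 r8 .e))
noncomputable def q18 : Tr := .c 6 (.l 18) .e
noncomputable def q19 : Tr := .c 5 (.l 19) .e
noncomputable def r11 : Tr := .c 3 q18 (.c 4 q19 (.c 6 q19 .e))
noncomputable def q20 : Tr := .c 5 (.l 20) .e
noncomputable def r12 : Tr := .c 3 q14 (.c 4 q20 (.c 5 q14 .e))
noncomputable def t6 : Tr := .c 1 r11 (.c 2 r12 (.c 6 r8 .e))
noncomputable def q21 : Tr := .c 5 (.l 21) .e
noncomputable def r13 : Tr := .c 5 q14 (.c 6 q21 .e)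
noncomputable def t7 : Tr := .c 0 r13 (.c 2 r12 (.c 4 r10 (.c 6 r8 .e)))
noncomputable def q22 : Tr := .c 3 (.l 22) (.c 4 (.l 23) (.c 6 (.l 24) .e))
noncomputable def q23 : Tr := .c 3 (.l 25) (.c 4 (.l 26) .e)
noncomputable def q24 : Tr := .c 3 (.l 27) .e
noncomputable def r14 : Tr := .c 1 q22 (.c 2 q23 (.c 6 q24 .e))
noncomputable def q25 : Tr := .c 3 (.l 28) (.c 4 (.l 29) (.c 6 (.l 30) .e))
noncomputable def q26 : Tr := .c 3 (.l 31) (.c 4 (.l 32) .e)
noncomputable def q27 : Tr := .c 4 (.l 29) (.c 6 (.l 30) .e)
noncomputable def r15 : Tr := .c 1 q25 (.c 2 q26 (.c 5 q27 .e))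
noncomputable def q28 : Tr := .c 6 (.l 33) .e
noncomputable def q29 : Tr := .c 3 (.l 34) (.c 4 (.l 35) (.c 6 (.l 33) .e))
noncomputable def q30 : Tr := .c 4 (.l 35) (.c 6 (.l 33) .e)
noncomputable def r16 : Tr := .c 0 q28 (.c 1 q29 (.c 3 q28 (.c 5 q30 .e)))
noncomputable def t8 : Tr := .c 3 r14 (.c 4 r15 (.c 6 r16 .e))
noncomputable def q31 : Tr := .c 3 (.l 36) (.c 4 (.l 37) (.c 6 (.l 37) .e))
noncomputable def q32 : Tr := .c 3 (.l 38) (.c 4 (.l 39) .e)
noncomputable def q33 : Tr := .c 3 (.l 40) .e
noncomputable def r17 : Tr := .c 1 q31 (.c 2 q32 (.c 6 q33 .e))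
noncomputable def q34 : Tr := .c 3 (.l 41) (.c 4 (.l 42) (.c 6 (.l 42) .e))
noncomputable def q35 : Tr := .c 3 (.l 43) (.c 4 (.l 44) .e)
noncomputable def q36 : Tr := .c 4 (.l 42) (.c 6 (.l 42) .e)
noncomputable def r18 : Tr := .c 1 q34 (.c 2 q35 (.c 5 q36 .e))
noncomputable def q37 : Tr := .c 6 (.l 45) .e
noncomputable def r19 : Tr := .c 0 q37 (.c 2 q32 (.c 6 q33 .e))
noncomputable def t9 : Tr := .c 3 r17 (.c 4 r18 (.c 5 r19 .e))
noncomputable def q38 : Tr := .c 4 (.l 46) (.c 6 (.l 46) .e)
noncomputable def q39 : Tr := .c 3 (.l 47) .e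
noncomputable def r20 : Tr := .c 5 q38 (.c 6 q39 .e)
noncomputable def q40 : Tr := .c 6 (.l 48) .e
noncomputable def r21 : Tr := .c 3 q40 (.c 6 q39 .e)
noncomputable def q41 : Tr := .c 3 (.l 49) (.c 4 (.l 37) (.c 6 (.l 37) .e))
noncomputable def q42 : Tr := .c 3 (.l 50) (.c 4 (.l 39) .e)
noncomputable def r22 : Tr := .c 1 q41 (.c 2 q42 (.c 6 q39 .e))
noncomputable def r23 : Tr := .c 0 q37 (.c 2 q42 (.c 6 q39 .e))
noncomputable def t10 : Tr := .c 0 r20 (.c 1 r21 (.c 3 r22 (.c 5 r23 .e)))
noncomputable def q43 : Tr := .c 3 (.l 51) (.c 4 (.l 52) (.c 6 (.l 53) .e))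
noncomputable def q44 : Tr := .c 3 (.l 54) (.c 4 (.l 55) .e)
noncomputable def q45 : Tr := .c 3 (.l 54) .e
noncomputable def r24 : Tr := .c 1 q43 (.c 2 q44 (.c 6 q45 .e))
noncomputable def q46 : Tr := .c 3 (.l 56) (.c 4 (.l 14) (.c 6 (.l 14) .e))
noncomputable def q47 : Tr := .c 3 (.l 57) (.c 4 (.l 58) .e)
noncomputable def q48 : Tr := .c 4 (.l 14) (.c 6 (.l 14) .e)
noncomputable def r25 : Tr := .c 1 q46 (.c 2 q47 (.c 5 q48 .e))
noncomputable def q49 : Tr := .c 3 (.l 59) (.c 4 (.l 14) (.c 6 (.l 14) .e))
noncomputable def r26 : Tr := .c 0 q14 (.c 1 q49 (.c 3 q14 (.c 5 q48 .e)))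
noncomputable def t11 : Tr := .c 3 r24 (.c 4 r25 (.c 6 r26 .e))
noncomputable def q50 : Tr := .c 3 (.l 60) (.c 4 (.l 61) (.c 6 (.l 61) .e))
noncomputable def q51 : Tr := .c 3 (.l 62) (.c 4 (.l 63) .e)
noncomputable def q52 : Tr := .c 3 (.l 62) .e
noncomputable def r27 : Tr := .c 1 q50 (.c 2 q51 (.c 6 q52 .e))
noncomputable def q53 : Tr := .c 3 (.l 64) (.c 4 (.l 65) (.c 6 (.l 65) .e))
noncomputable def q54 : Tr := .c 3 (.l 66) (.c 4 (.l 67) .e)
noncomputable def q55 : Tr := .c 4 (.l 68) (.c 6 (.l 68) .e)
noncomputable def r28 : Tr := .c 1 q53 (.c 2 q54 (.c 5 q55 .e))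
noncomputable def q56 : Tr := .c 6 (.l 69) .e
noncomputable def r29 : Tr := .c 0 q56 (.c 2 q51 (.c 6 q52 .e))
noncomputable def t12 : Tr := .c 3 r27 (.c 4 r28 (.c 5 r29 .e))
noncomputable def q57 : Tr := .c 3 (.l 70) .e
noncomputable def r30 : Tr := .c 5 q48 (.c 6 q57 .e)
noncomputable def r31 : Tr := .c 3 q14 (.c 5 q48 .e)
noncomputable def q58 : Tr := .c 3 (.l 57) (.c 4 (.l 71) .e)
noncomputable def r32 : Tr := .c 1 q46 (.c 2 q58 (.c 5 q48 .e))
noncomputable def t13 : Tr := .c 0 r30 (.c 2 r31 (.c 4 r32 (.c 6 r26 .e)))
noncomputable def q59 : Tr := .c 6 (.l 12) .e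
noncomputable def q60 : Tr := .c 3 (.l 72) (.c 4 (.l 73) .e)
noncomputable def q61 : Tr := .c 3 (.l 72) .e
noncomputable def r33 : Tr := .c 0 q59 (.c 2 q60 (.c 6 q61 .e))
noncomputable def q62 : Tr := .c 3 (.l 74) (.c 4 (.l 14) (.c 6 (.l 14) .e))
noncomputable def r34 : Tr := .c 0 q14 (.c 1 q62 (.c 3 q14 (.c 5 q48 .e)))
noncomputable def t14 : Tr := .c 5 r33 (.c 6 r34 .e)
noncomputable def q63 : Tr := .c 3 (.l 75) (.c 4 (.l 76) (.c 6 (.l 15) .e))
noncomputable def r35 : Tr := .c 1 q63 (.c 2 q44 (.c 6 q45 .e))
noncomputable def q64 : Tr := .c 3 (.l 77) (.c 4 (.l 14) (.c 6 (.l 14) .e))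
noncomputable def r36 : Tr := .c 1 q64 (.c 2 q47 (.c 5 q48 .e))
noncomputable def t15 : Tr := .c 3 r35 (.c 4 r36 (.c 6 r34 .e))
noncomputable def q65 : Tr := .c 3 (.l 78) .e
noncomputable def r37 : Tr := .c 3 q18 (.c 6 q65 .e)
noncomputable def t16 : Tr := .c 1 r37 (.c 2 r31 (.c 6 r34 .e))
noncomputable def r38 : Tr := .c 1 q64 (.c 2 q58 (.c 5 q48 .e))
noncomputable def t17 : Tr := .c 0 r30 (.c 2 r31 (.c 4 r38 (.c 6 r34 .e)))
noncomputable def q66 : Tr := .c 3 (.l 79) (.c 4 (.l 80) .e)
noncomputable def q67 : Tr := .c 3 (.l 81) (.c 4 (.l 82) (.c 5 (.l 81) .e))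
noncomputable def q68 : Tr := .c 3 (.l 83) (.c 5 (.l 83) .e)
noncomputable def r39 : Tr := .c 1 q66 (.c 2 q67 (.c 6 q68 .e))
noncomputable def q69 : Tr := .c 3 (.l 84) (.c 4 (.l 85) .e)
noncomputable def q70 : Tr := .c 3 (.l 86) (.c 4 (.l 87) (.c 5 (.l 86) .e))
noncomputable def q71 : Tr := .c 4 (.l 85) .e
noncomputable def r40 : Tr := .c 1 q69 (.c 2 q70 (.c 5 q71 .e))
noncomputable def q72 : Tr := .c 5 (.l 88) .e
noncomputable def r41 : Tr := .c 0 q72 (.c 1 q69 (.c 5 q71 .e))
noncomputable def t18 : Tr := .c 3 r39 (.c 4 r40 (.c 6 r41 .e))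
noncomputable def q73 : Tr := .c 3 (.l 89) (.c 4 (.l 90) .e)
noncomputable def q74 : Tr := .c 3 (.l 0) (.c 4 (.l 91) (.c 5 (.l 0) .e))
noncomputable def q75 : Tr := .c 3 (.l 0) (.c 5 (.l 0) .e)
noncomputable def r42 : Tr := .c 1 q73 (.c 2 q74 (.c 6 q75 .e))
noncomputable def q76 : Tr := .c 3 (.l 92) (.c 4 (.l 93) .e)
noncomputable def q77 : Tr := .c 3 (.l 94) (.c 4 (.l 95) (.c 5 (.l 96) .e))
noncomputable def q78 : Tr := .c 4 (.l 93) .e
noncomputable def r43 : Tr := .c 1 q76 (.c 2 q77 (.c 5 q78 .e))
noncomputable def q79 : Tr := .c 3 (.l 0) (.c 4 (.l 97) (.c 5 (.l 0) .e))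
noncomputable def r44 : Tr := .c 0 q1 (.c 2 q79 (.c 4 q1 (.c 6 q75 .e)))
noncomputable def t19 : Tr := .c 3 r42 (.c 4 r43 (.c 5 r44 .e))
noncomputable def q80 : Tr := .c 4 (.l 98) .e
noncomputable def r45 : Tr := .c 5 q80 (.c 6 q75 .e)
noncomputable def r46 : Tr := .c 4 q1 (.c 6 q75 .e)
noncomputable def q81 : Tr := .c 3 (.l 99) (.c 4 (.l 90) .e)
noncomputable def r47 : Tr := .c 1 q81 (.c 2 q74 (.c 6 q75 .e))
noncomputable def t20 : Tr := .c 0 r45 (.c 1 r46 (.c 3 r47 (.c 5 r44 .e)))
noncomputable def q82 : Tr := .c 3 (.l 100) (.c 4 (.l 101) .e)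
noncomputable def q83 : Tr := .c 3 (.l 102) (.c 4 (.l 103) (.c 5 (.l 102) .e))
noncomputable def q84 : Tr := .c 3 (.l 102) (.c 5 (.l 102) .e)
noncomputable def r48 : Tr := .c 1 q82 (.c 2 q83 (.c 6 q84 .e))
noncomputable def q85 : Tr := .c 3 (.l 104) (.c 4 (.l 105) .e)
noncomputable def q86 : Tr := .c 3 (.l 106) (.c 4 (.l 107) (.c 5 (.l 106) .e))
noncomputable def q87 : Tr := .c 4 (.l 108) .e
noncomputable def r49 : Tr := .c 1 q85 (.c 2 q86 (.c 5 q87 .e))
noncomputable def q88 : Tr := .c 5 (.l 109) .e
noncomputable def r50 : Tr := .c 0 q88 (.c 1 q85 (.c 5 q87 .e))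
noncomputable def t21 : Tr := .c 3 r48 (.c 4 r49 (.c 6 r50 .e))
noncomputable def q89 : Tr := .c 3 (.l 110) (.c 4 (.l 111) .e)
noncomputable def q90 : Tr := .c 3 (.l 112) (.c 4 (.l 113) (.c 5 (.l 114) .e))
noncomputable def q91 : Tr := .c 3 (.l 112) (.c 5 (.l 114) .e)
noncomputable def r51 : Tr := .c 1 q89 (.c 2 q90 (.c 6 q91 .e))
noncomputable def q92 : Tr := .c 3 (.l 115) (.c 4 (.l 116) .e)
noncomputable def q93 : Tr := .c 3 (.l 117) (.c 4 (.l 118) (.c 5 (.l 119) .e))
noncomputable def q94 : Tr := .c 4 (.l 120) .e
noncomputable def r52 : Tr := .c 1 q92 (.c 2 q93 (.c 5 q94 .e))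
noncomputable def q95 : Tr := .c 5 (.l 121) .e
noncomputable def q96 : Tr := .c 3 (.l 122) (.c 4 (.l 123) (.c 5 (.l 121) .e))
noncomputable def q97 : Tr := .c 3 (.l 122) (.c 5 (.l 121) .e)
noncomputable def r53 : Tr := .c 0 q95 (.c 2 q96 (.c 4 q95 (.c 6 q97 .e)))
noncomputable def t22 : Tr := .c 3 r51 (.c 4 r52 (.c 5 r53 .e))
noncomputable def q98 : Tr := .c 4 (.l 124) .e
noncomputable def q99 : Tr := .c 3 (.l 125) (.c 5 (.l 125) .e)
noncomputable def r54 : Tr := .c 5 q98 (.c 6 q99 .e)
noncomputable def q100 : Tr := .c 5 (.l 126) .e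
noncomputable def r55 : Tr := .c 4 q100 (.c 5 q98 .e)
noncomputable def q101 : Tr := .c 3 (.l 104) (.c 4 (.l 127) .e)
noncomputable def q102 : Tr := .c 3 (.l 106) (.c 4 (.l 128) (.c 5 (.l 106) .e))
noncomputable def r56 : Tr := .c 1 q101 (.c 2 q102 (.c 5 q98 .e))
noncomputable def r57 : Tr := .c 0 q88 (.c 1 q101 (.c 5 q98 .e))
noncomputable def t23 : Tr := .c 0 r54 (.c 2 r55 (.c 4 r56 (.c 6 r57 .e)))
noncomputable def q103 : Tr := .c 3 (.l 0) (.c 4 (.l 129) (.c 5 (.l 0) .e))
noncomputable def r58 : Tr := .c 0 q1 (.c 2 q103 (.c 4 q1 (.c 6 q75 .e)))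
noncomputable def q104 : Tr := .c 5 (.l 2) .e
noncomputable def q105 : Tr := .c 3 (.l 130) (.c 4 (.l 131) .e)
noncomputable def q106 : Tr := .c 4 (.l 131) .e
noncomputable def r59 : Tr := .c 0 q104 (.c 1 q105 (.c 5 q106 .e))
noncomputable def t24 : Tr := .c 5 r58 (.c 6 r59 .e)
noncomputable def q107 : Tr := .c 3 (.l 0) (.c 4 (.l 132) (.c 5 (.l 0) .e))
noncomputable def r60 : Tr := .c 1 q73 (.c 2 q107 (.c 6 q75 .e))
noncomputable def q108 : Tr := .c 3 (.l 133) (.c 4 (.l 134) (.c 5 (.l 6) .e))
noncomputable def r61 : Tr := .c 1 q76 (.c 2 q108 (.c 5 q78 .e))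
noncomputable def t25 : Tr := .c 3 r60 (.c 4 r61 (.c 5 r58 .e))
noncomputable def q109 : Tr := .c 4 (.l 135) .e
noncomputable def r62 : Tr := .c 4 q9 (.c 5 q109 .e)
noncomputable def t26 : Tr := .c 1 r46 (.c 2 r62 (.c 5 r58 .e))
noncomputable def r63 : Tr := .c 1 q81 (.c 2 q107 (.c 6 q75 .e))
noncomputable def t27 : Tr := .c 0 r45 (.c 1 r46 (.c 3 r63 (.c 5 r58 .e)))
noncomputable def q110 : Tr := .c 1 (.l 136) (.c 2 (.l 137) (.c 6 (.l 138) .e))
noncomputable def q111 : Tr := .c 1 (.l 139) (.c 2 (.l 140) .e)
noncomputable def q112 : Tr := .c 1 (.l 141) .e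
noncomputable def r64 : Tr := .c 3 q110 (.c 4 q111 (.c 6 q112 .e))
noncomputable def q113 : Tr := .c 1 (.l 142) (.c 2 (.l 143) (.c 6 (.l 144) .e))
noncomputable def q114 : Tr := .c 1 (.l 145) (.c 2 (.l 146) .e)
noncomputable def q115 : Tr := .c 2 (.l 143) (.c 6 (.l 144) .e)
noncomputable def r65 : Tr := .c 3 q113 (.c 4 q114 (.c 5 q115 .e))
noncomputable def q116 : Tr := .c 6 (.l 147) .e
noncomputable def q117 : Tr := .c 1 (.l 148) (.c 2 (.l 149) (.c 6 (.l 147) .e))
noncomputable def q118 : Tr := .c 2 (.l 149) (.c 6 (.l 147) .e)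
noncomputable def r66 : Tr := .c 0 q116 (.c 1 q116 (.c 3 q117 (.c 5 q118 .e)))
noncomputable def t28 : Tr := .c 1 r64 (.c 2 r65 (.c 6 r66 .e))
noncomputable def q119 : Tr := .c 1 (.l 150) (.c 2 (.l 151) (.c 6 (.l 151) .e))
noncomputable def q120 : Tr := .c 1 (.l 152) (.c 2 (.l 153) .e)
noncomputable def q121 : Tr := .c 1 (.l 154) .e
noncomputable def r67 : Tr := .c 3 q119 (.c 4 q120 (.c 6 q121 .e))
noncomputable def q122 : Tr := .c 1 (.l 155) (.c 2 (.l 156) (.c 6 (.l 156) .e))
noncomputable def q123 : Tr := .c 1 (.l 157) (.c 2 (.l 158) .e)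
noncomputable def q124 : Tr := .c 2 (.l 156) (.c 6 (.l 156) .e)
noncomputable def r68 : Tr := .c 3 q122 (.c 4 q123 (.c 5 q124 .e))
noncomputable def q125 : Tr := .c 6 (.l 159) .e
noncomputable def r69 : Tr := .c 0 q125 (.c 4 q120 (.c 6 q121 .e))
noncomputable def t29 : Tr := .c 1 r67 (.c 2 r68 (.c 5 r69 .e))
noncomputable def q126 : Tr := .c 2 (.l 160) (.c 6 (.l 160) .e)
noncomputable def q127 : Tr := .c 1 (.l 161) .e
noncomputable def r70 : Tr := .c 5 q126 (.c 6 q127 .e)
noncomputable def q128 : Tr := .c 1 (.l 162) (.c 2 (.l 151) (.c 6 (.l 151) .e))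
noncomputable def q129 : Tr := .c 1 (.l 163) (.c 2 (.l 153) .e)
noncomputable def r71 : Tr := .c 3 q128 (.c 4 q129 (.c 6 q127 .e))
noncomputable def q130 : Tr := .c 6 (.l 164) .e
noncomputable def r72 : Tr := .c 1 q130 (.c 6 q127 .e)
noncomputable def r73 : Tr := .c 0 q125 (.c 4 q129 (.c 6 q127 .e))
noncomputable def t30 : Tr := .c 0 r70 (.c 1 r71 (.c 3 r72 (.c 5 r73 .e)))
noncomputable def q131 : Tr := .c 1 (.l 165) (.c 2 (.l 166) (.c 6 (.l 167) .e))
noncomputable def q132 : Tr := .c 1 (.l 168) (.c 2 (.l 169) .e)
noncomputable def q133 : Tr := .c 1 (.l 168) .e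
noncomputable def r74 : Tr := .c 3 q131 (.c 4 q132 (.c 6 q133 .e))
noncomputable def q134 : Tr := .c 1 (.l 170) (.c 2 (.l 14) (.c 6 (.l 14) .e))
noncomputable def q135 : Tr := .c 1 (.l 171) (.c 2 (.l 172) .e)
noncomputable def q136 : Tr := .c 2 (.l 14) (.c 6 (.l 14) .e)
noncomputable def r75 : Tr := .c 3 q134 (.c 4 q135 (.c 5 q136 .e))
noncomputable def q137 : Tr := .c 1 (.l 173) (.c 2 (.l 14) (.c 6 (.l 14) .e))
noncomputable def r76 : Tr := .c 0 q14 (.c 1 q14 (.c 3 q137 (.c 5 q136 .e)))
noncomputable def t31 : Tr := .c 1 r74 (.c 2 r75 (.c 6 r76 .e))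
noncomputable def q138 : Tr := .c 1 (.l 174) (.c 2 (.l 175) (.c 6 (.l 175) .e))
noncomputable def q139 : Tr := .c 1 (.l 176) (.c 2 (.l 177) .e)
noncomputable def q140 : Tr := .c 1 (.l 176) .e
noncomputable def r77 : Tr := .c 3 q138 (.c 4 q139 (.c 6 q140 .e))
noncomputable def q141 : Tr := .c 1 (.l 178) (.c 2 (.l 179) (.c 6 (.l 179) .e))
noncomputable def q142 : Tr := .c 1 (.l 180) (.c 2 (.l 181) .e)
noncomputable def q143 : Tr := .c 2 (.l 182) (.c 6 (.l 182) .e)
noncomputable def r78 : Tr := .c 3 q141 (.c 4 q142 (.c 5 q143 .e))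
noncomputable def q144 : Tr := .c 6 (.l 183) .e
noncomputable def r79 : Tr := .c 0 q144 (.c 4 q139 (.c 6 q140 .e))
noncomputable def t32 : Tr := .c 1 r77 (.c 2 r78 (.c 5 r79 .e))
noncomputable def q145 : Tr := .c 1 (.l 184) .e
noncomputable def r80 : Tr := .c 5 q136 (.c 6 q145 .e)
noncomputable def q146 : Tr := .c 1 (.l 171) (.c 2 (.l 185) .e)
noncomputable def r81 : Tr := .c 3 q134 (.c 4 q146 (.c 5 q136 .e))
noncomputable def r82 : Tr := .c 1 q14 (.c 5 q136 .e)
noncomputable def t33 : Tr := .c 0 r80 (.c 2 r81 (.c 4 r82 (.c 6 r76 .e)))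
noncomputable def q147 : Tr := .c 1 (.l 186) (.c 2 (.l 187) .e)
noncomputable def q148 : Tr := .c 1 (.l 186) .e
noncomputable def r83 : Tr := .c 0 q59 (.c 4 q147 (.c 6 q148 .e))
noncomputable def q149 : Tr := .c 1 (.l 188) (.c 2 (.l 14) (.c 6 (.l 14) .e))
noncomputable def r84 : Tr := .c 0 q14 (.c 1 q14 (.c 3 q149 (.c 5 q136 .e)))
noncomputable def t34 : Tr := .c 5 r83 (.c 6 r84 .e)
noncomputable def q150 : Tr := .c 1 (.l 189) .e
noncomputable def r85 : Tr := .c 1 q15 (.c 6 q150 .e)
noncomputable def t35 : Tr := .c 3 r85 (.c 4 r82 (.c 6 r84 .e))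
noncomputable def q151 : Tr := .c 1 (.l 190) (.c 2 (.l 191) (.c 6 (.l 18) .e))
noncomputable def r86 : Tr := .c 3 q151 (.c 4 q132 (.c 6 q133 .e))
noncomputable def q152 : Tr := .c 1 (.l 192) (.c 2 (.l 14) (.c 6 (.l 14) .e))
noncomputable def r87 : Tr := .c 3 q152 (.c 4 q135 (.c 5 q136 .e))
noncomputable def t36 : Tr := .c 1 r86 (.c 2 r87 (.c 6 r84 .e))
noncomputable def r88 : Tr := .c 3 q152 (.c 4 q146 (.c 5 q136 .e))
noncomputable def t37 : Tr := .c 0 r80 (.c 2 r88 (.c 4 r82 (.c 6 r84 .e)))
noncomputable def q153 : Tr := .c 1 (.l 193) (.c 2 (.l 194) .e)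
noncomputable def q154 : Tr := .c 1 (.l 195) (.c 2 (.l 196) (.c 5 (.l 195) .e))
noncomputable def q155 : Tr := .c 1 (.l 197) (.c 5 (.l 197) .e)
noncomputable def r89 : Tr := .c 3 q153 (.c 4 q154 (.c 6 q155 .e))
noncomputable def q156 : Tr := .c 1 (.l 198) (.c 2 (.l 199) .e)
noncomputable def q157 : Tr := .c 1 (.l 200) (.c 2 (.l 201) (.c 5 (.l 200) .e))
noncomputable def q158 : Tr := .c 2 (.l 199) .e
noncomputable def r90 : Tr := .c 3 q156 (.c 4 q157 (.c 5 q158 .e))
noncomputable def q159 : Tr := .c 5 (.l 202) .e
noncomputable def r91 : Tr := .c 0 q159 (.c 3 q156 (.c 5 q158 .e))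
noncomputable def t38 : Tr := .c 1 r89 (.c 2 r90 (.c 6 r91 .e))
noncomputable def q160 : Tr := .c 1 (.l 203) (.c 2 (.l 204) .e)
noncomputable def q161 : Tr := .c 1 (.l 0) (.c 2 (.l 205) (.c 5 (.l 0) .e))
noncomputable def q162 : Tr := .c 1 (.l 0) (.c 5 (.l 0) .e)
noncomputable def r92 : Tr := .c 3 q160 (.c 4 q161 (.c 6 q162 .e))
noncomputable def q163 : Tr := .c 1 (.l 206) (.c 2 (.l 207) .e)
noncomputable def q164 : Tr := .c 1 (.l 208) (.c 2 (.l 209) (.c 5 (.l 210) .e))
noncomputable def q165 : Tr := .c 2 (.l 207) .e
noncomputable def r93 : Tr := .c 3 q163 (.c 4 q164 (.c 5 q165 .e))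
noncomputable def q166 : Tr := .c 1 (.l 0) (.c 2 (.l 211) (.c 5 (.l 0) .e))
noncomputable def r94 : Tr := .c 0 q1 (.c 2 q1 (.c 4 q166 (.c 6 q162 .e)))
noncomputable def t39 : Tr := .c 1 r92 (.c 2 r93 (.c 5 r94 .e))
noncomputable def q167 : Tr := .c 2 (.l 212) .e
noncomputable def r95 : Tr := .c 5 q167 (.c 6 q162 .e)
noncomputable def q168 : Tr := .c 1 (.l 213) (.c 2 (.l 204) .e)
noncomputable def r96 : Tr := .c 3 q168 (.c 4 q161 (.c 6 q162 .e))
noncomputable def r97 : Tr := .c 2 q1 (.c 6 q162 .e)
noncomputable def t40 : Tr := .c 0 r95 (.c 1 r96 (.c 3 r97 (.c 5 r94 .e)))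
noncomputable def q169 : Tr := .c 1 (.l 214) (.c 2 (.l 215) .e)
noncomputable def q170 : Tr := .c 1 (.l 216) (.c 2 (.l 217) (.c 5 (.l 216) .e))
noncomputable def q171 : Tr := .c 1 (.l 216) (.c 5 (.l 216) .e)
noncomputable def r98 : Tr := .c 3 q169 (.c 4 q170 (.c 6 q171 .e))
noncomputable def q172 : Tr := .c 1 (.l 218) (.c 2 (.l 219) .e)
noncomputable def q173 : Tr := .c 1 (.l 220) (.c 2 (.l 221) (.c 5 (.l 220) .e))
noncomputable def q174 : Tr := .c 2 (.l 222) .e
noncomputable def r99 : Tr := .c 3 q172 (.c 4 q173 (.c 5 q174 .e))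
noncomputable def q175 : Tr := .c 5 (.l 223) .e
noncomputable def r100 : Tr := .c 0 q175 (.c 3 q172 (.c 5 q174 .e))
noncomputable def t41 : Tr := .c 1 r98 (.c 2 r99 (.c 6 r100 .e))
noncomputable def q176 : Tr := .c 1 (.l 224) (.c 2 (.l 225) .e)
noncomputable def q177 : Tr := .c 1 (.l 226) (.c 2 (.l 227) (.c 5 (.l 228) .e))
noncomputable def q178 : Tr := .c 1 (.l 226) (.c 5 (.l 228) .e)
noncomputable def r101 : Tr := .c 3 q176 (.c 4 q177 (.c 6 q178 .e))
noncomputable def q179 : Tr := .c 1 (.l 229) (.c 2 (.l 230) .e)
noncomputable def q180 : Tr := .c 1 (.l 231) (.c 2 (.l 232) (.c 5 (.l 233) .e))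
noncomputable def q181 : Tr := .c 2 (.l 234) .e
noncomputable def r102 : Tr := .c 3 q179 (.c 4 q180 (.c 5 q181 .e))
noncomputable def q182 : Tr := .c 5 (.l 235) .e
noncomputable def q183 : Tr := .c 1 (.l 236) (.c 2 (.l 237) (.c 5 (.l 235) .e))
noncomputable def q184 : Tr := .c 1 (.l 236) (.c 5 (.l 235) .e)
noncomputable def r103 : Tr := .c 0 q182 (.c 2 q182 (.c 4 q183 (.c 6 q184 .e)))
noncomputable def t42 : Tr := .c 1 r101 (.c 2 r102 (.c 5 r103 .e))
noncomputable def q185 : Tr := .c 2 (.l 238) .e
noncomputable def q186 : Tr := .c 1 (.l 239) (.c 5 (.l 239) .e)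
noncomputable def r104 : Tr := .c 5 q185 (.c 6 q186 .e)
noncomputable def q187 : Tr := .c 1 (.l 218) (.c 2 (.l 240) .e)
noncomputable def q188 : Tr := .c 1 (.l 220) (.c 2 (.l 241) (.c 5 (.l 220) .e))
noncomputable def r105 : Tr := .c 3 q187 (.c 4 q188 (.c 5 q185 .e))
noncomputable def q189 : Tr := .c 5 (.l 242) .e
noncomputable def r106 : Tr := .c 2 q189 (.c 5 q185 .e)
noncomputable def r107 : Tr := .c 0 q175 (.c 3 q187 (.c 5 q185 .e))
noncomputable def t43 : Tr := .c 0 r104 (.c 2 r105 (.c 4 r106 (.c 6 r107 .e)))
noncomputable def q190 : Tr := .c 1 (.l 0) (.c 2 (.l 243) (.c 5 (.l 0) .e))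
noncomputable def r108 : Tr := .c 0 q1 (.c 2 q1 (.c 4 q190 (.c 6 q162 .e)))
noncomputable def q191 : Tr := .c 1 (.l 244) (.c 2 (.l 245) .e)
noncomputable def q192 : Tr := .c 2 (.l 245) .e
noncomputable def r109 : Tr := .c 0 q104 (.c 3 q191 (.c 5 q192 .e))
noncomputable def t44 : Tr := .c 5 r108 (.c 6 r109 .e)
noncomputable def q193 : Tr := .c 2 (.l 246) .e
noncomputable def r110 : Tr := .c 2 q6 (.c 5 q193 .e)
noncomputable def t45 : Tr := .c 3 r97 (.c 4 r110 (.c 5 r108 .e))
noncomputable def q194 : Tr := .c 1 (.l 0) (.c 2 (.l 247) (.c 5 (.l 0) .e))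
noncomputable def r111 : Tr := .c 3 q160 (.c 4 q194 (.c 6 q162 .e))
noncomputable def q195 : Tr := .c 1 (.l 248) (.c 2 (.l 249) (.c 5 (.l 9) .e))
noncomputable def r112 : Tr := .c 3 q163 (.c 4 q195 (.c 5 q165 .e))
noncomputable def t46 : Tr := .c 1 r111 (.c 2 r112 (.c 5 r108 .e))
noncomputable def r113 : Tr := .c 3 q168 (.c 4 q194 (.c 6 q162 .e))
noncomputable def t47 : Tr := .c 0 r95 (.c 1 r113 (.c 3 r97 (.c 5 r108 .e)))
noncomputable def q196 : Tr := .c 0 (.l 14) (.c 2 (.l 14) (.c 4 (.l 14) (.c 6 (.l 14) .e)))
noncomputable def q197 : Tr := .c 0 (.l 250) .e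
noncomputable def r114 : Tr := .c 5 q196 (.c 6 q197 .e)
noncomputable def q198 : Tr := .c 2 (.l 251) .e
noncomputable def r115 : Tr := .c 3 q136 (.c 4 q198 (.c 5 q196 .e))
noncomputable def q199 : Tr := .c 4 (.l 252) .e
noncomputable def r116 : Tr := .c 1 q48 (.c 2 q199 (.c 5 q196 .e))
noncomputable def r117 : Tr := .c 0 q14 (.c 1 q48 (.c 3 q136 (.c 5 q196 .e)))
noncomputable def t48 : Tr := .c 0 r114 (.c 2 r115 (.c 4 r116 (.c 6 r117 .e)))
noncomputable def q200 : Tr := .c 0 (.l 253) (.c 2 (.l 253) (.c 4 (.l 253) (.c 6 (.l 253) .e)))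
noncomputable def q201 : Tr := .c 0 (.l 254) .e
noncomputable def r118 : Tr := .c 5 q200 (.c 6 q201 .e)
noncomputable def q202 : Tr := .c 2 (.l 255) (.c 6 (.l 255) .e)
noncomputable def q203 : Tr := .c 2 (.l 256) .e
noncomputable def r119 : Tr := .c 3 q202 (.c 4 q203 (.c 6 q201 .e))
noncomputable def q204 : Tr := .c 4 (.l 257) (.c 6 (.l 257) .e)
noncomputable def q205 : Tr := .c 4 (.l 258) .e
noncomputable def r120 : Tr := .c 1 q204 (.c 2 q205 (.c 6 q201 .e))
noncomputable def q206 : Tr := .c 6 (.l 259) .e
noncomputable def r121 : Tr := .c 0 q206 (.c 2 q205 (.c 4 q203 (.c 6 q201 .e)))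
noncomputable def t49 : Tr := .c 0 r118 (.c 1 r119 (.c 3 r120 (.c 5 r121 .e)))
noncomputable def q207 : Tr := .c 2 (.l 166) (.c 6 (.l 167) .e)
noncomputable def q208 : Tr := .c 2 (.l 169) .e
noncomputable def q209 : Tr := .c 0 (.l 260) .e
noncomputable def r122 : Tr := .c 3 q207 (.c 4 q208 (.c 6 q209 .e))
noncomputable def q210 : Tr := .c 2 (.l 261) .e
noncomputable def r123 : Tr := .c 3 q136 (.c 4 q210 (.c 5 q196 .e))
noncomputable def t50 : Tr := .c 1 r122 (.c 2 r123 (.c 6 r117 .e))
noncomputable def q211 : Tr := .c 2 (.l 175) (.c 6 (.l 175) .e)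
noncomputable def q212 : Tr := .c 2 (.l 177) .e
noncomputable def q213 : Tr := .c 0 (.l 262) .e
noncomputable def r124 : Tr := .c 3 q211 (.c 4 q212 (.c 6 q213 .e))
noncomputable def q214 : Tr := .c 2 (.l 263) (.c 6 (.l 263) .e)
noncomputable def q215 : Tr := .c 2 (.l 264) .e
noncomputable def q216 : Tr := .c 0 (.l 265) (.c 2 (.l 265) (.c 4 (.l 265) (.c 6 (.l 265) .e)))
noncomputable def r125 : Tr := .c 3 q214 (.c 4 q215 (.c 5 q216 .e))
noncomputable def q217 : Tr := .c 4 (.l 266) .e
noncomputable def r126 : Tr := .c 0 q144 (.c 2 q217 (.c 4 q212 (.c 6 q213 .e)))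
noncomputable def t51 : Tr := .c 1 r124 (.c 2 r125 (.c 5 r126 .e))
noncomputable def q218 : Tr := .c 4 (.l 52) (.c 6 (.l 53) .e)
noncomputable def q219 : Tr := .c 4 (.l 55) .e
noncomputable def q220 : Tr := .c 0 (.l 267) .e
noncomputable def r127 : Tr := .c 1 q218 (.c 2 q219 (.c 6 q220 .e))
noncomputable def q221 : Tr := .c 4 (.l 268) .e
noncomputable def r128 : Tr := .c 1 q48 (.c 2 q221 (.c 5 q196 .e))
noncomputable def t52 : Tr := .c 3 r127 (.c 4 r128 (.c 6 r117 .e))
noncomputable def q222 : Tr := .c 4 (.l 61) (.c 6 (.l 61) .e)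
noncomputable def q223 : Tr := .c 4 (.l 63) .e
noncomputable def q224 : Tr := .c 0 (.l 269) .e
noncomputable def r129 : Tr := .c 1 q222 (.c 2 q223 (.c 6 q224 .e))
noncomputable def q225 : Tr := .c 4 (.l 270) (.c 6 (.l 270) .e)
noncomputable def q226 : Tr := .c 4 (.l 271) .e
noncomputable def q227 : Tr := .c 0 (.l 272) (.c 2 (.l 272) (.c 4 (.l 272) (.c 6 (.l 272) .e)))
noncomputable def r130 : Tr := .c 1 q225 (.c 2 q226 (.c 5 q227 .e))
noncomputable def q228 : Tr := .c 2 (.l 273) .e
noncomputable def r131 : Tr := .c 0 q56 (.c 2 q223 (.c 4 q228 (.c 6 q224 .e)))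
noncomputable def t53 : Tr := .c 3 r129 (.c 4 r130 (.c 5 r131 .e))
noncomputable def q229 : Tr := .c 4 (.l 73) .e
noncomputable def q230 : Tr := .c 2 (.l 187) .e
noncomputable def q231 : Tr := .c 0 (.l 274) .e
noncomputable def r132 : Tr := .c 0 q59 (.c 2 q229 (.c 4 q230 (.c 6 q231 .e)))
noncomputable def t54 : Tr := .c 5 r132 (.c 6 r117 .e)
noncomputable def q232 : Tr := .c 4 (.l 76) (.c 6 (.l 15) .e)
noncomputable def r133 : Tr := .c 1 q232 (.c 2 q219 (.c 6 q220 .e))
noncomputable def t55 : Tr := .c 3 r133 (.c 4 r128 (.c 6 r117 .e))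
noncomputable def q233 : Tr := .c 2 (.l 191) (.c 6 (.l 18) .e)
noncomputable def r134 : Tr := .c 3 q233 (.c 4 q208 (.c 6 q209 .e))
noncomputable def t56 : Tr := .c 1 r134 (.c 2 r123 (.c 6 r117 .e))
noncomputable def q234 : Tr := .c 0 (.l 275) .e
noncomputable def q235 : Tr := .c 0 (.l 276) (.c 1 (.l 276) (.c 3 (.l 276) (.c 5 (.l 276) .e)))
noncomputable def r135 : Tr := .c 5 q234 (.c 6 q235 .e)
noncomputable def q236 : Tr := .c 1 (.l 277) .e
noncomputable def q237 : Tr := .c 1 (.l 278) (.c 5 (.l 278) .e)
noncomputable def r136 : Tr := .c 3 q236 (.c 4 q237 (.c 5 q234 .e))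
noncomputable def q238 : Tr := .c 3 (.l 279) .e
noncomputable def q239 : Tr := .c 3 (.l 280) (.c 5 (.l 280) .e)
noncomputable def r137 : Tr := .c 1 q238 (.c 2 q239 (.c 5 q234 .e))
noncomputable def q240 : Tr := .c 5 (.l 281) .e
noncomputable def r138 : Tr := .c 0 q240 (.c 1 q238 (.c 3 q236 (.c 5 q234 .e)))
noncomputable def t57 : Tr := .c 0 r135 (.c 2 r136 (.c 4 r137 (.c 6 r138 .e)))
noncomputable def q241 : Tr := .c 0 (.l 282) .e
noncomputable def q242 : Tr := .c 0 (.l 0) (.c 1 (.l 0) (.c 3 (.l 0) (.c 5 (.l 0) .e)))
noncomputable def r139 : Tr := .c 5 q241 (.c 6 q242 .e)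
noncomputable def q243 : Tr := .c 1 (.l 283) .e
noncomputable def r140 : Tr := .c 3 q243 (.c 4 q162 (.c 6 q242 .e))
noncomputable def q244 : Tr := .c 3 (.l 284) .e
noncomputable def r141 : Tr := .c 1 q244 (.c 2 q75 (.c 6 q242 .e))
noncomputable def r142 : Tr := .c 0 q1 (.c 2 q75 (.c 4 q162 (.c 6 q242 .e)))
noncomputable def t58 : Tr := .c 0 r139 (.c 1 r140 (.c 3 r141 (.c 5 r142 .e)))
noncomputable def q245 : Tr := .c 1 (.l 285) .e
noncomputable def q246 : Tr := .c 1 (.l 286) (.c 5 (.l 286) .e)
noncomputable def q247 : Tr := .c 0 (.l 287) (.c 1 (.l 287) (.c 3 (.l 287) (.c 5 (.l 287) .e)))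
noncomputable def r143 : Tr := .c 3 q245 (.c 4 q246 (.c 6 q247 .e))
noncomputable def q248 : Tr := .c 1 (.l 198) .e
noncomputable def q249 : Tr := .c 1 (.l 200) (.c 5 (.l 200) .e)
noncomputable def q250 : Tr := .c 0 (.l 288) .e
noncomputable def r144 : Tr := .c 3 q248 (.c 4 q249 (.c 5 q250 .e))
noncomputable def q251 : Tr := .c 3 (.l 289) .e
noncomputable def r145 : Tr := .c 0 q159 (.c 1 q251 (.c 3 q248 (.c 5 q250 .e)))
noncomputable def t59 : Tr := .c 1 r143 (.c 2 r144 (.c 6 r145 .e))
noncomputable def q252 : Tr := .c 1 (.l 290) .e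
noncomputable def r146 : Tr := .c 3 q252 (.c 4 q162 (.c 6 q242 .e))
noncomputable def q253 : Tr := .c 1 (.l 206) .e
noncomputable def q254 : Tr := .c 1 (.l 208) (.c 5 (.l 210) .e)
noncomputable def q255 : Tr := .c 0 (.l 291) .e
noncomputable def r147 : Tr := .c 3 q253 (.c 4 q254 (.c 5 q255 .e))
noncomputable def t60 : Tr := .c 1 r146 (.c 2 r147 (.c 5 r142 .e))
noncomputable def q256 : Tr := .c 3 (.l 292) .e
noncomputable def q257 : Tr := .c 3 (.l 293) (.c 5 (.l 293) .e)
noncomputable def q258 : Tr := .c 0 (.l 294) (.c 1 (.l 294) (.c 3 (.l 294) (.c 5 (.l 294) .e)))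
noncomputable def r148 : Tr := .c 1 q256 (.c 2 q257 (.c 6 q258 .e))
noncomputable def q259 : Tr := .c 3 (.l 84) .e
noncomputable def q260 : Tr := .c 3 (.l 86) (.c 5 (.l 86) .e)
noncomputable def q261 : Tr := .c 0 (.l 295) .e
noncomputable def r149 : Tr := .c 1 q259 (.c 2 q260 (.c 5 q261 .e))
noncomputable def q262 : Tr := .c 1 (.l 296) .e
noncomputable def r150 : Tr := .c 0 q72 (.c 1 q259 (.c 3 q262 (.c 5 q261 .e)))
noncomputable def t61 : Tr := .c 3 r148 (.c 4 r149 (.c 6 r150 .e))
noncomputable def q263 : Tr := .c 3 (.l 297) .e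
noncomputable def r151 : Tr := .c 1 q263 (.c 2 q75 (.c 6 q242 .e))
noncomputable def q264 : Tr := .c 3 (.l 92) .e
noncomputable def q265 : Tr := .c 3 (.l 94) (.c 5 (.l 96) .e)
noncomputable def q266 : Tr := .c 0 (.l 298) .e
noncomputable def r152 : Tr := .c 1 q264 (.c 2 q265 (.c 5 q266 .e))
noncomputable def t62 : Tr := .c 3 r151 (.c 4 r152 (.c 5 r142 .e))
noncomputable def q267 : Tr := .c 3 (.l 130) .e
noncomputable def q268 : Tr := .c 1 (.l 244) .e
noncomputable def q269 : Tr := .c 0 (.l 299) .e
noncomputable def r153 : Tr := .c 0 q104 (.c 1 q267 (.c 3 q268 (.c 5 q269 .e)))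
noncomputable def t63 : Tr := .c 5 r142 (.c 6 r153 .e)
noncomputable def q270 : Tr := .c 3 (.l 133) (.c 5 (.l 6) .e)
noncomputable def r154 : Tr := .c 1 q264 (.c 2 q270 (.c 5 q266 .e))
noncomputable def t64 : Tr := .c 3 r151 (.c 4 r154 (.c 5 r142 .e))
noncomputable def q271 : Tr := .c 1 (.l 248) (.c 5 (.l 9) .e)
noncomputable def r155 : Tr := .c 3 q253 (.c 4 q271 (.c 5 q255 .e))
noncomputable def t65 : Tr := .c 1 r146 (.c 2 r155 (.c 5 r142 .e))

/-- the diagram -/
noncomputable def T : Tr := (.c 0 (.c 5 (.c 0 t0 (.c 2 t1 (.c 4 t2 (.c 6 t3 .e)))) (.c 6 (.c 0 t4 (.c 1 t5 (.c 3 t6 (.c 5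
t7 .e)))) .e)) (.c 1 (.c 3 (.c 1 t8 (.c 2 t9 (.c 6 t10 .e))) (.c 4 (.c 1 t11 (.c 2 t12 (.c 5
t13 .e))) (.c 6 (.c 0 t14 (.c 1 t15 (.c 3 t16 (.c 5 t17 .e)))) .e))) (.c 2 (.c 3 (.c 1 t18 (.c
2 t19 (.c 6 t20 .e))) (.c 4 (.c 1 t21 (.c 2 t22 (.c 5 t23 .e))) (.c 5 (.c 0 t24 (.c 2 t25 (.c 4
t26 (.c 6 t27 .e)))) .e))) (.c 3 (.c 1 (.c 3 t28 (.c 4 t29 (.c 6 t30 .e))) (.c 2 (.c 3 t31 (.c
4 t32 (.c 5 t33 .e))) (.c 6 (.c 0 t34 (.c 1 t35 (.c 3 t36 (.c 5 t37 .e)))) .e))) (.c 4 (.c 1
(.c 3 t38 (.c 4 t39 (.c 6 t40 .e))) (.c 2 (.c 3 t41 (.c 4 t42 (.c 5 t43 .e))) (.c 5 (.c 0 t44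
(.c 2 t45 (.c 4 t46 (.c 6 t47 .e)))) .e))) (.c 5 (.c 0 (.c 5 t48 (.c 6 t49 .e)) (.c 2 (.c 3 t50
(.c 4 t51 (.c 5 t48 .e))) (.c 4 (.c 1 t52 (.c 2 t53 (.c 5 t48 .e))) (.c 6 (.c 0 t54 (.c 1 t55
(.c 3 t56 (.c 5 t48 .e)))) .e)))) (.c 6 (.c 0 (.c 5 t57 (.c 6 t58 .e)) (.c 1 (.c 3 t59 (.c 4
t60 (.c 6 t58 .e))) (.c 3 (.c 1 t61 (.c 2 t62 (.c 6 t58 .e))) (.c 5 (.c 0 t63 (.c 2 t64 (.c 4
t65 (.c 6 t58 .e)))) .e)))) .e)))))))

theorem k0 : chkQ0 D J R 300 T = true := by decide +kernel
theorem pr : Fast.preF D J 300 T = true := by decide +kernel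
theorem c0 : csP D J T 0 = true := csP_of_csF pr (by decide +kernel)
theorem c1 : csP D J T 1 = true := csP_of_csF pr (by decide +kernel)
theorem c2 : csP D J T 2 = true := csP_of_csF pr (by decide +kernel)
theorem c3 : csP D J T 3 = true := csP_of_csF pr (by decide +kernel)
theorem c4 : csP D J T 4 = true := csP_of_csF pr (by decide +kernel)
theorem c5 : csP D J T 5 = true := csP_of_csF pr (by decide +kernel)
theorem c6 : csP D J T 6 = true := csP_of_csF pr (by decide +kernel)
theorem c7 : csP D J T 7 = true := csP_of_csF pr (by decide +kernel)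
theorem c8 : csP D J T 8 = true := csP_of_csF pr (by decide +kernel)
theorem c9 : csP D J T 9 = true := csP_of_csF pr (by decide +kernel)
theorem c10 : csP D J T 10 = true := csP_of_csF pr (by decide +kernel)
theorem c11 : csP D J T 11 = true := csP_of_csF pr (by decide +kernel)
theorem c12 : csP D J T 12 = true := csP_of_csF pr (by decide +kernel)
theorem c13 : csP D J T 13 = true := csP_of_csF pr (by decide +kernel)
theorem c14 : csP D J T 14 = true := csP_of_csF pr (by decide +kernel)
theorem c15 : csP D J T 15 = true := csP_of_csF pr (by decide +kernel)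
theorem c16 : csP D J T 16 = true := csP_of_csF pr (by decide +kernel)

theorem cs : ∀ p < D.N, csP D J T p = true := by
  intro p hp
  have hp : p < 17 := hp
  interval_cases p
  · exact c0
  · exact c1
  · exact c2
  · exact c3
  · exact c4
  · exact c5
  · exact c6
  · exact c7
  · exact c8
  · exact c9
  · exact c10
  · exact c11
  · exact c12
  · exact c13
  · exact c14
  · exact c15
  · exact c16

/-- the box table -/
theorem tab : BoxTab D := boxTab_of (by decide) (by decide) k0 cs

end F30t

end Vale.Agent.P032.Words.Trie
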