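import Vale.Agent.P032.H475.Fast

/-!
# Hexagons around a centre with six colours: box tables
-/

namespace Vale.Agent.P032.Words.Trie

/-! ### 01 02 03 12 14 25 34 35 (7|56: 7 never) -/

namespace F33a

/-- the data -/
def D : Dat where
  A := 8
  N := 19
  nb := [224, 208, 56, 196, 166, 85, 43, 27]
  op := [127, 191, 247, 59, 127, 191, 213, 230]
  nbT := [393440, 327888, 49208, 274628, 142502, 70485, 34859, 16923, 444448, 437408, 377360, 349008,
182312, 115224, 408964, 341828, 175138, 86801, 53003]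
  opT := [130943, 196543, 475127, 249659, 381823, 453823, 489429, 507366, 524255, 524127, 524271,
524207, 524247, 524263, 524155, 524219, 524253, 524270, 524276]
  PL := [[0], [1], [2], [3], [4], [5], [6], [7], [0, 2], [0, 4], [1, 2], [1, 5], [2, 6], [2, 7], [3,
4], [3, 5], [4, 6], [5, 7], [6, 7]]
  L := [3, 5, 9, 6, 18, 36, 24, 40]
  P := [3, 5, 9, 6, 18, 36, 24, 40, 11, 19, 13, 37, 25, 41, 22, 38, 26, 44, 56]
  r := 0
  tie := [0, 0, 0, 0, 0, 0, 0, 0, 0, 0, 0, 0, 0, 0, 0, 0, 0, 0, 0]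

/-- changes of the value at a tie -/
def J : List (List ℕ) := [[]]

/-- reachable values -/
def R : List (List ℕ) := [[1], [2], [4], [8], [0x10], [0x20], [0x40], [0x80], [0x100], [0x200], [0x400], [0x800],
[0x1000], [0x2000], [0x4000], [0x8000], [0x10000], [0x20000], [0x40000], [0x80000], [0x100000],
[0x200000], [0x400000], [0x800000], [0x1000000], [0x2000000], [0x4000000], [0x8000000],
[0x10000000], [0x20000000], [0x40000000], [0x80000000], [0x100000000], [0x200000000],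
[0x400000000], [0x800000000], [0x1000000000], [0x2000000000], [0x4000000000], [0x8000000000],
[0x10000000000], [0x20000000000], [0x40000000000], [0x80000000000], [0x100000000000],
[0x200000000000], [0x400000000000], [0x800000000000], [0x1000000000000], [0x2000000000000],
[0x4000000000000], [0x8000000000000], [0x10000000000000], [0x20000000000000]]

noncomputable def q0 : Tr := .c 5 (.l 0) (.c 6 (.l 0) .e)
noncomputable def q1 : Tr := .c 5 (.l 0) .e
noncomputable def r0 : Tr := .c 0 q0 (.c 2 q1 (.c 4 q1 .e))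
noncomputable def q2 : Tr := .c 5 (.l 0) (.c 6 (.l 1) .e)
noncomputable def q3 : Tr := .c 6 (.l 2) .e
noncomputable def r1 : Tr := .c 0 q2 (.c 1 q3 (.c 3 q3 (.c 5 q3 .e)))
noncomputable def t0 : Tr := .c 5 r0 (.c 6 r1 .e)
noncomputable def r2 : Tr := .c 2 q1 .e
noncomputable def q4 : Tr := .c 6 (.l 3) (.c 7 (.l 3) .e)
noncomputable def q5 : Tr := .c 6 (.l 3) .e
noncomputable def r3 : Tr := .c 1 q4 (.c 2 q1 (.c 5 q5 .e))
noncomputable def q6 : Tr := .c 5 (.l 0) (.c 6 (.l 0) (.c 7 (.l 0) .e))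
noncomputable def q7 : Tr := .c 5 (.l 0) (.c 7 (.l 0) .e)
noncomputable def r4 : Tr := .c 0 q6 (.c 2 q1 (.c 4 q7 .e))
noncomputable def t1 : Tr := .c 3 r2 (.c 4 r3 (.c 5 r4 .e))
noncomputable def r5 : Tr := .c 4 q1 .e
noncomputable def q8 : Tr := .c 6 (.l 0) .e
noncomputable def r6 : Tr := .c 3 q8 (.c 4 q1 (.c 5 q8 .e))
noncomputable def t2 : Tr := .c 1 r5 (.c 2 r6 (.c 5 r0 .e))
noncomputable def q9 : Tr := .c 6 (.l 4) .e
noncomputable def r7 : Tr := .c 5 q9 .e
noncomputable def q10 : Tr := .c 7 (.l 0) .e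
noncomputable def r8 : Tr := .c 4 q10 .e
noncomputable def q11 : Tr := .c 6 (.l 0) (.c 7 (.l 0) .e)
noncomputable def r9 : Tr := .c 0 q11 (.c 4 q10 .e)
noncomputable def t3 : Tr := .c 0 r7 (.c 1 r8 (.c 5 r9 .e))
noncomputable def q12 : Tr := .c 5 (.l 0) (.c 6 (.l 5) .e)
noncomputable def r10 : Tr := .c 0 q12 (.c 2 q1 (.c 4 q1 (.c 6 q1 .e)))
noncomputable def q13 : Tr := .c 5 (.l 6) (.c 6 (.l 7) .e)
noncomputable def r11 : Tr := .c 0 q13 .e
noncomputable def t4 : Tr := .c 5 r10 (.c 6 r11 .e)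
noncomputable def q14 : Tr := .c 5 (.l 8) .e
noncomputable def r12 : Tr := .c 2 q14 .e
noncomputable def q15 : Tr := .c 5 (.l 9) (.c 7 (.l 9) .e)
noncomputable def r13 : Tr := .c 0 q15 .e
noncomputable def t5 : Tr := .c 4 r12 (.c 6 r13 .e)
noncomputable def q16 : Tr := .c 5 (.l 9) .e
noncomputable def r14 : Tr := .c 0 q16 .e
noncomputable def t6 : Tr := .c 2 r5 (.c 6 r14 .e)
noncomputable def q17 : Tr := .c 5 (.l 10) .e
noncomputable def r15 : Tr := .c 6 q17 .e
noncomputable def r16 : Tr := .c 4 q7 .e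
noncomputable def t7 : Tr := .c 0 r15 (.c 2 r16 (.c 4 r12 (.c 6 r13 .e)))
noncomputable def r17 : Tr := .c 2 q1 (.c 6 q1 .e)
noncomputable def r18 : Tr := .c 1 q3 (.c 5 q3 .e)
noncomputable def t8 : Tr := .c 5 r17 (.c 6 r18 .e)
noncomputable def q18 : Tr := .c 7 (.l 11) .e
noncomputable def r19 : Tr := .c 1 q18 (.c 2 q14 .e)
noncomputable def r20 : Tr := .c 1 q18 .e
noncomputable def t9 : Tr := .c 4 r19 (.c 6 r20 .e)
noncomputable def r21 : Tr := .c 6 q1 .e
noncomputable def r22 : Tr := .c 5 q8 .e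
noncomputable def t10 : Tr := .c 1 r21 (.c 2 r22 (.c 5 r17 .e))
noncomputable def q19 : Tr := .c 4 (.l 12) (.c 7 (.l 12) .e)
noncomputable def q20 : Tr := .c 4 (.l 12) .e
noncomputable def r23 : Tr := .c 1 q19 (.c 2 q20 (.c 5 q20 .e))
noncomputable def q21 : Tr := .c 7 (.l 13) .e
noncomputable def q22 : Tr := .c 4 (.l 12) (.c 7 (.l 14) .e)
noncomputable def r24 : Tr := .c 0 q21 (.c 1 q22 (.c 3 q21 (.c 4 q21 .e)))
noncomputable def t11 : Tr := .c 4 r23 (.c 7 r24 .e)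
noncomputable def r25 : Tr := .c 2 q20 .e
noncomputable def q23 : Tr := .c 4 (.l 12) (.c 6 (.l 12) (.c 7 (.l 12) .e))
noncomputable def q24 : Tr := .c 4 (.l 12) (.c 6 (.l 12) .e)
noncomputable def r26 : Tr := .c 1 q23 (.c 2 q20 (.c 5 q24 .e))
noncomputable def q25 : Tr := .c 6 (.l 15) (.c 7 (.l 15) .e)
noncomputable def q26 : Tr := .c 7 (.l 15) .e
noncomputable def r27 : Tr := .c 0 q25 (.c 2 q20 (.c 4 q26 .e))
noncomputable def t12 : Tr := .c 3 r25 (.c 4 r26 (.c 5 r27 .e))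
noncomputable def r28 : Tr := .c 5 q20 .e
noncomputable def q27 : Tr := .c 7 (.l 12) .e
noncomputable def r29 : Tr := .c 3 q27 (.c 4 q27 (.c 5 q20 .e))
noncomputable def t13 : Tr := .c 0 r28 (.c 2 r29 (.c 4 r23 .e))
noncomputable def q28 : Tr := .c 6 (.l 12) .e
noncomputable def r30 : Tr := .c 5 q28 .e
noncomputable def q29 : Tr := .c 7 (.l 16) .e
noncomputable def r31 : Tr := .c 4 q29 .e
noncomputable def q30 : Tr := .c 6 (.l 12) (.c 7 (.l 12) .e)
noncomputable def r32 : Tr := .c 1 q30 (.c 5 q28 .e)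
noncomputable def t14 : Tr := .c 0 r30 (.c 1 r31 (.c 4 r32 .e))
noncomputable def q31 : Tr := .c 6 (.l 17) .e
noncomputable def q32 : Tr := .c 4 (.l 18) .e
noncomputable def r33 : Tr := .c 0 q31 (.c 2 q32 .e)
noncomputable def r34 : Tr := .c 0 q31 .e
noncomputable def t15 : Tr := .c 5 r33 (.c 7 r34 .e)
noncomputable def r35 : Tr := .c 2 q20 (.c 7 q20 .e)
noncomputable def r36 : Tr := .c 0 q21 (.c 4 q21 .e)
noncomputable def t16 : Tr := .c 4 r35 (.c 7 r36 .e)
noncomputable def r37 : Tr := .c 7 q20 .e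
noncomputable def r38 : Tr := .c 4 q27 .e
noncomputable def t17 : Tr := .c 0 r37 (.c 2 r38 (.c 4 r35 .e))
noncomputable def r39 : Tr := .c 2 q32 .e
noncomputable def q33 : Tr := .c 4 (.l 19) (.c 6 (.l 19) .e)
noncomputable def r40 : Tr := .c 1 q33 .e
noncomputable def t18 : Tr := .c 5 r39 (.c 7 r40 .e)
noncomputable def q34 : Tr := .c 4 (.l 12) (.c 7 (.l 20) .e)
noncomputable def r41 : Tr := .c 1 q34 (.c 2 q20 (.c 5 q20 (.c 7 q20 .e)))
noncomputable def q35 : Tr := .c 4 (.l 21) (.c 7 (.l 22) .e)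
noncomputable def r42 : Tr := .c 1 q35 .e
noncomputable def t19 : Tr := .c 4 r41 (.c 7 r42 .e)
noncomputable def q36 : Tr := .c 4 (.l 19) .e
noncomputable def r43 : Tr := .c 1 q36 .e
noncomputable def t20 : Tr := .c 2 r28 (.c 7 r43 .e)
noncomputable def q37 : Tr := .c 4 (.l 23) .e
noncomputable def r44 : Tr := .c 7 q37 .e
noncomputable def r45 : Tr := .c 5 q24 .e
noncomputable def t21 : Tr := .c 1 r44 (.c 2 r45 (.c 5 r39 (.c 7 r40 .e)))
noncomputable def r46 : Tr := .c 1 q20 (.c 5 q20 .e)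
noncomputable def r47 : Tr := .c 0 q1 (.c 4 q1 .e)
noncomputable def t22 : Tr := .c 4 r46 (.c 5 r47 .e)
noncomputable def t23 : Tr := .c 0 r28 .e
noncomputable def t24 : Tr := .c 1 r5 .e
noncomputable def q38 : Tr := .c 3 (.l 12) (.c 4 (.l 12) (.c 5 (.l 12) .e))
noncomputable def r48 : Tr := .c 1 q20 (.c 2 q38 (.c 5 q20 .e))
noncomputable def q39 : Tr := .c 5 (.l 24) .e
noncomputable def r49 : Tr := .c 0 q39 (.c 1 q20 (.c 5 q20 .e))
noncomputable def r50 : Tr := .c 0 q39 (.c 1 q20 (.c 4 q39 .e))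
noncomputable def t25 : Tr := .c 4 r48 (.c 6 r49 (.c 7 r50 .e))
noncomputable def q40 : Tr := .c 4 (.l 12) (.c 5 (.l 12) .e)
noncomputable def r51 : Tr := .c 1 q20 (.c 2 q40 (.c 5 q20 .e))
noncomputable def q41 : Tr := .c 4 (.l 12) (.c 5 (.l 0) .e)
noncomputable def r52 : Tr := .c 0 q1 (.c 2 q41 (.c 4 q1 (.c 6 q1 .e)))
noncomputable def t26 : Tr := .c 4 r51 (.c 5 r52 .e)
noncomputable def q42 : Tr := .c 3 (.l 12) (.c 5 (.l 12) .e)
noncomputable def r53 : Tr := .c 5 q20 (.c 6 q42 .e)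
noncomputable def q43 : Tr := .c 5 (.l 25) .e
noncomputable def r54 : Tr := .c 4 q43 (.c 5 q20 .e)
noncomputable def t27 : Tr := .c 0 r53 (.c 2 r54 (.c 4 r48 (.c 6 r49 .e)))
noncomputable def q44 : Tr := .c 5 (.l 12) .e
noncomputable def r55 : Tr := .c 6 q44 .e
noncomputable def r56 : Tr := .c 4 q1 (.c 6 q1 .e)
noncomputable def r57 : Tr := .c 2 q44 .e
noncomputable def t28 : Tr := .c 0 r55 (.c 1 r56 (.c 4 r57 .e))
noncomputable def q45 : Tr := .c 3 (.l 0) (.c 4 (.l 0) (.c 5 (.l 0) .e))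
noncomputable def r58 : Tr := .c 0 q1 (.c 2 q45 (.c 4 q1 .e))
noncomputable def q46 : Tr := .c 4 (.l 26) .e
noncomputable def r59 : Tr := .c 0 q1 (.c 1 q46 (.c 5 q46 .e))
noncomputable def r60 : Tr := .c 0 q1 (.c 1 q46 (.c 4 q1 .e))
noncomputable def t29 : Tr := .c 5 r58 (.c 6 r59 (.c 7 r60 .e))
noncomputable def r61 : Tr := .c 1 q20 (.c 2 q41 (.c 5 q20 (.c 7 q20 .e)))
noncomputable def q47 : Tr := .c 4 (.l 0) (.c 5 (.l 0) .e)
noncomputable def r62 : Tr := .c 0 q1 (.c 2 q47 (.c 4 q1 .e))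
noncomputable def t30 : Tr := .c 4 r61 (.c 5 r62 .e)
noncomputable def q48 : Tr := .c 3 (.l 0) (.c 4 (.l 0) .e)
noncomputable def r63 : Tr := .c 4 q1 (.c 7 q48 .e)
noncomputable def q49 : Tr := .c 4 (.l 27) .e
noncomputable def r64 : Tr := .c 4 q1 (.c 5 q49 .e)
noncomputable def t31 : Tr := .c 1 r63 (.c 2 r64 (.c 5 r58 (.c 7 r60 .e)))
noncomputable def r65 : Tr := .c 5 q20 (.c 7 q20 .e)
noncomputable def q50 : Tr := .c 4 (.l 0) .e
noncomputable def r66 : Tr := .c 7 q50 .e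
noncomputable def r67 : Tr := .c 2 q50 .e
noncomputable def t32 : Tr := .c 0 r65 (.c 1 r66 (.c 5 r67 .e))
noncomputable def q51 : Tr := .c 2 (.l 0) .e
noncomputable def r68 : Tr := .c 4 q51 .e
noncomputable def r69 : Tr := .c 0 q8 (.c 4 q51 .e)
noncomputable def t33 : Tr := .c 1 r68 (.c 5 r69 .e)
noncomputable def q52 : Tr := .c 2 (.l 12) .e
noncomputable def r70 : Tr := .c 5 q52 .e
noncomputable def r71 : Tr := .c 1 q27 (.c 5 q52 .e)
noncomputable def t34 : Tr := .c 0 r70 (.c 4 r71 .e)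
noncomputable def r72 : Tr := .c 0 q31 (.c 4 q51 .e)
noncomputable def t35 : Tr := .c 5 r72 .e
noncomputable def r73 : Tr := .c 1 q18 (.c 5 q52 .e)
noncomputable def t36 : Tr := .c 4 r73 .e
noncomputable def q53 : Tr := .c 1 (.l 0) (.c 2 (.l 0) (.c 5 (.l 0) .e))
noncomputable def q54 : Tr := .c 1 (.l 0) .e
noncomputable def r74 : Tr := .c 4 q53 (.c 7 q54 .e)
noncomputable def r75 : Tr := .c 3 q51 (.c 4 q53 (.c 5 q51 .e))
noncomputable def r76 : Tr := .c 0 q1 (.c 2 q1 (.c 4 q53 .e))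
noncomputable def t37 : Tr := .c 1 r74 (.c 2 r75 (.c 5 r76 .e))
noncomputable def q55 : Tr := .c 2 (.l 28) .e
noncomputable def r77 : Tr := .c 5 q55 .e
noncomputable def q56 : Tr := .c 2 (.l 0) (.c 7 (.l 0) .e)
noncomputable def r78 : Tr := .c 4 q56 .e
noncomputable def r79 : Tr := .c 0 q10 (.c 4 q56 .e)
noncomputable def t38 : Tr := .c 0 r77 (.c 1 r78 (.c 5 r79 .e))
noncomputable def q57 : Tr := .c 1 (.l 29) .e
noncomputable def r80 : Tr := .c 5 q55 (.c 7 q57 .e)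
noncomputable def q58 : Tr := .c 1 (.l 0) (.c 2 (.l 0) (.c 5 (.l 0) (.c 7 (.l 0) .e)))
noncomputable def q59 : Tr := .c 1 (.l 30) .e
noncomputable def r81 : Tr := .c 4 q58 (.c 7 q59 .e)
noncomputable def r82 : Tr := .c 2 q1 (.c 7 q57 .e)
noncomputable def q60 : Tr := .c 7 (.l 4) .e
noncomputable def r83 : Tr := .c 1 q60 (.c 2 q1 (.c 5 q55 (.c 7 q57 .e)))
noncomputable def t39 : Tr := .c 0 r80 (.c 1 r81 (.c 3 r82 (.c 4 r83 .e)))
noncomputable def q61 : Tr := .c 1 (.l 0) (.c 5 (.l 0) .e)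
noncomputable def r84 : Tr := .c 4 q61 .e
noncomputable def r85 : Tr := .c 0 q1 .e
noncomputable def t40 : Tr := .c 2 r84 (.c 6 r85 .e)
noncomputable def r86 : Tr := .c 4 q53 (.c 6 q61 (.c 7 q54 .e))
noncomputable def r87 : Tr := .c 4 q53 (.c 5 q51 .e)
noncomputable def r88 : Tr := .c 0 q1 (.c 2 q1 (.c 4 q53 (.c 6 q61 .e)))
noncomputable def t41 : Tr := .c 1 r86 (.c 2 r87 (.c 5 r88 .e))
noncomputable def q62 : Tr := .c 1 (.l 31) (.c 5 (.l 31) .e)
noncomputable def q63 : Tr := .c 1 (.l 31) .e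
noncomputable def r89 : Tr := .c 5 q52 (.c 6 q62 (.c 7 q63 .e))
noncomputable def r90 : Tr := .c 4 q58 (.c 5 q52 .e)
noncomputable def q64 : Tr := .c 5 (.l 32) .e
noncomputable def r91 : Tr := .c 1 q27 (.c 2 q64 (.c 5 q52 (.c 7 q63 .e)))
noncomputable def r92 : Tr := .c 0 q7 (.c 1 q27 (.c 5 q52 .e))
noncomputable def t42 : Tr := .c 0 r89 (.c 2 r90 (.c 4 r91 (.c 6 r92 .e)))
noncomputable def r93 : Tr := .c 0 q1 (.c 3 q51 (.c 5 q51 .e))
noncomputable def t43 : Tr := .c 5 r76 (.c 6 r93 .e)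
noncomputable def r94 : Tr := .c 2 q1 (.c 7 q54 .e)
noncomputable def q65 : Tr := .c 7 (.l 3) .e
noncomputable def q66 : Tr := .c 2 (.l 33) .e
noncomputable def r95 : Tr := .c 1 q65 (.c 2 q1 (.c 5 q66 (.c 7 q54 .e)))
noncomputable def r96 : Tr := .c 0 q7 (.c 2 q1 (.c 4 q58 .e))
noncomputable def t44 : Tr := .c 3 r94 (.c 4 r95 (.c 5 r96 .e))
noncomputable def r97 : Tr := .c 2 q1 (.c 6 q61 .e)
noncomputable def r98 : Tr := .c 5 q51 .e
noncomputable def t45 : Tr := .c 5 r97 (.c 6 r98 .e)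
noncomputable def q67 : Tr := .c 1 (.l 10) .e
noncomputable def r99 : Tr := .c 1 q18 (.c 2 q14 (.c 5 q52 (.c 7 q67 .e)))
noncomputable def t46 : Tr := .c 4 r99 (.c 6 r73 .e)
noncomputable def r100 : Tr := .c 6 q61 (.c 7 q54 .e)
noncomputable def t47 : Tr := .c 1 r100 (.c 2 r98 (.c 5 r97 .e))
noncomputable def q68 : Tr := .c 0 (.l 12) (.c 2 (.l 12) (.c 4 (.l 12) .e))
noncomputable def q69 : Tr := .c 0 (.l 12) .e
noncomputable def r101 : Tr := .c 5 q68 (.c 6 q69 .e)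
noncomputable def r102 : Tr := .c 3 q52 (.c 4 q52 (.c 5 q68 .e))
noncomputable def r103 : Tr := .c 1 q20 (.c 2 q20 (.c 5 q68 .e))
noncomputable def t48 : Tr := .c 0 r101 (.c 2 r102 (.c 4 r103 .e))
noncomputable def q70 : Tr := .c 0 (.l 12) (.c 2 (.l 12) (.c 4 (.l 12) (.c 6 (.l 12) .e)))
noncomputable def q71 : Tr := .c 0 (.l 34) .e
noncomputable def r104 : Tr := .c 5 q70 (.c 6 q71 .e)
noncomputable def q72 : Tr := .c 2 (.l 35) .e
noncomputable def q73 : Tr := .c 0 (.l 36) .e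
noncomputable def r105 : Tr := .c 4 q72 (.c 6 q73 .e)
noncomputable def r106 : Tr := .c 2 q20 (.c 6 q73 .e)
noncomputable def q74 : Tr := .c 6 (.l 16) .e
noncomputable def r107 : Tr := .c 0 q74 (.c 2 q20 (.c 4 q72 (.c 6 q73 .e)))
noncomputable def t49 : Tr := .c 0 r104 (.c 1 r105 (.c 3 r106 (.c 5 r107 .e)))
noncomputable def q75 : Tr := .c 2 (.l 12) (.c 6 (.l 12) .e)
noncomputable def r108 : Tr := .c 5 q75 .e
noncomputable def r109 : Tr := .c 4 q72 .e
noncomputable def r110 : Tr := .c 1 q28 (.c 5 q75 .e)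
noncomputable def t50 : Tr := .c 0 r108 (.c 1 r109 (.c 4 r110 .e))
noncomputable def q76 : Tr := .c 0 (.l 12) (.c 4 (.l 12) .e)
noncomputable def r111 : Tr := .c 5 q76 .e
noncomputable def r112 : Tr := .c 1 q20 .e
noncomputable def t51 : Tr := .c 2 r111 (.c 7 r112 .e)
noncomputable def q77 : Tr := .c 0 (.l 37) .e
noncomputable def q78 : Tr := .c 0 (.l 37) (.c 4 (.l 37) .e)
noncomputable def r113 : Tr := .c 4 q51 (.c 6 q77 (.c 7 q78 .e))
noncomputable def r114 : Tr := .c 4 q51 (.c 5 q70 .e)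
noncomputable def q79 : Tr := .c 4 (.l 38) .e
noncomputable def r115 : Tr := .c 0 q8 (.c 2 q79 (.c 4 q51 (.c 6 q77 .e)))
noncomputable def r116 : Tr := .c 0 q8 (.c 1 q24 (.c 4 q51 .e))
noncomputable def t52 : Tr := .c 1 r113 (.c 2 r114 (.c 5 r115 (.c 7 r116 .e)))
noncomputable def r117 : Tr := .c 5 q68 (.c 6 q69 (.c 7 q76 .e))
noncomputable def r118 : Tr := .c 4 q52 (.c 5 q68 .e)
noncomputable def r119 : Tr := .c 1 q20 (.c 2 q20 (.c 5 q68 (.c 7 q76 .e)))
noncomputable def t53 : Tr := .c 0 r117 (.c 2 r118 (.c 4 r119 .e))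
noncomputable def r120 : Tr := .c 1 q20 (.c 3 q52 (.c 4 q52 .e))
noncomputable def t54 : Tr := .c 4 r103 (.c 7 r120 .e)
noncomputable def r121 : Tr := .c 2 q20 (.c 6 q69 .e)
noncomputable def r122 : Tr := .c 1 q24 (.c 2 q20 (.c 5 q70 .e))
noncomputable def q80 : Tr := .c 6 (.l 15) .e
noncomputable def q81 : Tr := .c 2 (.l 39) .e
noncomputable def r123 : Tr := .c 0 q80 (.c 2 q20 (.c 4 q81 (.c 6 q69 .e)))
noncomputable def t55 : Tr := .c 3 r121 (.c 4 r122 (.c 5 r123 .e))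
noncomputable def q82 : Tr := .c 0 (.l 23) .e
noncomputable def r124 : Tr := .c 0 q31 (.c 2 q32 (.c 4 q51 (.c 6 q82 .e)))
noncomputable def t56 : Tr := .c 5 r124 (.c 7 r72 .e)
noncomputable def r125 : Tr := .c 2 q20 (.c 7 q76 .e)
noncomputable def r126 : Tr := .c 4 q52 .e
noncomputable def t57 : Tr := .c 4 r125 (.c 7 r126 .e)
noncomputable def r127 : Tr := .c 6 q69 (.c 7 q76 .e)
noncomputable def t58 : Tr := .c 0 r127 (.c 2 r126 (.c 4 r125 .e))
noncomputable def q83 : Tr := .c 0 (.l 40) (.c 1 (.l 41) (.c 3 (.l 41) (.c 5 (.l 41) .e)))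
noncomputable def r128 : Tr := .c 5 q69 (.c 6 q83 .e)
noncomputable def q84 : Tr := .c 1 (.l 42) (.c 5 (.l 42) .e)
noncomputable def r129 : Tr := .c 4 q84 (.c 5 q69 .e)
noncomputable def r130 : Tr := .c 2 q42 (.c 5 q69 .e)
noncomputable def q85 : Tr := .c 5 (.l 43) .e
noncomputable def r131 : Tr := .c 0 q85 (.c 5 q69 .e)
noncomputable def t59 : Tr := .c 0 r128 (.c 2 r129 (.c 4 r130 (.c 6 r131 .e)))
noncomputable def q86 : Tr := .c 0 (.l 44) .e
noncomputable def q87 : Tr := .c 0 (.l 45) .e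
noncomputable def r132 : Tr := .c 5 q86 (.c 6 q87 .e)
noncomputable def t60 : Tr := .c 0 r132 .e
noncomputable def q88 : Tr := .c 1 (.l 41) (.c 5 (.l 41) .e)
noncomputable def r133 : Tr := .c 6 q88 .e
noncomputable def t61 : Tr := .c 0 r133 (.c 4 r57 .e)
noncomputable def q89 : Tr := .c 0 (.l 46) .e
noncomputable def r134 : Tr := .c 4 q61 (.c 5 q89 .e)
noncomputable def r135 : Tr := .c 0 q1 (.c 4 q61 .e)
noncomputable def t62 : Tr := .c 2 r134 (.c 7 r135 .e)
noncomputable def q90 : Tr := .c 0 (.l 47) .e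
noncomputable def r136 : Tr := .c 5 q90 (.c 7 q90 .e)
noncomputable def t63 : Tr := .c 0 r136 .e
noncomputable def r137 : Tr := .c 7 q57 .e
noncomputable def t64 : Tr := .c 0 r137 (.c 4 r82 .e)
noncomputable def r138 : Tr := .c 5 q69 .e
noncomputable def t65 : Tr := .c 4 r138 .e
noncomputable def r139 : Tr := .c 5 q90 .e
noncomputable def t66 : Tr := .c 0 r139 .e
noncomputable def q91 : Tr := .c 0 (.l 48) .e
noncomputable def r140 : Tr := .c 0 q1 (.c 5 q91 .e)
noncomputable def t67 : Tr := .c 6 r140 (.c 7 r135 .e)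
noncomputable def q92 : Tr := .c 0 (.l 12) (.c 1 (.l 0) .e)
noncomputable def r141 : Tr := .c 2 q1 (.c 5 q69 (.c 7 q92 .e))
noncomputable def t68 : Tr := .c 4 r141 .e
noncomputable def q93 : Tr := .c 1 (.l 42) .e
noncomputable def r142 : Tr := .c 4 q93 (.c 5 q76 .e)
noncomputable def r143 : Tr := .c 1 q20 (.c 5 q76 .e)
noncomputable def t69 : Tr := .c 2 r142 (.c 6 r143 .e)
noncomputable def r144 : Tr := .c 6 q73 .e
noncomputable def t70 : Tr := .c 1 r144 (.c 5 r106 .e)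
noncomputable def q94 : Tr := .c 1 (.l 49) .e
noncomputable def r145 : Tr := .c 4 q94 (.c 6 q94 .e)
noncomputable def t71 : Tr := .c 1 r145 .e
noncomputable def q95 : Tr := .c 0 (.l 50) (.c 1 (.l 51) (.c 3 (.l 50) (.c 4 (.l 50) .e)))
noncomputable def r146 : Tr := .c 4 q54 (.c 7 q95 .e)
noncomputable def q96 : Tr := .c 0 (.l 46) (.c 4 (.l 46) .e)
noncomputable def r147 : Tr := .c 4 q54 (.c 5 q96 .e)
noncomputable def r148 : Tr := .c 2 q48 (.c 4 q54 .e)
noncomputable def q97 : Tr := .c 4 (.l 48) .e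
noncomputable def r149 : Tr := .c 1 q97 (.c 4 q54 .e)
noncomputable def t72 : Tr := .c 1 r146 (.c 2 r147 (.c 5 r148 (.c 7 r149 .e)))
noncomputable def q98 : Tr := .c 0 (.l 50) (.c 4 (.l 50) .e)
noncomputable def r150 : Tr := .c 7 q98 .e
noncomputable def t73 : Tr := .c 1 r150 (.c 5 r67 .e)
noncomputable def q99 : Tr := .c 1 (.l 52) .e
noncomputable def q100 : Tr := .c 1 (.l 53) .e
noncomputable def r151 : Tr := .c 4 q99 (.c 7 q100 .e)
noncomputable def t74 : Tr := .c 1 r151 .e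
noncomputable def r152 : Tr := .c 4 q54 .e
noncomputable def t75 : Tr := .c 5 r152 .e
noncomputable def r153 : Tr := .c 4 q94 .e
noncomputable def t76 : Tr := .c 1 r153 .e
noncomputable def q101 : Tr := .c 1 (.l 43) .e
noncomputable def r154 : Tr := .c 1 q20 (.c 4 q101 .e)
noncomputable def t77 : Tr := .c 6 r143 (.c 7 r154 .e)
noncomputable def r155 : Tr := .c 2 q20 (.c 4 q54 (.c 6 q92 .e))
noncomputable def t78 : Tr := .c 5 r155 .e

/-- the diagram -/
noncomputable def T : Tr := (.c 0 (.c 5 (.c 0 t0 (.c 2 t1 (.c 4 t2 (.c 6 t3 .e)))) (.c 6 (.c 0 t4 (.c 1 t5 (.c 3 t6 (.c 5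
t7 .e)))) (.c 7 (.c 0 t8 (.c 1 t9 (.c 4 t10 .e))) .e))) (.c 1 (.c 4 (.c 1 t11 (.c 2 t12 (.c 5
t13 (.c 7 t14 .e)))) (.c 6 (.c 0 t15 (.c 1 t16 (.c 5 t17 .e))) (.c 7 (.c 0 t18 (.c 1 t19 (.c 3
t20 (.c 4 t21 .e)))) .e))) (.c 2 (.c 3 (.c 2 t22 (.c 6 t23 (.c 7 t24 .e))) (.c 4 (.c 1 t25 (.c
2 t26 (.c 5 t27 (.c 7 t28 .e)))) (.c 5 (.c 0 t29 (.c 2 t30 (.c 4 t31 (.c 6 t32 .e)))) .e))) (.c
3 (.c 2 (.c 4 t33 (.c 5 t34 .e)) (.c 6 (.c 0 t35 .e) (.c 7 (.c 1 t36 .e) .e))) (.c 4 (.c 1 (.c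
4 t37 (.c 6 t38 (.c 7 t39 .e))) (.c 2 (.c 3 t40 (.c 4 t41 (.c 5 t42 .e))) (.c 5 (.c 0 t43 (.c 2
t44 (.c 4 t37 (.c 6 t38 .e)))) (.c 7 (.c 0 t45 (.c 1 t46 (.c 4 t47 .e))) .e)))) (.c 5 (.c 0 (.c
5 t48 (.c 6 t49 (.c 7 t50 .e))) (.c 2 (.c 3 t51 (.c 4 t52 (.c 5 t53 .e))) (.c 4 (.c 1 t54 (.c 2
t55 (.c 5 t48 (.c 7 t50 .e)))) (.c 6 (.c 0 t56 (.c 1 t57 (.c 5 t58 .e))) .e)))) (.c 6 (.c 0 (.c
5 t59 (.c 6 t60 (.c 7 t61 .e))) (.c 1 (.c 4 t62 (.c 6 t63 (.c 7 t64 .e))) (.c 3 (.c 2 t65 (.c 6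
t66 .e)) (.c 5 (.c 0 t67 (.c 2 t68 (.c 4 t62 (.c 6 t63 .e)))) .e)))) (.c 7 (.c 0 (.c 5 t69 (.c
6 t70 (.c 7 t71 .e))) (.c 1 (.c 4 t72 (.c 6 t73 (.c 7 t74 .e))) (.c 3 (.c 2 t75 (.c 7 t76 .e))
(.c 4 (.c 1 t77 (.c 2 t78 (.c 5 t69 (.c 7 t71 .e)))) .e)))) .e))))))))

theorem k0 : chkQ0 D J R 54 T = true := by decide +kernel
theorem pr : Fast.preF D J 54 T = true := by decide +kernel
theorem c0 : csP D J T 0 = true := csP_of_csF pr (by decide +kernel)
theorem c1 : csP D J T 1 = true := csP_of_csF pr (by decide +kernel)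
theorem c2 : csP D J T 2 = true := csP_of_csF pr (by decide +kernel)
theorem c3 : csP D J T 3 = true := csP_of_csF pr (by decide +kernel)
theorem c4 : csP D J T 4 = true := csP_of_csF pr (by decide +kernel)
theorem c5 : csP D J T 5 = true := csP_of_csF pr (by decide +kernel)
theorem c6 : csP D J T 6 = true := csP_of_csF pr (by decide +kernel)
theorem c7 : csP D J T 7 = true := csP_of_csF pr (by decide +kernel)
theorem c8 : csP D J T 8 = true := csP_of_csF pr (by decide +kernel)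
theorem c9 : csP D J T 9 = true := csP_of_csF pr (by decide +kernel)
theorem c10 : csP D J T 10 = true := csP_of_csF pr (by decide +kernel)
theorem c11 : csP D J T 11 = true := csP_of_csF pr (by decide +kernel)
theorem c12 : csP D J T 12 = true := csP_of_csF pr (by decide +kernel)
theorem c13 : csP D J T 13 = true := csP_of_csF pr (by decide +kernel)
theorem c14 : csP D J T 14 = true := csP_of_csF pr (by decide +kernel)
theorem c15 : csP D J T 15 = true := csP_of_csF pr (by decide +kernel)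
theorem c16 : csP D J T 16 = true := csP_of_csF pr (by decide +kernel)
theorem c17 : csP D J T 17 = true := csP_of_csF pr (by decide +kernel)
theorem c18 : csP D J T 18 = true := csP_of_csF pr (by decide +kernel)

theorem cs : ∀ p < D.N, csP D J T p = true := by
  intro p hp
  have hp : p < 19 := hp
  interval_cases p
  · exact c0
  · exact c1
  · exact c2
  · exact c3
  · exact c4
  · exact c5
  · exact c6
  · exact c7
  · exact c8
  · exact c9
  · exact c10
  · exact c11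
  · exact c12
  · exact c13
  · exact c14
  · exact c15
  · exact c16
  · exact c17
  · exact c18

/-- the box table -/
theorem tab : BoxTab D := boxTab_of (by decide) (by decide) k0 cs

end F33a

/-! ### 01 02 03 12 14 25 34 35 (7|56: 56 never) -/

namespace F33b

/-- the data -/
def D : Dat where
  A := 8
  N := 19
  nb := [224, 208, 56, 196, 166, 85, 43, 27]
  op := [127, 191, 247, 59, 127, 191, 213, 230]
  nbT := [262368, 131280, 98360, 24772, 284838, 140885, 69931, 34075, 417984, 364576, 350368, 230416,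
173648, 364840, 230680, 293508, 159300, 350498, 173841]
  opT := [262015, 393151, 425975, 499515, 239487, 383423, 454357, 490214, 524095, 524255, 524127,
524271, 524207, 524247, 524263, 524155, 524219, 524253, 524270]
  PL := [[0], [1], [2], [3], [4], [5], [6], [7], [0, 1, 3], [0, 2], [0, 4], [1, 2], [1, 5], [2, 6], [2,
7], [3, 4], [3, 5], [4, 6], [5, 7]]
  L := [3, 5, 9, 6, 18, 36, 24, 40]
  P := [3, 5, 9, 6, 18, 36, 24, 40, 7, 11, 19, 13, 37, 25, 41, 22, 38, 26, 44]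
  r := 0
  tie := [0, 0, 0, 0, 0, 0, 0, 0, 0, 0, 0, 0, 0, 0, 0, 0, 0, 0, 0]

/-- changes of the value at a tie -/
def J : List (List ℕ) := [[]]

/-- reachable values -/
def R : List (List ℕ) := [[1], [2], [4], [8], [0x10], [0x20], [0x40], [0x80], [0x100], [0x200], [0x400], [0x800],
[0x1000], [0x2000], [0x4000], [0x8000], [0x10000], [0x20000], [0x40000], [0x80000], [0x100000],
[0x200000], [0x400000], [0x800000], [0x1000000], [0x2000000], [0x4000000], [0x8000000],
[0x10000000], [0x20000000], [0x40000000], [0x80000000], [0x100000000], [0x200000000],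
[0x400000000], [0x800000000], [0x1000000000], [0x2000000000], [0x4000000000], [0x8000000000],
[0x10000000000], [0x20000000000], [0x40000000000], [0x80000000000]]

noncomputable def q0 : Tr := .c 5 (.l 0) (.c 6 (.l 1) .e)
noncomputable def q1 : Tr := .c 5 (.l 0) .e
noncomputable def r0 : Tr := .c 0 q0 (.c 2 q1 (.c 4 q1 .e))
noncomputable def q2 : Tr := .c 5 (.l 1) (.c 6 (.l 1) .e)
noncomputable def q3 : Tr := .c 6 (.l 1) .e
noncomputable def r1 : Tr := .c 0 q2 (.c 1 q3 (.c 3 q3 (.c 5 q3 .e)))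
noncomputable def t0 : Tr := .c 5 r0 (.c 6 r1 .e)
noncomputable def r2 : Tr := .c 2 q1 .e
noncomputable def q4 : Tr := .c 6 (.l 2) (.c 7 (.l 3) .e)
noncomputable def q5 : Tr := .c 6 (.l 2) .e
noncomputable def r3 : Tr := .c 1 q4 (.c 2 q1 (.c 5 q5 .e))
noncomputable def q6 : Tr := .c 5 (.l 0) (.c 6 (.l 1) (.c 7 (.l 0) .e))
noncomputable def q7 : Tr := .c 5 (.l 0) (.c 7 (.l 0) .e)
noncomputable def r4 : Tr := .c 0 q6 (.c 2 q1 (.c 4 q7 .e))
noncomputable def t1 : Tr := .c 3 r2 (.c 4 r3 (.c 5 r4 .e))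
noncomputable def r5 : Tr := .c 4 q1 .e
noncomputable def r6 : Tr := .c 3 q3 (.c 4 q1 (.c 5 q3 .e))
noncomputable def t2 : Tr := .c 1 r5 (.c 2 r6 (.c 5 r0 .e))
noncomputable def q8 : Tr := .c 6 (.l 4) .e
noncomputable def r7 : Tr := .c 5 q8 .e
noncomputable def q9 : Tr := .c 7 (.l 0) .e
noncomputable def r8 : Tr := .c 4 q9 .e
noncomputable def q10 : Tr := .c 6 (.l 1) (.c 7 (.l 0) .e)
noncomputable def r9 : Tr := .c 0 q10 (.c 4 q9 .e)
noncomputable def t3 : Tr := .c 0 r7 (.c 1 r8 (.c 5 r9 .e))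
noncomputable def q11 : Tr := .c 5 (.l 1) .e
noncomputable def r10 : Tr := .c 0 q2 (.c 2 q11 (.c 4 q11 (.c 6 q11 .e)))
noncomputable def q12 : Tr := .c 5 (.l 1) (.c 6 (.l 5) .e)
noncomputable def r11 : Tr := .c 0 q12 .e
noncomputable def t4 : Tr := .c 5 r10 (.c 6 r11 .e)
noncomputable def q13 : Tr := .c 5 (.l 6) .e
noncomputable def r12 : Tr := .c 2 q13 .e
noncomputable def q14 : Tr := .c 5 (.l 1) (.c 7 (.l 1) .e)
noncomputable def r13 : Tr := .c 0 q14 .e
noncomputable def t5 : Tr := .c 4 r12 (.c 6 r13 .e)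
noncomputable def r14 : Tr := .c 4 q11 .e
noncomputable def r15 : Tr := .c 0 q11 .e
noncomputable def t6 : Tr := .c 2 r14 (.c 6 r15 .e)
noncomputable def q15 : Tr := .c 5 (.l 7) .e
noncomputable def r16 : Tr := .c 6 q15 .e
noncomputable def r17 : Tr := .c 4 q14 .e
noncomputable def t7 : Tr := .c 0 r16 (.c 2 r17 (.c 4 r12 (.c 6 r13 .e)))
noncomputable def r18 : Tr := .c 2 q1 (.c 6 q1 .e)
noncomputable def r19 : Tr := .c 1 q3 (.c 5 q3 .e)
noncomputable def t8 : Tr := .c 5 r18 (.c 6 r19 .e)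
noncomputable def q16 : Tr := .c 7 (.l 1) .e
noncomputable def q17 : Tr := .c 5 (.l 8) .e
noncomputable def r20 : Tr := .c 1 q16 (.c 2 q17 .e)
noncomputable def r21 : Tr := .c 1 q16 .e
noncomputable def t9 : Tr := .c 4 r20 (.c 6 r21 .e)
noncomputable def r22 : Tr := .c 6 q1 .e
noncomputable def r23 : Tr := .c 5 q3 .e
noncomputable def t10 : Tr := .c 1 r22 (.c 2 r23 (.c 5 r18 .e))
noncomputable def q18 : Tr := .c 4 (.l 9) (.c 7 (.l 1) .e)
noncomputable def q19 : Tr := .c 4 (.l 9) .e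
noncomputable def r24 : Tr := .c 1 q18 (.c 2 q19 (.c 5 q19 .e))
noncomputable def q20 : Tr := .c 4 (.l 1) (.c 7 (.l 1) .e)
noncomputable def r25 : Tr := .c 0 q16 (.c 1 q20 (.c 3 q16 (.c 4 q16 .e)))
noncomputable def t11 : Tr := .c 4 r24 (.c 7 r25 .e)
noncomputable def r26 : Tr := .c 2 q19 .e
noncomputable def q21 : Tr := .c 4 (.l 9) (.c 6 (.l 9) (.c 7 (.l 1) .e))
noncomputable def q22 : Tr := .c 4 (.l 9) (.c 6 (.l 9) .e)
noncomputable def r27 : Tr := .c 1 q21 (.c 2 q19 (.c 5 q22 .e))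
noncomputable def q23 : Tr := .c 6 (.l 10) (.c 7 (.l 11) .e)
noncomputable def q24 : Tr := .c 7 (.l 11) .e
noncomputable def r28 : Tr := .c 0 q23 (.c 2 q19 (.c 4 q24 .e))
noncomputable def t12 : Tr := .c 3 r26 (.c 4 r27 (.c 5 r28 .e))
noncomputable def r29 : Tr := .c 5 q19 .e
noncomputable def r30 : Tr := .c 3 q16 (.c 4 q16 (.c 5 q19 .e))
noncomputable def t13 : Tr := .c 0 r29 (.c 2 r30 (.c 4 r24 .e))
noncomputable def q25 : Tr := .c 6 (.l 9) .e
noncomputable def r31 : Tr := .c 5 q25 .e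
noncomputable def q26 : Tr := .c 7 (.l 7) .e
noncomputable def r32 : Tr := .c 4 q26 .e
noncomputable def q27 : Tr := .c 6 (.l 9) (.c 7 (.l 1) .e)
noncomputable def r33 : Tr := .c 1 q27 (.c 5 q25 .e)
noncomputable def t14 : Tr := .c 0 r31 (.c 1 r32 (.c 4 r33 .e))
noncomputable def q28 : Tr := .c 4 (.l 12) .e
noncomputable def r34 : Tr := .c 0 q3 (.c 2 q28 .e)
noncomputable def r35 : Tr := .c 0 q3 .e
noncomputable def t15 : Tr := .c 5 r34 (.c 7 r35 .e)
noncomputable def r36 : Tr := .c 2 q19 (.c 7 q19 .e)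
noncomputable def r37 : Tr := .c 0 q16 (.c 4 q16 .e)
noncomputable def t16 : Tr := .c 4 r36 (.c 7 r37 .e)
noncomputable def r38 : Tr := .c 7 q19 .e
noncomputable def r39 : Tr := .c 4 q16 .e
noncomputable def t17 : Tr := .c 0 r38 (.c 2 r39 (.c 4 r36 .e))
noncomputable def q29 : Tr := .c 4 (.l 13) .e
noncomputable def r40 : Tr := .c 2 q29 .e
noncomputable def q30 : Tr := .c 4 (.l 1) (.c 6 (.l 1) .e)
noncomputable def r41 : Tr := .c 1 q30 .e
noncomputable def t18 : Tr := .c 5 r40 (.c 7 r41 .e)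
noncomputable def q31 : Tr := .c 4 (.l 1) .e
noncomputable def r42 : Tr := .c 1 q20 (.c 2 q31 (.c 5 q31 (.c 7 q31 .e)))
noncomputable def q32 : Tr := .c 4 (.l 1) (.c 7 (.l 14) .e)
noncomputable def r43 : Tr := .c 1 q32 .e
noncomputable def t19 : Tr := .c 4 r42 (.c 7 r43 .e)
noncomputable def r44 : Tr := .c 5 q31 .e
noncomputable def r45 : Tr := .c 1 q31 .e
noncomputable def t20 : Tr := .c 2 r44 (.c 7 r45 .e)
noncomputable def q33 : Tr := .c 4 (.l 4) .e
noncomputable def r46 : Tr := .c 7 q33 .e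
noncomputable def r47 : Tr := .c 5 q30 .e
noncomputable def t21 : Tr := .c 1 r46 (.c 2 r47 (.c 5 r40 (.c 7 r41 .e)))
noncomputable def r48 : Tr := .c 1 q19 (.c 5 q19 .e)
noncomputable def r49 : Tr := .c 0 q1 (.c 4 q1 .e)
noncomputable def t22 : Tr := .c 4 r48 (.c 5 r49 .e)
noncomputable def q34 : Tr := .c 4 (.l 15) .e
noncomputable def r50 : Tr := .c 5 q34 .e
noncomputable def t23 : Tr := .c 0 r50 .e
noncomputable def q35 : Tr := .c 5 (.l 15) .e
noncomputable def r51 : Tr := .c 4 q35 .e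
noncomputable def t24 : Tr := .c 1 r51 .e
noncomputable def q36 : Tr := .c 3 (.l 9) (.c 4 (.l 9) (.c 5 (.l 9) .e))
noncomputable def r52 : Tr := .c 1 q19 (.c 2 q36 (.c 5 q19 .e))
noncomputable def q37 : Tr := .c 5 (.l 16) .e
noncomputable def r53 : Tr := .c 0 q37 (.c 1 q19 (.c 5 q19 .e))
noncomputable def q38 : Tr := .c 5 (.l 17) .e
noncomputable def r54 : Tr := .c 0 q38 (.c 1 q31 (.c 4 q38 .e))
noncomputable def t25 : Tr := .c 4 r52 (.c 6 r53 (.c 7 r54 .e))
noncomputable def q39 : Tr := .c 4 (.l 9) (.c 5 (.l 9) .e)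
noncomputable def r55 : Tr := .c 1 q19 (.c 2 q39 (.c 5 q19 .e))
noncomputable def q40 : Tr := .c 4 (.l 9) (.c 5 (.l 0) .e)
noncomputable def r56 : Tr := .c 0 q1 (.c 2 q40 (.c 4 q1 (.c 6 q1 .e)))
noncomputable def t26 : Tr := .c 4 r55 (.c 5 r56 .e)
noncomputable def q41 : Tr := .c 3 (.l 15) (.c 5 (.l 15) .e)
noncomputable def r57 : Tr := .c 5 q19 (.c 6 q41 .e)
noncomputable def q42 : Tr := .c 5 (.l 18) .e
noncomputable def r58 : Tr := .c 4 q42 (.c 5 q19 .e)
noncomputable def t27 : Tr := .c 0 r57 (.c 2 r58 (.c 4 r52 (.c 6 r53 .e)))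
noncomputable def r59 : Tr := .c 6 q35 .e
noncomputable def r60 : Tr := .c 4 q35 (.c 6 q35 .e)
noncomputable def q43 : Tr := .c 5 (.l 9) .e
noncomputable def r61 : Tr := .c 2 q43 .e
noncomputable def t28 : Tr := .c 0 r59 (.c 1 r60 (.c 4 r61 .e))
noncomputable def q44 : Tr := .c 3 (.l 0) (.c 4 (.l 0) (.c 5 (.l 0) .e))
noncomputable def r62 : Tr := .c 0 q1 (.c 2 q44 (.c 4 q1 .e))
noncomputable def q45 : Tr := .c 4 (.l 19) .e
noncomputable def r63 : Tr := .c 0 q11 (.c 1 q45 (.c 5 q45 .e))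
noncomputable def q46 : Tr := .c 4 (.l 20) .e
noncomputable def r64 : Tr := .c 0 q1 (.c 1 q46 (.c 4 q1 .e))
noncomputable def t29 : Tr := .c 5 r62 (.c 6 r63 (.c 7 r64 .e))
noncomputable def r65 : Tr := .c 1 q19 (.c 2 q40 (.c 5 q19 (.c 7 q19 .e)))
noncomputable def q47 : Tr := .c 4 (.l 0) (.c 5 (.l 0) .e)
noncomputable def r66 : Tr := .c 0 q1 (.c 2 q47 (.c 4 q1 .e))
noncomputable def t30 : Tr := .c 4 r65 (.c 5 r66 .e)
noncomputable def q48 : Tr := .c 3 (.l 15) (.c 4 (.l 15) .e)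
noncomputable def r67 : Tr := .c 4 q1 (.c 7 q48 .e)
noncomputable def q49 : Tr := .c 4 (.l 21) .e
noncomputable def r68 : Tr := .c 4 q1 (.c 5 q49 .e)
noncomputable def t31 : Tr := .c 1 r67 (.c 2 r68 (.c 5 r62 (.c 7 r64 .e)))
noncomputable def r69 : Tr := .c 5 q34 (.c 7 q34 .e)
noncomputable def r70 : Tr := .c 7 q34 .e
noncomputable def q50 : Tr := .c 4 (.l 0) .e
noncomputable def r71 : Tr := .c 2 q50 .e
noncomputable def t32 : Tr := .c 0 r69 (.c 1 r70 (.c 5 r71 .e))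
noncomputable def q51 : Tr := .c 2 (.l 0) .e
noncomputable def r72 : Tr := .c 4 q51 .e
noncomputable def r73 : Tr := .c 0 q3 (.c 4 q51 .e)
noncomputable def t33 : Tr := .c 1 r72 (.c 5 r73 .e)
noncomputable def q52 : Tr := .c 2 (.l 9) .e
noncomputable def r74 : Tr := .c 5 q52 .e
noncomputable def r75 : Tr := .c 1 q16 (.c 5 q52 .e)
noncomputable def t34 : Tr := .c 0 r74 (.c 4 r75 .e)
noncomputable def q53 : Tr := .c 2 (.l 1) .e
noncomputable def r76 : Tr := .c 0 q3 (.c 4 q53 .e)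
noncomputable def t35 : Tr := .c 5 r76 .e
noncomputable def r77 : Tr := .c 1 q16 (.c 5 q53 .e)
noncomputable def t36 : Tr := .c 4 r77 .e
noncomputable def q54 : Tr := .c 1 (.l 0) (.c 2 (.l 0) (.c 5 (.l 0) .e))
noncomputable def q55 : Tr := .c 1 (.l 15) .e
noncomputable def r78 : Tr := .c 4 q54 (.c 7 q55 .e)
noncomputable def r79 : Tr := .c 3 q51 (.c 4 q54 (.c 5 q51 .e))
noncomputable def r80 : Tr := .c 0 q1 (.c 2 q1 (.c 4 q54 .e))
noncomputable def t37 : Tr := .c 1 r78 (.c 2 r79 (.c 5 r80 .e))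
noncomputable def q56 : Tr := .c 2 (.l 22) .e
noncomputable def r81 : Tr := .c 5 q56 .e
noncomputable def q57 : Tr := .c 2 (.l 0) (.c 7 (.l 0) .e)
noncomputable def r82 : Tr := .c 4 q57 .e
noncomputable def r83 : Tr := .c 0 q9 (.c 4 q57 .e)
noncomputable def t38 : Tr := .c 0 r81 (.c 1 r82 (.c 5 r83 .e))
noncomputable def q58 : Tr := .c 2 (.l 23) .e
noncomputable def r84 : Tr := .c 5 q58 (.c 7 q55 .e)
noncomputable def q59 : Tr := .c 1 (.l 15) (.c 2 (.l 15) (.c 5 (.l 15) (.c 7 (.l 15) .e)))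
noncomputable def r85 : Tr := .c 4 q59 (.c 7 q55 .e)
noncomputable def r86 : Tr := .c 2 q35 (.c 7 q55 .e)
noncomputable def q60 : Tr := .c 7 (.l 24) .e
noncomputable def r87 : Tr := .c 1 q60 (.c 2 q35 (.c 5 q58 (.c 7 q55 .e)))
noncomputable def t39 : Tr := .c 0 r84 (.c 1 r85 (.c 3 r86 (.c 4 r87 .e)))
noncomputable def q61 : Tr := .c 1 (.l 0) (.c 5 (.l 0) .e)
noncomputable def r88 : Tr := .c 4 q61 .e
noncomputable def t40 : Tr := .c 2 r88 (.c 6 r15 .e)
noncomputable def r89 : Tr := .c 4 q54 (.c 6 q61 (.c 7 q55 .e))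
noncomputable def r90 : Tr := .c 4 q54 (.c 5 q51 .e)
noncomputable def r91 : Tr := .c 0 q1 (.c 2 q1 (.c 4 q54 (.c 6 q61 .e)))
noncomputable def t41 : Tr := .c 1 r89 (.c 2 r90 (.c 5 r91 .e))
noncomputable def q62 : Tr := .c 1 (.l 25) (.c 5 (.l 25) .e)
noncomputable def q63 : Tr := .c 1 (.l 26) .e
noncomputable def r92 : Tr := .c 5 q52 (.c 6 q62 (.c 7 q63 .e))
noncomputable def q64 : Tr := .c 1 (.l 0) (.c 2 (.l 0) (.c 5 (.l 0) (.c 7 (.l 0) .e)))
noncomputable def r93 : Tr := .c 4 q64 (.c 5 q52 .e)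
noncomputable def q65 : Tr := .c 5 (.l 27) .e
noncomputable def r94 : Tr := .c 1 q16 (.c 2 q65 (.c 5 q52 (.c 7 q63 .e)))
noncomputable def r95 : Tr := .c 0 q14 (.c 1 q16 (.c 5 q52 .e))
noncomputable def t42 : Tr := .c 0 r92 (.c 2 r93 (.c 4 r94 (.c 6 r95 .e)))
noncomputable def r96 : Tr := .c 0 q11 (.c 3 q53 (.c 5 q53 .e))
noncomputable def t43 : Tr := .c 5 r80 (.c 6 r96 .e)
noncomputable def r97 : Tr := .c 2 q1 (.c 7 q55 .e)
noncomputable def q66 : Tr := .c 7 (.l 3) .e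
noncomputable def q67 : Tr := .c 2 (.l 28) .e
noncomputable def r98 : Tr := .c 1 q66 (.c 2 q1 (.c 5 q67 (.c 7 q55 .e)))
noncomputable def r99 : Tr := .c 0 q7 (.c 2 q1 (.c 4 q64 .e))
noncomputable def t44 : Tr := .c 3 r97 (.c 4 r98 (.c 5 r99 .e))
noncomputable def r100 : Tr := .c 2 q1 (.c 6 q61 .e)
noncomputable def r101 : Tr := .c 5 q53 .e
noncomputable def t45 : Tr := .c 5 r100 (.c 6 r101 .e)
noncomputable def q68 : Tr := .c 1 (.l 29) .e
noncomputable def r102 : Tr := .c 1 q16 (.c 2 q17 (.c 5 q53 (.c 7 q68 .e)))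
noncomputable def t46 : Tr := .c 4 r102 (.c 6 r77 .e)
noncomputable def r103 : Tr := .c 6 q61 (.c 7 q55 .e)
noncomputable def r104 : Tr := .c 5 q51 .e
noncomputable def t47 : Tr := .c 1 r103 (.c 2 r104 (.c 5 r100 .e))
noncomputable def q69 : Tr := .c 0 (.l 9) (.c 2 (.l 9) (.c 4 (.l 9) .e))
noncomputable def q70 : Tr := .c 0 (.l 15) .e
noncomputable def r105 : Tr := .c 5 q69 (.c 6 q70 .e)
noncomputable def r106 : Tr := .c 3 q52 (.c 4 q52 (.c 5 q69 .e))
noncomputable def r107 : Tr := .c 1 q19 (.c 2 q19 (.c 5 q69 .e))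
noncomputable def t48 : Tr := .c 0 r105 (.c 2 r106 (.c 4 r107 .e))
noncomputable def q71 : Tr := .c 0 (.l 15) (.c 2 (.l 15) (.c 4 (.l 15) (.c 6 (.l 15) .e)))
noncomputable def r108 : Tr := .c 5 q71 (.c 6 q70 .e)
noncomputable def q72 : Tr := .c 2 (.l 30) .e
noncomputable def r109 : Tr := .c 4 q72 (.c 6 q70 .e)
noncomputable def r110 : Tr := .c 2 q34 (.c 6 q70 .e)
noncomputable def q73 : Tr := .c 6 (.l 31) .e
noncomputable def r111 : Tr := .c 0 q73 (.c 2 q34 (.c 4 q72 (.c 6 q70 .e)))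
noncomputable def t49 : Tr := .c 0 r108 (.c 1 r109 (.c 3 r110 (.c 5 r111 .e)))
noncomputable def q74 : Tr := .c 2 (.l 9) (.c 6 (.l 9) .e)
noncomputable def r112 : Tr := .c 5 q74 .e
noncomputable def q75 : Tr := .c 2 (.l 32) .e
noncomputable def r113 : Tr := .c 4 q75 .e
noncomputable def r114 : Tr := .c 1 q25 (.c 5 q74 .e)
noncomputable def t50 : Tr := .c 0 r112 (.c 1 r113 (.c 4 r114 .e))
noncomputable def q76 : Tr := .c 0 (.l 9) (.c 4 (.l 9) .e)
noncomputable def r115 : Tr := .c 5 q76 .e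
noncomputable def t51 : Tr := .c 2 r115 (.c 7 r45 .e)
noncomputable def q77 : Tr := .c 0 (.l 33) .e
noncomputable def q78 : Tr := .c 0 (.l 34) (.c 4 (.l 34) .e)
noncomputable def r116 : Tr := .c 4 q51 (.c 6 q77 (.c 7 q78 .e))
noncomputable def q79 : Tr := .c 0 (.l 9) (.c 2 (.l 9) (.c 4 (.l 9) (.c 6 (.l 9) .e)))
noncomputable def r117 : Tr := .c 4 q51 (.c 5 q79 .e)
noncomputable def q80 : Tr := .c 4 (.l 35) .e
noncomputable def r118 : Tr := .c 0 q3 (.c 2 q80 (.c 4 q51 (.c 6 q77 .e)))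
noncomputable def r119 : Tr := .c 0 q3 (.c 1 q30 (.c 4 q51 .e))
noncomputable def t52 : Tr := .c 1 r116 (.c 2 r117 (.c 5 r118 (.c 7 r119 .e)))
noncomputable def r120 : Tr := .c 5 q69 (.c 6 q70 (.c 7 q76 .e))
noncomputable def r121 : Tr := .c 4 q52 (.c 5 q69 .e)
noncomputable def r122 : Tr := .c 1 q19 (.c 2 q19 (.c 5 q69 (.c 7 q76 .e)))
noncomputable def t53 : Tr := .c 0 r120 (.c 2 r121 (.c 4 r122 .e))
noncomputable def r123 : Tr := .c 1 q31 (.c 3 q53 (.c 4 q53 .e))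
noncomputable def t54 : Tr := .c 4 r107 (.c 7 r123 .e)
noncomputable def r124 : Tr := .c 2 q19 (.c 6 q70 .e)
noncomputable def r125 : Tr := .c 1 q22 (.c 2 q19 (.c 5 q79 .e))
noncomputable def q81 : Tr := .c 6 (.l 10) .e
noncomputable def q82 : Tr := .c 2 (.l 36) .e
noncomputable def r126 : Tr := .c 0 q81 (.c 2 q19 (.c 4 q82 (.c 6 q70 .e)))
noncomputable def t55 : Tr := .c 3 r124 (.c 4 r125 (.c 5 r126 .e))
noncomputable def q83 : Tr := .c 0 (.l 37) .e
noncomputable def r127 : Tr := .c 0 q3 (.c 2 q28 (.c 4 q53 (.c 6 q83 .e)))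
noncomputable def t56 : Tr := .c 5 r127 (.c 7 r76 .e)
noncomputable def r128 : Tr := .c 2 q19 (.c 7 q76 .e)
noncomputable def r129 : Tr := .c 4 q53 .e
noncomputable def t57 : Tr := .c 4 r128 (.c 7 r129 .e)
noncomputable def r130 : Tr := .c 6 q70 (.c 7 q76 .e)
noncomputable def r131 : Tr := .c 4 q52 .e
noncomputable def t58 : Tr := .c 0 r130 (.c 2 r131 (.c 4 r128 .e))
noncomputable def q84 : Tr := .c 0 (.l 15) (.c 1 (.l 15) (.c 3 (.l 15) (.c 5 (.l 15) .e)))
noncomputable def r132 : Tr := .c 5 q70 (.c 6 q84 .e)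
noncomputable def q85 : Tr := .c 1 (.l 38) (.c 5 (.l 38) .e)
noncomputable def r133 : Tr := .c 4 q85 (.c 5 q70 .e)
noncomputable def r134 : Tr := .c 2 q41 (.c 5 q70 .e)
noncomputable def q86 : Tr := .c 5 (.l 24) .e
noncomputable def r135 : Tr := .c 0 q86 (.c 5 q70 .e)
noncomputable def t59 : Tr := .c 0 r132 (.c 2 r133 (.c 4 r134 (.c 6 r135 .e)))
noncomputable def q87 : Tr := .c 0 (.l 39) .e
noncomputable def r136 : Tr := .c 5 q70 (.c 6 q87 .e)
noncomputable def t60 : Tr := .c 0 r136 .e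
noncomputable def q88 : Tr := .c 1 (.l 15) (.c 5 (.l 15) .e)
noncomputable def r137 : Tr := .c 6 q88 .e
noncomputable def r138 : Tr := .c 2 q35 .e
noncomputable def t61 : Tr := .c 0 r137 (.c 4 r138 .e)
noncomputable def q89 : Tr := .c 0 (.l 40) .e
noncomputable def r139 : Tr := .c 4 q61 (.c 5 q89 .e)
noncomputable def r140 : Tr := .c 0 q1 (.c 4 q61 .e)
noncomputable def t62 : Tr := .c 2 r139 (.c 7 r140 .e)
noncomputable def r141 : Tr := .c 5 q70 (.c 7 q70 .e)
noncomputable def t63 : Tr := .c 0 r141 .e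
noncomputable def r142 : Tr := .c 7 q55 .e
noncomputable def t64 : Tr := .c 0 r142 (.c 4 r86 .e)
noncomputable def r143 : Tr := .c 5 q70 .e
noncomputable def t65 : Tr := .c 4 r143 .e
noncomputable def t66 : Tr := .c 0 r143 .e
noncomputable def q90 : Tr := .c 0 (.l 29) .e
noncomputable def r144 : Tr := .c 0 q11 (.c 5 q90 .e)
noncomputable def t67 : Tr := .c 6 r144 (.c 7 r140 .e)
noncomputable def q91 : Tr := .c 0 (.l 15) (.c 1 (.l 15) .e)
noncomputable def r145 : Tr := .c 2 q1 (.c 5 q70 (.c 7 q91 .e))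
noncomputable def t68 : Tr := .c 4 r145 .e
noncomputable def q92 : Tr := .c 1 (.l 41) .e
noncomputable def r146 : Tr := .c 4 q92 (.c 5 q76 .e)
noncomputable def r147 : Tr := .c 1 q19 (.c 5 q76 .e)
noncomputable def t69 : Tr := .c 2 r146 (.c 6 r147 .e)
noncomputable def r148 : Tr := .c 6 q70 .e
noncomputable def t70 : Tr := .c 1 r148 (.c 5 r110 .e)
noncomputable def r149 : Tr := .c 4 q55 (.c 6 q55 .e)
noncomputable def t71 : Tr := .c 1 r149 .e
noncomputable def q93 : Tr := .c 0 (.l 15) (.c 1 (.l 15) (.c 3 (.l 15) (.c 4 (.l 15) .e)))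
noncomputable def r150 : Tr := .c 4 q55 (.c 7 q93 .e)
noncomputable def q94 : Tr := .c 0 (.l 42) (.c 4 (.l 42) .e)
noncomputable def r151 : Tr := .c 4 q55 (.c 5 q94 .e)
noncomputable def r152 : Tr := .c 2 q48 (.c 4 q55 .e)
noncomputable def q95 : Tr := .c 4 (.l 31) .e
noncomputable def r153 : Tr := .c 1 q95 (.c 4 q55 .e)
noncomputable def t72 : Tr := .c 1 r150 (.c 2 r151 (.c 5 r152 (.c 7 r153 .e)))
noncomputable def q96 : Tr := .c 0 (.l 15) (.c 4 (.l 15) .e)
noncomputable def r154 : Tr := .c 7 q96 .e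
noncomputable def r155 : Tr := .c 2 q34 .e
noncomputable def t73 : Tr := .c 1 r154 (.c 5 r155 .e)
noncomputable def q97 : Tr := .c 1 (.l 43) .e
noncomputable def r156 : Tr := .c 4 q55 (.c 7 q97 .e)
noncomputable def t74 : Tr := .c 1 r156 .e
noncomputable def r157 : Tr := .c 4 q55 .e
noncomputable def t75 : Tr := .c 5 r157 .e
noncomputable def t76 : Tr := .c 1 r157 .e
noncomputable def q98 : Tr := .c 1 (.l 37) .e
noncomputable def r158 : Tr := .c 1 q31 (.c 4 q98 .e)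
noncomputable def t77 : Tr := .c 6 r147 (.c 7 r158 .e)
noncomputable def r159 : Tr := .c 2 q19 (.c 4 q55 (.c 6 q91 .e))
noncomputable def t78 : Tr := .c 5 r159 .e

/-- the diagram -/
noncomputable def T : Tr := (.c 0 (.c 5 (.c 0 t0 (.c 2 t1 (.c 4 t2 (.c 6 t3 .e)))) (.c 6 (.c 0 t4 (.c 1 t5 (.c 3 t6 (.c 5
t7 .e)))) (.c 7 (.c 0 t8 (.c 1 t9 (.c 4 t10 .e))) .e))) (.c 1 (.c 4 (.c 1 t11 (.c 2 t12 (.c 5
t13 (.c 7 t14 .e)))) (.c 6 (.c 0 t15 (.c 1 t16 (.c 5 t17 .e))) (.c 7 (.c 0 t18 (.c 1 t19 (.c 3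
t20 (.c 4 t21 .e)))) .e))) (.c 2 (.c 3 (.c 2 t22 (.c 6 t23 (.c 7 t24 .e))) (.c 4 (.c 1 t25 (.c
2 t26 (.c 5 t27 (.c 7 t28 .e)))) (.c 5 (.c 0 t29 (.c 2 t30 (.c 4 t31 (.c 6 t32 .e)))) .e))) (.c
3 (.c 2 (.c 4 t33 (.c 5 t34 .e)) (.c 6 (.c 0 t35 .e) (.c 7 (.c 1 t36 .e) .e))) (.c 4 (.c 1 (.c
4 t37 (.c 6 t38 (.c 7 t39 .e))) (.c 2 (.c 3 t40 (.c 4 t41 (.c 5 t42 .e))) (.c 5 (.c 0 t43 (.c 2
t44 (.c 4 t37 (.c 6 t38 .e)))) (.c 7 (.c 0 t45 (.c 1 t46 (.c 4 t47 .e))) .e)))) (.c 5 (.c 0 (.c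
5 t48 (.c 6 t49 (.c 7 t50 .e))) (.c 2 (.c 3 t51 (.c 4 t52 (.c 5 t53 .e))) (.c 4 (.c 1 t54 (.c 2
t55 (.c 5 t48 (.c 7 t50 .e)))) (.c 6 (.c 0 t56 (.c 1 t57 (.c 5 t58 .e))) .e)))) (.c 6 (.c 0 (.c
5 t59 (.c 6 t60 (.c 7 t61 .e))) (.c 1 (.c 4 t62 (.c 6 t63 (.c 7 t64 .e))) (.c 3 (.c 2 t65 (.c 6
t66 .e)) (.c 5 (.c 0 t67 (.c 2 t68 (.c 4 t62 (.c 6 t63 .e)))) .e)))) (.c 7 (.c 0 (.c 5 t69 (.c
6 t70 (.c 7 t71 .e))) (.c 1 (.c 4 t72 (.c 6 t73 (.c 7 t74 .e))) (.c 3 (.c 2 t75 (.c 7 t76 .e))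
(.c 4 (.c 1 t77 (.c 2 t78 (.c 5 t69 (.c 7 t71 .e)))) .e)))) .e))))))))

theorem k0 : chkQ0 D J R 44 T = true := by decide +kernel
theorem pr : Fast.preF D J 44 T = true := by decide +kernel
theorem c0 : csP D J T 0 = true := csP_of_csF pr (by decide +kernel)
theorem c1 : csP D J T 1 = true := csP_of_csF pr (by decide +kernel)
theorem c2 : csP D J T 2 = true := csP_of_csF pr (by decide +kernel)
theorem c3 : csP D J T 3 = true := csP_of_csF pr (by decide +kernel)
theorem c4 : csP D J T 4 = true := csP_of_csF pr (by decide +kernel)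
theorem c5 : csP D J T 5 = true := csP_of_csF pr (by decide +kernel)
theorem c6 : csP D J T 6 = true := csP_of_csF pr (by decide +kernel)
theorem c7 : csP D J T 7 = true := csP_of_csF pr (by decide +kernel)
theorem c8 : csP D J T 8 = true := csP_of_csF pr (by decide +kernel)
theorem c9 : csP D J T 9 = true := csP_of_csF pr (by decide +kernel)
theorem c10 : csP D J T 10 = true := csP_of_csF pr (by decide +kernel)
theorem c11 : csP D J T 11 = true := csP_of_csF pr (by decide +kernel)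
theorem c12 : csP D J T 12 = true := csP_of_csF pr (by decide +kernel)
theorem c13 : csP D J T 13 = true := csP_of_csF pr (by decide +kernel)
theorem c14 : csP D J T 14 = true := csP_of_csF pr (by decide +kernel)
theorem c15 : csP D J T 15 = true := csP_of_csF pr (by decide +kernel)
theorem c16 : csP D J T 16 = true := csP_of_csF pr (by decide +kernel)
theorem c17 : csP D J T 17 = true := csP_of_csF pr (by decide +kernel)
theorem c18 : csP D J T 18 = true := csP_of_csF pr (by decide +kernel)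

theorem cs : ∀ p < D.N, csP D J T p = true := by
  intro p hp
  have hp : p < 19 := hp
  interval_cases p
  · exact c0
  · exact c1
  · exact c2
  · exact c3
  · exact c4
  · exact c5
  · exact c6
  · exact c7
  · exact c8
  · exact c9
  · exact c10
  · exact c11
  · exact c12
  · exact c13
  · exact c14
  · exact c15
  · exact c16
  · exact c17
  · exact c18

/-- the box table -/
theorem tab : BoxTab D := boxTab_of (by decide) (by decide) k0 cs

end F33b

/-! ### 01 02 03 12 14 25 34 35 (7|56: tie) -/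

namespace F33t

/-- the data -/
def D : Dat where
  A := 8
  N := 20
  nb := [224, 208, 56, 196, 166, 85, 43, 27]
  op := [127, 191, 247, 59, 127, 191, 213, 230]
  nbT := [786656, 655568, 98360, 549060, 284838, 140885, 69931, 34075, 942272, 888864, 874656, 754704,
697936, 364840, 230680, 817796, 683588, 350498, 173841, 106251]
  opT := [261759, 392895, 425719, 499259, 239231, 383167, 454357, 490214, 524288, 523999, 523871,
524015, 523951, 523991, 524007, 523899, 523963, 523997, 524014, 256]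
  PL := [[0], [1], [2], [3], [4], [5], [6], [7], [0, 1, 3], [0, 2], [0, 4], [1, 2], [1, 5], [2, 6], [2,
7], [3, 4], [3, 5], [4, 6], [5, 7], [6, 7]]
  L := [3, 5, 9, 6, 18, 36, 24, 40]
  P := [3, 5, 9, 6, 18, 36, 24, 40, 7, 11, 19, 13, 37, 25, 41, 22, 38, 26, 44, 56]
  r := 1
  tie := [0, 0, 0, 0, 0, 0, 0, 0, 1, 0, 0, 0, 0, 0, 0, 0, 0, 0, 0, 0]

/-- changes of the value at a tie -/
def J : List (List ℕ) := [[], [1, 2, 4, 8, 0x80021010, 0x20, 0x40, 0x80, 0x100, 0x200, 0x400, 0x800, 0x10005010,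
0x2000,
0x225000, 0x8000, 0x10000, 0x800024010, 0x40000, 0x80000, 0x100000, 0x810204000,
0x400000,
0x800000, 0x1000000, 0x2000000, 0x4000000, 0x8000000, 0x90201000, 0x20000000,
0x40000000,
0x890000010, 0x100000000, 0x200000000, 0x400000000, 0x880220000, 0x1000000000,
0x2000000000,
0x4000000000, 0x8000000000, 0x10000000000, 0x20000000000, 0x40000000000,
0x80000000000,
0x100000000000, 0x200000000000, 0x400000000000, 0x800000000000,
0x1000000000000,
0x2000000000000, 0x4000000000000, 0x8000000000000, 0x10000000000000,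
0x20000000000000,
0x40000000000000, 0x200204000000080000000000000, 0x100000000000000,
0x200000000000000,
0x400000000000000, 0x800000000000000, 0x1000000000000000,
0x2000000000000000,
0x4000000000000000, 0x8000000000000000, 0x10000000000000000,
0x20000000000000000,
0x40000000000000000, 0x80000000000000000, 0x100000000000000000,
0x200000000000000000,
0x400000000000000000, 0x800000000000000000, 0xa080001000000000000000000,
0x2000000000000000000,
0x4000000000000000000, 0x8000000000000000000, 0x10000000000000000000,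
0x20000000000000000000,
0x40000000000000000000, 0x80000000000000000000,
0x100000000000000000000,
0x200000000000000000000, 0x400000000000000000000,
0x800000000000000000000,
0x1000000000000000000000, 0x2000000000000000000000,
0x2084000000080000000000000,
0x8000000000000000000000, 0x10000000000000000000000,
0x20000000000000000000000,
0x40000000000000000000000, 0x284001000000000000000000,
0x100000000000000000000000,
0x8280000000080000000000000, 0x400000000000000000000000,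
0x800000000000000000000000,
0x1000000000000000000000000, 0x202004001000000000000000000,
0x4000000000000000000000000,
0x208200001000000000000000000, 0x10000000000000000000000000,
0x20000000000000000000000000,
0x40000000000000000000000000, 0x80000000000000000000000000,
0x100000000000000000000000000,
0x20a000000000080000000000000, 0x400000000000000000000000000,
0x800000000000000000000000000]]

/-- reachable values -/
def R : List (List ℕ) := [[1, 1], [2, 2], [4, 4], [8, 8], [0x10, 0x80021010], [0x20, 0x20], [0x40, 0x40], [0x80, 0x80],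
[0x100, 0x100], [0x200, 0x200], [0x400, 0x400], [0x800, 0x800], [0x1000, 0x10005010], [0x2000,
0x2000], [0x4000, 0x225000], [0x8000, 0x8000], [0x10000, 0x10000], [0x20000, 0x800024010],
[0x40000, 0x40000], [0x80000, 0x80000], [0x100000, 0x100000], [0x200000, 0x810204000],
[0x400000, 0x400000], [0x800000, 0x800000], [0x1000000, 0x1000000], [0x2000000, 0x2000000],
[0x4000000, 0x4000000], [0x8000000, 0x8000000], [0x10000000, 0x90201000], [0x20000000,
0x20000000], [0x40000000, 0x40000000], [0x80000000, 0x890000010], [0x100000000, 0x100000000],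
[0x200000000, 0x200000000], [0x400000000, 0x400000000], [0x800000000, 0x880220000],
[0x1000000000, 0x1000000000], [0x2000000000, 0x2000000000], [0x4000000000, 0x4000000000],
[0x8000000000, 0x8000000000], [0x10000000000, 0x10000000000], [0x20000000000, 0x20000000000],
[0x40000000000, 0x40000000000], [0x80000000000, 0x80000000000], [0x100000000000,
0x100000000000], [0x200000000000, 0x200000000000], [0x400000000000, 0x400000000000],
[0x800000000000, 0x800000000000], [0x1000000000000, 0x1000000000000], [0x2000000000000,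
0x2000000000000], [0x4000000000000, 0x4000000000000], [0x8000000000000, 0x8000000000000],
[0x10000000000000, 0x10000000000000], [0x20000000000000, 0x20000000000000], [0x40000000000000,
0x40000000000000], [0x80000000000000, 0x200204000000080000000000000], [0x100000000000000,
0x100000000000000], [0x200000000000000, 0x200000000000000], [0x400000000000000,
0x400000000000000], [0x800000000000000, 0x800000000000000], [0x1000000000000000,
0x1000000000000000], [0x2000000000000000, 0x2000000000000000], [0x4000000000000000,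
0x4000000000000000], [0x8000000000000000, 0x8000000000000000], [0x10000000000000000,
0x10000000000000000], [0x20000000000000000, 0x20000000000000000], [0x40000000000000000,
0x40000000000000000], [0x80000000000000000, 0x80000000000000000], [0x100000000000000000,
0x100000000000000000], [0x200000000000000000, 0x200000000000000000], [0x400000000000000000,
0x400000000000000000], [0x800000000000000000, 0x800000000000000000], [0x1000000000000000000,
0xa080001000000000000000000], [0x2000000000000000000, 0x2000000000000000000],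
[0x4000000000000000000, 0x4000000000000000000], [0x8000000000000000000, 0x8000000000000000000],
[0x10000000000000000000, 0x10000000000000000000], [0x20000000000000000000,
0x20000000000000000000], [0x40000000000000000000, 0x40000000000000000000],
[0x80000000000000000000, 0x80000000000000000000], [0x100000000000000000000,
0x100000000000000000000], [0x200000000000000000000, 0x200000000000000000000],
[0x400000000000000000000, 0x400000000000000000000], [0x800000000000000000000,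
0x800000000000000000000], [0x1000000000000000000000, 0x1000000000000000000000],
[0x2000000000000000000000, 0x2000000000000000000000], [0x4000000000000000000000,
0x2084000000080000000000000], [0x8000000000000000000000, 0x8000000000000000000000],
[0x10000000000000000000000, 0x10000000000000000000000], [0x20000000000000000000000,
0x20000000000000000000000], [0x40000000000000000000000, 0x40000000000000000000000],
[0x80000000000000000000000, 0x284001000000000000000000], [0x100000000000000000000000,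
0x100000000000000000000000], [0x200000000000000000000000, 0x8280000000080000000000000],
[0x400000000000000000000000, 0x400000000000000000000000], [0x800000000000000000000000,
0x800000000000000000000000], [0x1000000000000000000000000, 0x1000000000000000000000000],
[0x2000000000000000000000000, 0x202004001000000000000000000], [0x4000000000000000000000000,
0x4000000000000000000000000], [0x8000000000000000000000000, 0x208200001000000000000000000],
[0x10000000000000000000000000, 0x10000000000000000000000000], [0x20000000000000000000000000,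
0x20000000000000000000000000], [0x40000000000000000000000000, 0x40000000000000000000000000],
[0x80000000000000000000000000, 0x80000000000000000000000000], [0x100000000000000000000000000,
0x100000000000000000000000000], [0x200000000000000000000000000, 0x20a000000000080000000000000],
[0x400000000000000000000000000, 0x400000000000000000000000000], [0x800000000000000000000000000,
0x800000000000000000000000000]]

noncomputable def q0 : Tr := .c 5 (.l 0) (.c 6 (.l 1) .e)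
noncomputable def q1 : Tr := .c 5 (.l 0) .e
noncomputable def r0 : Tr := .c 0 q0 (.c 2 q1 (.c 4 q1 .e))
noncomputable def q2 : Tr := .c 5 (.l 2) (.c 6 (.l 3) .e)
noncomputable def q3 : Tr := .c 6 (.l 4) .e
noncomputable def r1 : Tr := .c 0 q2 (.c 1 q3 (.c 3 q3 (.c 5 q3 .e)))
noncomputable def t0 : Tr := .c 5 r0 (.c 6 r1 .e)
noncomputable def r2 : Tr := .c 2 q1 .e
noncomputable def q4 : Tr := .c 6 (.l 5) (.c 7 (.l 6) .e)
noncomputable def q5 : Tr := .c 6 (.l 5) .e
noncomputable def r3 : Tr := .c 1 q4 (.c 2 q1 (.c 5 q5 .e))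
noncomputable def q6 : Tr := .c 5 (.l 0) (.c 6 (.l 1) (.c 7 (.l 0) .e))
noncomputable def q7 : Tr := .c 5 (.l 0) (.c 7 (.l 0) .e)
noncomputable def r4 : Tr := .c 0 q6 (.c 2 q1 (.c 4 q7 .e))
noncomputable def t1 : Tr := .c 3 r2 (.c 4 r3 (.c 5 r4 .e))
noncomputable def r5 : Tr := .c 4 q1 .e
noncomputable def q8 : Tr := .c 6 (.l 7) .e
noncomputable def r6 : Tr := .c 3 q8 (.c 4 q1 (.c 5 q8 .e))
noncomputable def t2 : Tr := .c 1 r5 (.c 2 r6 (.c 5 r0 .e))
noncomputable def q9 : Tr := .c 6 (.l 8) .e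
noncomputable def r7 : Tr := .c 5 q9 .e
noncomputable def q10 : Tr := .c 7 (.l 0) .e
noncomputable def r8 : Tr := .c 4 q10 .e
noncomputable def q11 : Tr := .c 6 (.l 1) (.c 7 (.l 0) .e)
noncomputable def r9 : Tr := .c 0 q11 (.c 4 q10 .e)
noncomputable def t3 : Tr := .c 0 r7 (.c 1 r8 (.c 5 r9 .e))
noncomputable def q12 : Tr := .c 5 (.l 9) (.c 6 (.l 10) .e)
noncomputable def q13 : Tr := .c 5 (.l 9) .e
noncomputable def r10 : Tr := .c 0 q12 (.c 2 q13 (.c 4 q13 (.c 6 q13 .e)))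
noncomputable def q14 : Tr := .c 5 (.l 11) (.c 6 (.l 12) .e)
noncomputable def r11 : Tr := .c 0 q14 .e
noncomputable def t4 : Tr := .c 5 r10 (.c 6 r11 .e)
noncomputable def q15 : Tr := .c 5 (.l 13) .e
noncomputable def r12 : Tr := .c 2 q15 .e
noncomputable def q16 : Tr := .c 5 (.l 14) (.c 7 (.l 14) .e)
noncomputable def r13 : Tr := .c 0 q16 .e
noncomputable def t5 : Tr := .c 4 r12 (.c 6 r13 .e)
noncomputable def q17 : Tr := .c 5 (.l 15) .e
noncomputable def r14 : Tr := .c 4 q17 .e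
noncomputable def q18 : Tr := .c 5 (.l 14) .e
noncomputable def r15 : Tr := .c 0 q18 .e
noncomputable def t6 : Tr := .c 2 r14 (.c 6 r15 .e)
noncomputable def q19 : Tr := .c 5 (.l 16) .e
noncomputable def r16 : Tr := .c 6 q19 .e
noncomputable def q20 : Tr := .c 5 (.l 15) (.c 7 (.l 15) .e)
noncomputable def r17 : Tr := .c 4 q20 .e
noncomputable def t7 : Tr := .c 0 r16 (.c 2 r17 (.c 4 r12 (.c 6 r13 .e)))
noncomputable def r18 : Tr := .c 2 q1 (.c 6 q1 .e)
noncomputable def r19 : Tr := .c 1 q3 (.c 5 q3 .e)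
noncomputable def t8 : Tr := .c 5 r18 (.c 6 r19 .e)
noncomputable def q21 : Tr := .c 7 (.l 17) .e
noncomputable def q22 : Tr := .c 5 (.l 18) .e
noncomputable def r20 : Tr := .c 1 q21 (.c 2 q22 .e)
noncomputable def r21 : Tr := .c 1 q21 .e
noncomputable def t9 : Tr := .c 4 r20 (.c 6 r21 .e)
noncomputable def r22 : Tr := .c 6 q1 .e
noncomputable def r23 : Tr := .c 5 q8 .e
noncomputable def t10 : Tr := .c 1 r22 (.c 2 r23 (.c 5 r18 .e))
noncomputable def q23 : Tr := .c 4 (.l 19) (.c 7 (.l 20) .e)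
noncomputable def q24 : Tr := .c 4 (.l 19) .e
noncomputable def r24 : Tr := .c 1 q23 (.c 2 q24 (.c 5 q24 .e))
noncomputable def q25 : Tr := .c 7 (.l 21) .e
noncomputable def q26 : Tr := .c 4 (.l 22) (.c 7 (.l 23) .e)
noncomputable def r25 : Tr := .c 0 q25 (.c 1 q26 (.c 3 q25 (.c 4 q25 .e)))
noncomputable def t11 : Tr := .c 4 r24 (.c 7 r25 .e)
noncomputable def r26 : Tr := .c 2 q24 .e
noncomputable def q27 : Tr := .c 4 (.l 19) (.c 6 (.l 19) (.c 7 (.l 20) .e))
noncomputable def q28 : Tr := .c 4 (.l 19) (.c 6 (.l 19) .e)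
noncomputable def r27 : Tr := .c 1 q27 (.c 2 q24 (.c 5 q28 .e))
noncomputable def q29 : Tr := .c 6 (.l 24) (.c 7 (.l 25) .e)
noncomputable def q30 : Tr := .c 7 (.l 25) .e
noncomputable def r28 : Tr := .c 0 q29 (.c 2 q24 (.c 4 q30 .e))
noncomputable def t12 : Tr := .c 3 r26 (.c 4 r27 (.c 5 r28 .e))
noncomputable def r29 : Tr := .c 5 q24 .e
noncomputable def q31 : Tr := .c 7 (.l 26) .e
noncomputable def r30 : Tr := .c 3 q31 (.c 4 q31 (.c 5 q24 .e))
noncomputable def t13 : Tr := .c 0 r29 (.c 2 r30 (.c 4 r24 .e))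
noncomputable def q32 : Tr := .c 6 (.l 19) .e
noncomputable def r31 : Tr := .c 5 q32 .e
noncomputable def q33 : Tr := .c 7 (.l 27) .e
noncomputable def r32 : Tr := .c 4 q33 .e
noncomputable def q34 : Tr := .c 6 (.l 19) (.c 7 (.l 20) .e)
noncomputable def r33 : Tr := .c 1 q34 (.c 5 q32 .e)
noncomputable def t14 : Tr := .c 0 r31 (.c 1 r32 (.c 4 r33 .e))
noncomputable def q35 : Tr := .c 6 (.l 28) .e
noncomputable def q36 : Tr := .c 4 (.l 29) .e
noncomputable def r34 : Tr := .c 0 q35 (.c 2 q36 .e)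
noncomputable def r35 : Tr := .c 0 q35 .e
noncomputable def t15 : Tr := .c 5 r34 (.c 7 r35 .e)
noncomputable def r36 : Tr := .c 2 q24 (.c 7 q24 .e)
noncomputable def r37 : Tr := .c 0 q25 (.c 4 q25 .e)
noncomputable def t16 : Tr := .c 4 r36 (.c 7 r37 .e)
noncomputable def r38 : Tr := .c 7 q24 .e
noncomputable def r39 : Tr := .c 4 q31 .e
noncomputable def t17 : Tr := .c 0 r38 (.c 2 r39 (.c 4 r36 .e))
noncomputable def q37 : Tr := .c 4 (.l 30) .e
noncomputable def r40 : Tr := .c 2 q37 .e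
noncomputable def q38 : Tr := .c 4 (.l 31) (.c 6 (.l 31) .e)
noncomputable def r41 : Tr := .c 1 q38 .e
noncomputable def t18 : Tr := .c 5 r40 (.c 7 r41 .e)
noncomputable def q39 : Tr := .c 4 (.l 32) (.c 7 (.l 33) .e)
noncomputable def q40 : Tr := .c 4 (.l 32) .e
noncomputable def r42 : Tr := .c 1 q39 (.c 2 q40 (.c 5 q40 (.c 7 q40 .e)))
noncomputable def q41 : Tr := .c 4 (.l 34) (.c 7 (.l 35) .e)
noncomputable def r43 : Tr := .c 1 q41 .e
noncomputable def t19 : Tr := .c 4 r42 (.c 7 r43 .e)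
noncomputable def q42 : Tr := .c 4 (.l 36) .e
noncomputable def r44 : Tr := .c 5 q42 .e
noncomputable def q43 : Tr := .c 4 (.l 31) .e
noncomputable def r45 : Tr := .c 1 q43 .e
noncomputable def t20 : Tr := .c 2 r44 (.c 7 r45 .e)
noncomputable def q44 : Tr := .c 4 (.l 37) .e
noncomputable def r46 : Tr := .c 7 q44 .e
noncomputable def q45 : Tr := .c 4 (.l 36) (.c 6 (.l 36) .e)
noncomputable def r47 : Tr := .c 5 q45 .e
noncomputable def t21 : Tr := .c 1 r46 (.c 2 r47 (.c 5 r40 (.c 7 r41 .e)))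
noncomputable def r48 : Tr := .c 1 q24 (.c 5 q24 .e)
noncomputable def r49 : Tr := .c 0 q1 (.c 4 q1 .e)
noncomputable def t22 : Tr := .c 4 r48 (.c 5 r49 .e)
noncomputable def q46 : Tr := .c 4 (.l 38) .e
noncomputable def r50 : Tr := .c 5 q46 .e
noncomputable def t23 : Tr := .c 0 r50 .e
noncomputable def q47 : Tr := .c 5 (.l 39) .e
noncomputable def r51 : Tr := .c 4 q47 .e
noncomputable def t24 : Tr := .c 1 r51 .e
noncomputable def q48 : Tr := .c 3 (.l 19) (.c 4 (.l 19) (.c 5 (.l 19) .e))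
noncomputable def r52 : Tr := .c 1 q24 (.c 2 q48 (.c 5 q24 .e))
noncomputable def q49 : Tr := .c 5 (.l 40) .e
noncomputable def r53 : Tr := .c 0 q49 (.c 1 q24 (.c 5 q24 .e))
noncomputable def q50 : Tr := .c 5 (.l 41) .e
noncomputable def q51 : Tr := .c 4 (.l 22) .e
noncomputable def r54 : Tr := .c 0 q50 (.c 1 q51 (.c 4 q50 .e))
noncomputable def t25 : Tr := .c 4 r52 (.c 6 r53 (.c 7 r54 .e))
noncomputable def q52 : Tr := .c 4 (.l 19) (.c 5 (.l 19) .e)
noncomputable def r55 : Tr := .c 1 q24 (.c 2 q52 (.c 5 q24 .e))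
noncomputable def q53 : Tr := .c 4 (.l 19) (.c 5 (.l 0) .e)
noncomputable def r56 : Tr := .c 0 q1 (.c 2 q53 (.c 4 q1 (.c 6 q1 .e)))
noncomputable def t26 : Tr := .c 4 r55 (.c 5 r56 .e)
noncomputable def q54 : Tr := .c 3 (.l 42) (.c 5 (.l 42) .e)
noncomputable def r57 : Tr := .c 5 q24 (.c 6 q54 .e)
noncomputable def q55 : Tr := .c 5 (.l 43) .e
noncomputable def r58 : Tr := .c 4 q55 (.c 5 q24 .e)
noncomputable def t27 : Tr := .c 0 r57 (.c 2 r58 (.c 4 r52 (.c 6 r53 .e)))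
noncomputable def q56 : Tr := .c 5 (.l 42) .e
noncomputable def r59 : Tr := .c 6 q56 .e
noncomputable def r60 : Tr := .c 4 q47 (.c 6 q47 .e)
noncomputable def q57 : Tr := .c 5 (.l 19) .e
noncomputable def r61 : Tr := .c 2 q57 .e
noncomputable def t28 : Tr := .c 0 r59 (.c 1 r60 (.c 4 r61 .e))
noncomputable def q58 : Tr := .c 3 (.l 0) (.c 4 (.l 0) (.c 5 (.l 0) .e))
noncomputable def r62 : Tr := .c 0 q1 (.c 2 q58 (.c 4 q1 .e))
noncomputable def q59 : Tr := .c 5 (.l 2) .e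
noncomputable def q60 : Tr := .c 4 (.l 44) .e
noncomputable def r63 : Tr := .c 0 q59 (.c 1 q60 (.c 5 q60 .e))
noncomputable def q61 : Tr := .c 4 (.l 45) .e
noncomputable def r64 : Tr := .c 0 q1 (.c 1 q61 (.c 4 q1 .e))
noncomputable def t29 : Tr := .c 5 r62 (.c 6 r63 (.c 7 r64 .e))
noncomputable def r65 : Tr := .c 1 q24 (.c 2 q53 (.c 5 q24 (.c 7 q24 .e)))
noncomputable def q62 : Tr := .c 4 (.l 0) (.c 5 (.l 0) .e)
noncomputable def r66 : Tr := .c 0 q1 (.c 2 q62 (.c 4 q1 .e))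
noncomputable def t30 : Tr := .c 4 r65 (.c 5 r66 .e)
noncomputable def q63 : Tr := .c 3 (.l 46) (.c 4 (.l 46) .e)
noncomputable def r67 : Tr := .c 4 q1 (.c 7 q63 .e)
noncomputable def q64 : Tr := .c 4 (.l 47) .e
noncomputable def r68 : Tr := .c 4 q1 (.c 5 q64 .e)
noncomputable def t31 : Tr := .c 1 r67 (.c 2 r68 (.c 5 r62 (.c 7 r64 .e)))
noncomputable def r69 : Tr := .c 5 q46 (.c 7 q46 .e)
noncomputable def q65 : Tr := .c 4 (.l 46) .e
noncomputable def r70 : Tr := .c 7 q65 .e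
noncomputable def q66 : Tr := .c 4 (.l 0) .e
noncomputable def r71 : Tr := .c 2 q66 .e
noncomputable def t32 : Tr := .c 0 r69 (.c 1 r70 (.c 5 r71 .e))
noncomputable def q67 : Tr := .c 2 (.l 0) .e
noncomputable def r72 : Tr := .c 4 q67 .e
noncomputable def q68 : Tr := .c 6 (.l 48) .e
noncomputable def r73 : Tr := .c 0 q68 (.c 4 q67 .e)
noncomputable def t33 : Tr := .c 1 r72 (.c 5 r73 .e)
noncomputable def q69 : Tr := .c 2 (.l 19) .e
noncomputable def r74 : Tr := .c 5 q69 .e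
noncomputable def q70 : Tr := .c 7 (.l 49) .e
noncomputable def r75 : Tr := .c 1 q70 (.c 5 q69 .e)
noncomputable def t34 : Tr := .c 0 r74 (.c 4 r75 .e)
noncomputable def q71 : Tr := .c 2 (.l 50) .e
noncomputable def r76 : Tr := .c 0 q35 (.c 4 q71 .e)
noncomputable def t35 : Tr := .c 5 r76 .e
noncomputable def q72 : Tr := .c 2 (.l 51) .e
noncomputable def r77 : Tr := .c 1 q21 (.c 5 q72 .e)
noncomputable def t36 : Tr := .c 4 r77 .e
noncomputable def q73 : Tr := .c 1 (.l 0) (.c 2 (.l 0) (.c 5 (.l 0) .e))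
noncomputable def q74 : Tr := .c 1 (.l 52) .e
noncomputable def r78 : Tr := .c 4 q73 (.c 7 q74 .e)
noncomputable def r79 : Tr := .c 3 q67 (.c 4 q73 (.c 5 q67 .e))
noncomputable def r80 : Tr := .c 0 q1 (.c 2 q1 (.c 4 q73 .e))
noncomputable def t37 : Tr := .c 1 r78 (.c 2 r79 (.c 5 r80 .e))
noncomputable def q75 : Tr := .c 2 (.l 53) .e
noncomputable def r81 : Tr := .c 5 q75 .e
noncomputable def q76 : Tr := .c 2 (.l 0) (.c 7 (.l 0) .e)
noncomputable def r82 : Tr := .c 4 q76 .e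
noncomputable def r83 : Tr := .c 0 q10 (.c 4 q76 .e)
noncomputable def t38 : Tr := .c 0 r81 (.c 1 r82 (.c 5 r83 .e))
noncomputable def q77 : Tr := .c 2 (.l 54) .e
noncomputable def q78 : Tr := .c 1 (.l 55) .e
noncomputable def r84 : Tr := .c 5 q77 (.c 7 q78 .e)
noncomputable def q79 : Tr := .c 1 (.l 56) (.c 2 (.l 56) (.c 5 (.l 56) (.c 7 (.l 56) .e)))
noncomputable def q80 : Tr := .c 1 (.l 57) .e
noncomputable def r85 : Tr := .c 4 q79 (.c 7 q80 .e)
noncomputable def q81 : Tr := .c 5 (.l 58) .e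
noncomputable def r86 : Tr := .c 2 q81 (.c 7 q78 .e)
noncomputable def q82 : Tr := .c 7 (.l 59) .e
noncomputable def r87 : Tr := .c 1 q82 (.c 2 q81 (.c 5 q77 (.c 7 q78 .e)))
noncomputable def t39 : Tr := .c 0 r84 (.c 1 r85 (.c 3 r86 (.c 4 r87 .e)))
noncomputable def q83 : Tr := .c 1 (.l 0) (.c 5 (.l 0) .e)
noncomputable def r88 : Tr := .c 4 q83 .e
noncomputable def q84 : Tr := .c 5 (.l 60) .e
noncomputable def r89 : Tr := .c 0 q84 .e
noncomputable def t40 : Tr := .c 2 r88 (.c 6 r89 .e)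
noncomputable def r90 : Tr := .c 4 q73 (.c 6 q83 (.c 7 q74 .e))
noncomputable def r91 : Tr := .c 4 q73 (.c 5 q67 .e)
noncomputable def r92 : Tr := .c 0 q1 (.c 2 q1 (.c 4 q73 (.c 6 q83 .e)))
noncomputable def t41 : Tr := .c 1 r90 (.c 2 r91 (.c 5 r92 .e))
noncomputable def q85 : Tr := .c 1 (.l 61) (.c 5 (.l 61) .e)
noncomputable def q86 : Tr := .c 1 (.l 62) .e
noncomputable def r93 : Tr := .c 5 q69 (.c 6 q85 (.c 7 q86 .e))
noncomputable def q87 : Tr := .c 1 (.l 0) (.c 2 (.l 0) (.c 5 (.l 0) (.c 7 (.l 0) .e)))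
noncomputable def r94 : Tr := .c 4 q87 (.c 5 q69 .e)
noncomputable def q88 : Tr := .c 5 (.l 63) .e
noncomputable def r95 : Tr := .c 1 q70 (.c 2 q88 (.c 5 q69 (.c 7 q86 .e)))
noncomputable def q89 : Tr := .c 5 (.l 60) (.c 7 (.l 60) .e)
noncomputable def r96 : Tr := .c 0 q89 (.c 1 q70 (.c 5 q69 .e))
noncomputable def t42 : Tr := .c 0 r93 (.c 2 r94 (.c 4 r95 (.c 6 r96 .e)))
noncomputable def q90 : Tr := .c 2 (.l 64) .e
noncomputable def r97 : Tr := .c 0 q59 (.c 3 q90 (.c 5 q90 .e))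
noncomputable def t43 : Tr := .c 5 r80 (.c 6 r97 .e)
noncomputable def q91 : Tr := .c 1 (.l 65) .e
noncomputable def r98 : Tr := .c 2 q1 (.c 7 q91 .e)
noncomputable def q92 : Tr := .c 7 (.l 6) .e
noncomputable def q93 : Tr := .c 2 (.l 66) .e
noncomputable def r99 : Tr := .c 1 q92 (.c 2 q1 (.c 5 q93 (.c 7 q91 .e)))
noncomputable def r100 : Tr := .c 0 q7 (.c 2 q1 (.c 4 q87 .e))
noncomputable def t44 : Tr := .c 3 r98 (.c 4 r99 (.c 5 r100 .e))
noncomputable def r101 : Tr := .c 2 q1 (.c 6 q83 .e)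
noncomputable def r102 : Tr := .c 5 q90 .e
noncomputable def t45 : Tr := .c 5 r101 (.c 6 r102 .e)
noncomputable def q94 : Tr := .c 1 (.l 67) .e
noncomputable def r103 : Tr := .c 1 q21 (.c 2 q22 (.c 5 q72 (.c 7 q94 .e)))
noncomputable def t46 : Tr := .c 4 r103 (.c 6 r77 .e)
noncomputable def r104 : Tr := .c 6 q83 (.c 7 q74 .e)
noncomputable def r105 : Tr := .c 5 q67 .e
noncomputable def t47 : Tr := .c 1 r104 (.c 2 r105 (.c 5 r101 .e))
noncomputable def q95 : Tr := .c 0 (.l 19) (.c 2 (.l 19) (.c 4 (.l 19) .e))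
noncomputable def q96 : Tr := .c 0 (.l 68) .e
noncomputable def r106 : Tr := .c 5 q95 (.c 6 q96 .e)
noncomputable def r107 : Tr := .c 3 q69 (.c 4 q69 (.c 5 q95 .e))
noncomputable def r108 : Tr := .c 1 q24 (.c 2 q24 (.c 5 q95 .e))
noncomputable def t48 : Tr := .c 0 r106 (.c 2 r107 (.c 4 r108 .e))
noncomputable def q97 : Tr := .c 0 (.l 69) (.c 2 (.l 69) (.c 4 (.l 69) (.c 6 (.l 69) .e)))
noncomputable def q98 : Tr := .c 0 (.l 70) .e
noncomputable def r109 : Tr := .c 5 q97 (.c 6 q98 .e)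
noncomputable def q99 : Tr := .c 2 (.l 71) .e
noncomputable def q100 : Tr := .c 0 (.l 72) .e
noncomputable def r110 : Tr := .c 4 q99 (.c 6 q100 .e)
noncomputable def q101 : Tr := .c 4 (.l 73) .e
noncomputable def r111 : Tr := .c 2 q101 (.c 6 q100 .e)
noncomputable def q102 : Tr := .c 6 (.l 74) .e
noncomputable def r112 : Tr := .c 0 q102 (.c 2 q101 (.c 4 q99 (.c 6 q100 .e)))
noncomputable def t49 : Tr := .c 0 r109 (.c 1 r110 (.c 3 r111 (.c 5 r112 .e)))
noncomputable def q103 : Tr := .c 2 (.l 19) (.c 6 (.l 19) .e)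
noncomputable def r113 : Tr := .c 5 q103 .e
noncomputable def q104 : Tr := .c 2 (.l 75) .e
noncomputable def r114 : Tr := .c 4 q104 .e
noncomputable def r115 : Tr := .c 1 q32 (.c 5 q103 .e)
noncomputable def t50 : Tr := .c 0 r113 (.c 1 r114 (.c 4 r115 .e))
noncomputable def q105 : Tr := .c 0 (.l 19) (.c 4 (.l 19) .e)
noncomputable def r116 : Tr := .c 5 q105 .e
noncomputable def q106 : Tr := .c 4 (.l 76) .e
noncomputable def r117 : Tr := .c 1 q106 .e
noncomputable def t51 : Tr := .c 2 r116 (.c 7 r117 .e)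
noncomputable def q107 : Tr := .c 0 (.l 77) .e
noncomputable def q108 : Tr := .c 0 (.l 78) (.c 4 (.l 78) .e)
noncomputable def r118 : Tr := .c 4 q67 (.c 6 q107 (.c 7 q108 .e))
noncomputable def q109 : Tr := .c 0 (.l 19) (.c 2 (.l 19) (.c 4 (.l 19) (.c 6 (.l 19) .e)))
noncomputable def r119 : Tr := .c 4 q67 (.c 5 q109 .e)
noncomputable def q110 : Tr := .c 4 (.l 79) .e
noncomputable def r120 : Tr := .c 0 q68 (.c 2 q110 (.c 4 q67 (.c 6 q107 .e)))
noncomputable def q111 : Tr := .c 4 (.l 76) (.c 6 (.l 76) .e)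
noncomputable def r121 : Tr := .c 0 q68 (.c 1 q111 (.c 4 q67 .e))
noncomputable def t52 : Tr := .c 1 r118 (.c 2 r119 (.c 5 r120 (.c 7 r121 .e)))
noncomputable def r122 : Tr := .c 5 q95 (.c 6 q96 (.c 7 q105 .e))
noncomputable def r123 : Tr := .c 4 q69 (.c 5 q95 .e)
noncomputable def r124 : Tr := .c 1 q24 (.c 2 q24 (.c 5 q95 (.c 7 q105 .e)))
noncomputable def t53 : Tr := .c 0 r122 (.c 2 r123 (.c 4 r124 .e))
noncomputable def q112 : Tr := .c 2 (.l 80) .e
noncomputable def r125 : Tr := .c 1 q51 (.c 3 q112 (.c 4 q112 .e))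
noncomputable def t54 : Tr := .c 4 r108 (.c 7 r125 .e)
noncomputable def q113 : Tr := .c 0 (.l 81) .e
noncomputable def r126 : Tr := .c 2 q24 (.c 6 q113 .e)
noncomputable def r127 : Tr := .c 1 q28 (.c 2 q24 (.c 5 q109 .e))
noncomputable def q114 : Tr := .c 6 (.l 24) .e
noncomputable def q115 : Tr := .c 2 (.l 82) .e
noncomputable def r128 : Tr := .c 0 q114 (.c 2 q24 (.c 4 q115 (.c 6 q113 .e)))
noncomputable def t55 : Tr := .c 3 r126 (.c 4 r127 (.c 5 r128 .e))
noncomputable def q116 : Tr := .c 0 (.l 83) .e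
noncomputable def r129 : Tr := .c 0 q35 (.c 2 q36 (.c 4 q71 (.c 6 q116 .e)))
noncomputable def t56 : Tr := .c 5 r129 (.c 7 r76 .e)
noncomputable def r130 : Tr := .c 2 q24 (.c 7 q105 .e)
noncomputable def r131 : Tr := .c 4 q112 .e
noncomputable def t57 : Tr := .c 4 r130 (.c 7 r131 .e)
noncomputable def r132 : Tr := .c 6 q96 (.c 7 q105 .e)
noncomputable def r133 : Tr := .c 4 q69 .e
noncomputable def t58 : Tr := .c 0 r132 (.c 2 r133 (.c 4 r130 .e))
noncomputable def q117 : Tr := .c 0 (.l 84) .e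
noncomputable def q118 : Tr := .c 0 (.l 85) (.c 1 (.l 86) (.c 3 (.l 86) (.c 5 (.l 86) .e)))
noncomputable def r134 : Tr := .c 5 q117 (.c 6 q118 .e)
noncomputable def q119 : Tr := .c 1 (.l 87) (.c 5 (.l 87) .e)
noncomputable def r135 : Tr := .c 4 q119 (.c 5 q117 .e)
noncomputable def q120 : Tr := .c 3 (.l 88) (.c 5 (.l 88) .e)
noncomputable def r136 : Tr := .c 2 q120 (.c 5 q117 .e)
noncomputable def q121 : Tr := .c 5 (.l 89) .e
noncomputable def r137 : Tr := .c 0 q121 (.c 5 q117 .e)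
noncomputable def t59 : Tr := .c 0 r134 (.c 2 r135 (.c 4 r136 (.c 6 r137 .e)))
noncomputable def q122 : Tr := .c 0 (.l 90) .e
noncomputable def q123 : Tr := .c 0 (.l 91) .e
noncomputable def r138 : Tr := .c 5 q122 (.c 6 q123 .e)
noncomputable def t60 : Tr := .c 0 r138 .e
noncomputable def q124 : Tr := .c 1 (.l 86) (.c 5 (.l 86) .e)
noncomputable def r139 : Tr := .c 6 q124 .e
noncomputable def q125 : Tr := .c 5 (.l 88) .e
noncomputable def r140 : Tr := .c 2 q125 .e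
noncomputable def t61 : Tr := .c 0 r139 (.c 4 r140 .e)
noncomputable def q126 : Tr := .c 0 (.l 92) .e
noncomputable def r141 : Tr := .c 4 q83 (.c 5 q126 .e)
noncomputable def r142 : Tr := .c 0 q1 (.c 4 q83 .e)
noncomputable def t62 : Tr := .c 2 r141 (.c 7 r142 .e)
noncomputable def q127 : Tr := .c 0 (.l 93) .e
noncomputable def r143 : Tr := .c 5 q127 (.c 7 q127 .e)
noncomputable def t63 : Tr := .c 0 r143 .e
noncomputable def r144 : Tr := .c 7 q78 .e
noncomputable def t64 : Tr := .c 0 r144 (.c 4 r86 .e)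
noncomputable def q128 : Tr := .c 0 (.l 94) .e
noncomputable def r145 : Tr := .c 5 q128 .e
noncomputable def t65 : Tr := .c 4 r145 .e
noncomputable def r146 : Tr := .c 5 q127 .e
noncomputable def t66 : Tr := .c 0 r146 .e
noncomputable def q129 : Tr := .c 0 (.l 95) .e
noncomputable def r147 : Tr := .c 0 q59 (.c 5 q129 .e)
noncomputable def t67 : Tr := .c 6 r147 (.c 7 r142 .e)
noncomputable def q130 : Tr := .c 0 (.l 94) (.c 1 (.l 65) .e)
noncomputable def r148 : Tr := .c 2 q1 (.c 5 q128 (.c 7 q130 .e))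
noncomputable def t68 : Tr := .c 4 r148 .e
noncomputable def q131 : Tr := .c 1 (.l 96) .e
noncomputable def r149 : Tr := .c 4 q131 (.c 5 q105 .e)
noncomputable def r150 : Tr := .c 1 q24 (.c 5 q105 .e)
noncomputable def t69 : Tr := .c 2 r149 (.c 6 r150 .e)
noncomputable def r151 : Tr := .c 6 q100 .e
noncomputable def t70 : Tr := .c 1 r151 (.c 5 r111 .e)
noncomputable def q132 : Tr := .c 1 (.l 97) .e
noncomputable def r152 : Tr := .c 4 q132 (.c 6 q132 .e)
noncomputable def t71 : Tr := .c 1 r152 .e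
noncomputable def q133 : Tr := .c 1 (.l 98) .e
noncomputable def q134 : Tr := .c 0 (.l 99) (.c 1 (.l 100) (.c 3 (.l 99) (.c 4 (.l 99) .e)))
noncomputable def r153 : Tr := .c 4 q133 (.c 7 q134 .e)
noncomputable def q135 : Tr := .c 0 (.l 101) (.c 4 (.l 101) .e)
noncomputable def r154 : Tr := .c 4 q133 (.c 5 q135 .e)
noncomputable def q136 : Tr := .c 3 (.l 102) (.c 4 (.l 102) .e)
noncomputable def r155 : Tr := .c 2 q136 (.c 4 q133 .e)
noncomputable def q137 : Tr := .c 4 (.l 103) .e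
noncomputable def r156 : Tr := .c 1 q137 (.c 4 q133 .e)
noncomputable def t72 : Tr := .c 1 r153 (.c 2 r154 (.c 5 r155 (.c 7 r156 .e)))
noncomputable def q138 : Tr := .c 0 (.l 99) (.c 4 (.l 99) .e)
noncomputable def r157 : Tr := .c 7 q138 .e
noncomputable def q139 : Tr := .c 4 (.l 102) .e
noncomputable def r158 : Tr := .c 2 q139 .e
noncomputable def t73 : Tr := .c 1 r157 (.c 5 r158 .e)
noncomputable def q140 : Tr := .c 1 (.l 104) .e
noncomputable def q141 : Tr := .c 1 (.l 105) .e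
noncomputable def r159 : Tr := .c 4 q140 (.c 7 q141 .e)
noncomputable def t74 : Tr := .c 1 r159 .e
noncomputable def q142 : Tr := .c 1 (.l 106) .e
noncomputable def r160 : Tr := .c 4 q142 .e
noncomputable def t75 : Tr := .c 5 r160 .e
noncomputable def r161 : Tr := .c 4 q132 .e
noncomputable def t76 : Tr := .c 1 r161 .e
noncomputable def q143 : Tr := .c 1 (.l 107) .e
noncomputable def r162 : Tr := .c 1 q51 (.c 4 q143 .e)
noncomputable def t77 : Tr := .c 6 r150 (.c 7 r162 .e)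
noncomputable def q144 : Tr := .c 0 (.l 81) (.c 1 (.l 106) .e)
noncomputable def r163 : Tr := .c 2 q24 (.c 4 q142 (.c 6 q144 .e))
noncomputable def t78 : Tr := .c 5 r163 .e

/-- the diagram -/
noncomputable def T : Tr := (.c 0 (.c 5 (.c 0 t0 (.c 2 t1 (.c 4 t2 (.c 6 t3 .e)))) (.c 6 (.c 0 t4 (.c 1 t5 (.c 3 t6 (.c 5
t7 .e)))) (.c 7 (.c 0 t8 (.c 1 t9 (.c 4 t10 .e))) .e))) (.c 1 (.c 4 (.c 1 t11 (.c 2 t12 (.c 5
t13 (.c 7 t14 .e)))) (.c 6 (.c 0 t15 (.c 1 t16 (.c 5 t17 .e))) (.c 7 (.c 0 t18 (.c 1 t19 (.c 3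
t20 (.c 4 t21 .e)))) .e))) (.c 2 (.c 3 (.c 2 t22 (.c 6 t23 (.c 7 t24 .e))) (.c 4 (.c 1 t25 (.c
2 t26 (.c 5 t27 (.c 7 t28 .e)))) (.c 5 (.c 0 t29 (.c 2 t30 (.c 4 t31 (.c 6 t32 .e)))) .e))) (.c
3 (.c 2 (.c 4 t33 (.c 5 t34 .e)) (.c 6 (.c 0 t35 .e) (.c 7 (.c 1 t36 .e) .e))) (.c 4 (.c 1 (.c
4 t37 (.c 6 t38 (.c 7 t39 .e))) (.c 2 (.c 3 t40 (.c 4 t41 (.c 5 t42 .e))) (.c 5 (.c 0 t43 (.c 2
t44 (.c 4 t37 (.c 6 t38 .e)))) (.c 7 (.c 0 t45 (.c 1 t46 (.c 4 t47 .e))) .e)))) (.c 5 (.c 0 (.c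
5 t48 (.c 6 t49 (.c 7 t50 .e))) (.c 2 (.c 3 t51 (.c 4 t52 (.c 5 t53 .e))) (.c 4 (.c 1 t54 (.c 2
t55 (.c 5 t48 (.c 7 t50 .e)))) (.c 6 (.c 0 t56 (.c 1 t57 (.c 5 t58 .e))) .e)))) (.c 6 (.c 0 (.c
5 t59 (.c 6 t60 (.c 7 t61 .e))) (.c 1 (.c 4 t62 (.c 6 t63 (.c 7 t64 .e))) (.c 3 (.c 2 t65 (.c 6
t66 .e)) (.c 5 (.c 0 t67 (.c 2 t68 (.c 4 t62 (.c 6 t63 .e)))) .e)))) (.c 7 (.c 0 (.c 5 t69 (.c
6 t70 (.c 7 t71 .e))) (.c 1 (.c 4 t72 (.c 6 t73 (.c 7 t74 .e))) (.c 3 (.c 2 t75 (.c 7 t76 .e))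
(.c 4 (.c 1 t77 (.c 2 t78 (.c 5 t69 (.c 7 t71 .e)))) .e)))) .e))))))))

theorem k0 : chkQ0 D J R 108 T = true := by decide +kernel
theorem pr : Fast.preF D J 108 T = true := by decide +kernel
theorem c0 : csP D J T 0 = true := csP_of_csF pr (by decide +kernel)
theorem c1 : csP D J T 1 = true := csP_of_csF pr (by decide +kernel)
theorem c2 : csP D J T 2 = true := csP_of_csF pr (by decide +kernel)
theorem c3 : csP D J T 3 = true := csP_of_csF pr (by decide +kernel)
theorem c4 : csP D J T 4 = true := csP_of_csF pr (by decide +kernel)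
theorem c5 : csP D J T 5 = true := csP_of_csF pr (by decide +kernel)
theorem c6 : csP D J T 6 = true := csP_of_csF pr (by decide +kernel)
theorem c7 : csP D J T 7 = true := csP_of_csF pr (by decide +kernel)
theorem c8 : csP D J T 8 = true := csP_of_csF pr (by decide +kernel)
theorem c9 : csP D J T 9 = true := csP_of_csF pr (by decide +kernel)
theorem c10 : csP D J T 10 = true := csP_of_csF pr (by decide +kernel)
theorem c11 : csP D J T 11 = true := csP_of_csF pr (by decide +kernel)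
theorem c12 : csP D J T 12 = true := csP_of_csF pr (by decide +kernel)
theorem c13 : csP D J T 13 = true := csP_of_csF pr (by decide +kernel)
theorem c14 : csP D J T 14 = true := csP_of_csF pr (by decide +kernel)
theorem c15 : csP D J T 15 = true := csP_of_csF pr (by decide +kernel)
theorem c16 : csP D J T 16 = true := csP_of_csF pr (by decide +kernel)
theorem c17 : csP D J T 17 = true := csP_of_csF pr (by decide +kernel)
theorem c18 : csP D J T 18 = true := csP_of_csF pr (by decide +kernel)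
theorem c19 : csP D J T 19 = true := csP_of_csF pr (by decide +kernel)

theorem cs : ∀ p < D.N, csP D J T p = true := by
  intro p hp
  have hp : p < 20 := hp
  interval_cases p
  · exact c0
  · exact c1
  · exact c2
  · exact c3
  · exact c4
  · exact c5
  · exact c6
  · exact c7
  · exact c8
  · exact c9
  · exact c10
  · exact c11
  · exact c12
  · exact c13
  · exact c14
  · exact c15
  · exact c16
  · exact c17
  · exact c18
  · exact c19

/-- the box table -/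
theorem tab : BoxTab D := boxTab_of (by decide) (by decide) k0 cs

end F33t

end Vale.Agent.P032.Words.Trie
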