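import Vale.Agent.P032.H475.Fast

/-!
# Hexagons around a centre with six colours: box tables
-/

namespace Vale.Agent.P032.Words.Trie

/-! ### 01 02 03 12 14 25 34 35 45 (7|56: 56 never, 11|52: 52 never, 22|41: 41 never) -/

namespace F35_28

/-- the data -/
def D : Dat where
  A := 9
  N := 20
  nb := [480, 464, 312, 452, 166, 85, 43, 27, 15]
  op := [95, 175, 247, 315, 381, 446, 469, 486, 504]
  nbT := [524768, 393680, 360760, 16836, 536742, 150613, 74283, 35355, 5647, 934336, 893216, 602272,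
493840, 445520, 893480, 554116, 154692, 602658, 554502, 445969]
  opT := [523871, 655023, 687863, 1031995, 511869, 897982, 974293, 1013222, 1042936, 1048127, 1048287,
1048415, 1048303, 1048495, 1048535, 1048443, 1048507, 1048541, 1048569, 1048558]
  PL := [[0], [1], [2], [3], [4], [5], [6], [7], [8], [0, 1, 3], [0, 2], [0, 4], [1, 2], [1, 5], [2,
6], [3, 4], [3, 5], [4, 6], [4, 8], [5, 7]]
  L := [3, 5, 9, 6, 18, 36, 24, 40, 48]
  P := [3, 5, 9, 6, 18, 36, 24, 40, 48, 7, 11, 19, 13, 37, 25, 22, 38, 26, 50, 44]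
  r := 0
  tie := [0, 0, 0, 0, 0, 0, 0, 0, 0, 0, 0, 0, 0, 0, 0, 0, 0, 0, 0, 0]

/-- changes of the value at a tie -/
def J : List (List ℕ) := [[]]

/-- reachable values -/
def R : List (List ℕ) := [[1], [2], [4], [8], [0x10], [0x20], [0x40], [0x80], [0x100], [0x200], [0x400], [0x800],
[0x1000], [0x2000], [0x4000], [0x8000], [0x10000], [0x20000], [0x40000], [0x80000], [0x100000],
[0x200000], [0x400000], [0x800000], [0x1000000], [0x2000000], [0x4000000], [0x8000000],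
[0x10000000], [0x20000000], [0x40000000], [0x80000000], [0x100000000], [0x200000000],
[0x400000000], [0x800000000], [0x1000000000], [0x2000000000], [0x4000000000], [0x8000000000],
[0x10000000000], [0x20000000000], [0x40000000000], [0x80000000000], [0x100000000000],
[0x200000000000], [0x400000000000], [0x800000000000], [0x1000000000000], [0x2000000000000],
[0x4000000000000], [0x8000000000000], [0x10000000000000], [0x20000000000000],
[0x40000000000000], [0x80000000000000], [0x100000000000000], [0x200000000000000],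
[0x400000000000000]]

noncomputable def q0 : Tr := .c 6 (.l 0) .e
noncomputable def r0 : Tr := .c 1 q0 (.c 3 q0 (.c 5 q0 .e))
noncomputable def t0 : Tr := .c 6 r0 .e
noncomputable def q1 : Tr := .c 5 (.l 1) .e
noncomputable def r1 : Tr := .c 2 q1 .e
noncomputable def q2 : Tr := .c 6 (.l 0) (.c 7 (.l 2) .e)
noncomputable def r2 : Tr := .c 1 q2 (.c 2 q1 (.c 5 q0 .e))
noncomputable def t1 : Tr := .c 3 r1 (.c 4 r2 .e)
noncomputable def q3 : Tr := .c 5 (.l 3) .e
noncomputable def r3 : Tr := .c 4 q3 .e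
noncomputable def q4 : Tr := .c 6 (.l 0) (.c 8 (.l 0) .e)
noncomputable def r4 : Tr := .c 3 q4 (.c 4 q3 (.c 5 q0 .e))
noncomputable def t2 : Tr := .c 1 r3 (.c 2 r4 .e)
noncomputable def q5 : Tr := .c 6 (.l 4) .e
noncomputable def r5 : Tr := .c 5 q5 .e
noncomputable def q6 : Tr := .c 7 (.l 5) .e
noncomputable def r6 : Tr := .c 4 q6 .e
noncomputable def q7 : Tr := .c 8 (.l 6) .e
noncomputable def r7 : Tr := .c 2 q7 .e
noncomputable def t3 : Tr := .c 0 r5 (.c 1 r6 (.c 3 r7 .e))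
noncomputable def q8 : Tr := .c 6 (.l 7) .e
noncomputable def r8 : Tr := .c 0 q8 .e
noncomputable def t4 : Tr := .c 6 r8 .e
noncomputable def q9 : Tr := .c 5 (.l 8) .e
noncomputable def r9 : Tr := .c 2 q9 .e
noncomputable def q10 : Tr := .c 5 (.l 8) (.c 7 (.l 8) .e)
noncomputable def r10 : Tr := .c 0 q10 .e
noncomputable def t5 : Tr := .c 4 r9 (.c 6 r10 .e)
noncomputable def r11 : Tr := .c 4 q9 .e
noncomputable def q11 : Tr := .c 5 (.l 8) (.c 8 (.l 9) .e)
noncomputable def r12 : Tr := .c 0 q11 .e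
noncomputable def t6 : Tr := .c 2 r11 (.c 6 r12 .e)
noncomputable def q12 : Tr := .c 5 (.l 10) .e
noncomputable def r13 : Tr := .c 6 q12 .e
noncomputable def r14 : Tr := .c 4 q10 .e
noncomputable def r15 : Tr := .c 2 q11 .e
noncomputable def q13 : Tr := .c 5 (.l 8) (.c 7 (.l 8) (.c 8 (.l 9) .e))
noncomputable def r16 : Tr := .c 0 q13 .e
noncomputable def t7 : Tr := .c 0 r13 (.c 2 r14 (.c 4 r15 (.c 6 r16 .e)))
noncomputable def r17 : Tr := .c 1 q0 (.c 5 q0 .e)
noncomputable def t8 : Tr := .c 6 r17 .e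
noncomputable def q14 : Tr := .c 7 (.l 11) .e
noncomputable def q15 : Tr := .c 5 (.l 6) .e
noncomputable def r18 : Tr := .c 1 q14 (.c 2 q15 .e)
noncomputable def r19 : Tr := .c 1 q14 .e
noncomputable def t9 : Tr := .c 4 r18 (.c 6 r19 .e)
noncomputable def q16 : Tr := .c 8 (.l 0) .e
noncomputable def r20 : Tr := .c 1 q16 .e
noncomputable def t10 : Tr := .c 6 r20 .e
noncomputable def q17 : Tr := .c 5 (.l 12) .e
noncomputable def r21 : Tr := .c 6 q17 .e
noncomputable def r22 : Tr := .c 5 q0 .e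
noncomputable def t11 : Tr := .c 1 r21 (.c 2 r22 .e)
noncomputable def q18 : Tr := .c 6 (.l 9) .e
noncomputable def r23 : Tr := .c 3 q18 (.c 5 q18 .e)
noncomputable def t12 : Tr := .c 6 r23 .e
noncomputable def q19 : Tr := .c 7 (.l 8) .e
noncomputable def r24 : Tr := .c 3 q19 .e
noncomputable def t13 : Tr := .c 6 r24 .e
noncomputable def q20 : Tr := .c 5 (.l 2) .e
noncomputable def r25 : Tr := .c 6 q20 .e
noncomputable def r26 : Tr := .c 5 q18 .e
noncomputable def t14 : Tr := .c 3 r25 (.c 4 r26 .e)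
noncomputable def q21 : Tr := .c 8 (.l 13) .e
noncomputable def r27 : Tr := .c 3 q21 (.c 4 q9 .e)
noncomputable def r28 : Tr := .c 3 q21 .e
noncomputable def t15 : Tr := .c 2 r27 (.c 6 r28 .e)
noncomputable def q22 : Tr := .c 7 (.l 14) .e
noncomputable def r29 : Tr := .c 0 q22 (.c 3 q22 (.c 4 q22 .e))
noncomputable def t16 : Tr := .c 7 r29 .e
noncomputable def q23 : Tr := .c 4 (.l 15) .e
noncomputable def r30 : Tr := .c 2 q23 .e
noncomputable def q24 : Tr := .c 6 (.l 16) (.c 7 (.l 2) .e)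
noncomputable def q25 : Tr := .c 7 (.l 2) .e
noncomputable def r31 : Tr := .c 0 q24 (.c 2 q23 (.c 4 q25 .e))
noncomputable def t17 : Tr := .c 3 r30 (.c 5 r31 .e)
noncomputable def q26 : Tr := .c 4 (.l 9) .e
noncomputable def r32 : Tr := .c 5 q26 .e
noncomputable def q27 : Tr := .c 7 (.l 8) (.c 8 (.l 9) .e)
noncomputable def r33 : Tr := .c 3 q27 (.c 4 q19 (.c 5 q26 .e))
noncomputable def t18 : Tr := .c 0 r32 (.c 2 r33 .e)
noncomputable def q28 : Tr := .c 6 (.l 17) .e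
noncomputable def r34 : Tr := .c 5 q28 .e
noncomputable def q29 : Tr := .c 7 (.l 10) .e
noncomputable def r35 : Tr := .c 4 q29 .e
noncomputable def q30 : Tr := .c 8 (.l 9) .e
noncomputable def r36 : Tr := .c 2 q30 .e
noncomputable def t19 : Tr := .c 0 r34 (.c 1 r35 (.c 3 r36 .e))
noncomputable def q31 : Tr := .c 6 (.l 16) .e
noncomputable def q32 : Tr := .c 4 (.l 16) .e
noncomputable def r37 : Tr := .c 0 q31 (.c 2 q32 .e)
noncomputable def r38 : Tr := .c 0 q31 .e
noncomputable def t20 : Tr := .c 5 r37 (.c 7 r38 .e)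
noncomputable def r39 : Tr := .c 0 q22 (.c 4 q22 .e)
noncomputable def t21 : Tr := .c 7 r39 .e
noncomputable def q33 : Tr := .c 8 (.l 16) .e
noncomputable def r40 : Tr := .c 0 q33 .e
noncomputable def t22 : Tr := .c 7 r40 .e
noncomputable def q34 : Tr := .c 4 (.l 18) .e
noncomputable def r41 : Tr := .c 7 q34 .e
noncomputable def r42 : Tr := .c 4 q19 .e
noncomputable def t23 : Tr := .c 0 r41 (.c 2 r42 .e)
noncomputable def q35 : Tr := .c 4 (.l 6) .e
noncomputable def r43 : Tr := .c 2 q35 .e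
noncomputable def q36 : Tr := .c 4 (.l 19) (.c 6 (.l 19) .e)
noncomputable def r44 : Tr := .c 1 q36 .e
noncomputable def t24 : Tr := .c 5 r43 (.c 7 r44 .e)
noncomputable def q37 : Tr := .c 7 (.l 20) .e
noncomputable def r45 : Tr := .c 1 q37 .e
noncomputable def t25 : Tr := .c 7 r45 .e
noncomputable def q38 : Tr := .c 4 (.l 0) .e
noncomputable def r46 : Tr := .c 5 q38 .e
noncomputable def q39 : Tr := .c 4 (.l 19) (.c 8 (.l 19) .e)
noncomputable def r47 : Tr := .c 1 q39 .e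
noncomputable def t26 : Tr := .c 2 r46 (.c 7 r47 .e)
noncomputable def q40 : Tr := .c 4 (.l 4) .e
noncomputable def r48 : Tr := .c 7 q40 .e
noncomputable def q41 : Tr := .c 4 (.l 0) (.c 6 (.l 0) .e)
noncomputable def r49 : Tr := .c 5 q41 .e
noncomputable def q42 : Tr := .c 4 (.l 6) (.c 8 (.l 6) .e)
noncomputable def r50 : Tr := .c 2 q42 .e
noncomputable def q43 : Tr := .c 4 (.l 19) (.c 6 (.l 19) (.c 8 (.l 19) .e))
noncomputable def r51 : Tr := .c 1 q43 .e
noncomputable def t27 : Tr := .c 1 r48 (.c 2 r49 (.c 5 r50 (.c 7 r51 .e)))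
noncomputable def r52 : Tr := .c 3 q31 .e
noncomputable def t28 : Tr := .c 7 r52 .e
noncomputable def r53 : Tr := .c 3 q22 (.c 4 q22 .e)
noncomputable def t29 : Tr := .c 7 r53 .e
noncomputable def r54 : Tr := .c 7 q26 .e
noncomputable def r55 : Tr := .c 4 q25 .e
noncomputable def t30 : Tr := .c 3 r54 (.c 5 r55 .e)
noncomputable def r56 : Tr := .c 3 q21 (.c 5 q26 .e)
noncomputable def q44 : Tr := .c 8 (.l 21) .e
noncomputable def r57 : Tr := .c 3 q44 .e
noncomputable def t31 : Tr := .c 2 r56 (.c 7 r57 .e)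
noncomputable def r58 : Tr := .c 1 q35 (.c 5 q35 .e)
noncomputable def q45 : Tr := .c 5 (.l 5) .e
noncomputable def r59 : Tr := .c 0 q45 (.c 4 q45 .e)
noncomputable def t32 : Tr := .c 4 r58 (.c 5 r59 .e)
noncomputable def q46 : Tr := .c 8 (.l 15) .e
noncomputable def r60 : Tr := .c 0 q46 .e
noncomputable def t33 : Tr := .c 0 r46 (.c 5 r60 .e)
noncomputable def r61 : Tr := .c 1 q30 .e
noncomputable def t34 : Tr := .c 1 r11 (.c 4 r61 .e)
noncomputable def q47 : Tr := .c 3 (.l 22) .e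
noncomputable def r62 : Tr := .c 5 q38 (.c 8 q47 .e)
noncomputable def r63 : Tr := .c 4 q3 (.c 8 q47 .e)
noncomputable def q48 : Tr := .c 8 (.l 23) .e
noncomputable def r64 : Tr := .c 3 q48 (.c 4 q3 (.c 5 q38 (.c 8 q47 .e)))
noncomputable def t35 : Tr := .c 0 r62 (.c 1 r63 (.c 2 r64 .e))
noncomputable def q49 : Tr := .c 3 (.l 2) (.c 5 (.l 2) .e)
noncomputable def r65 : Tr := .c 2 q49 .e
noncomputable def r66 : Tr := .c 0 q9 .e
noncomputable def q50 : Tr := .c 5 (.l 15) .e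
noncomputable def r67 : Tr := .c 0 q50 (.c 4 q50 .e)
noncomputable def t36 : Tr := .c 4 r65 (.c 6 r66 (.c 7 r67 .e))
noncomputable def q51 : Tr := .c 4 (.l 24) (.c 5 (.l 2) .e)
noncomputable def r68 : Tr := .c 2 q51 (.c 5 q35 .e)
noncomputable def q52 : Tr := .c 4 (.l 15) (.c 5 (.l 5) .e)
noncomputable def r69 : Tr := .c 0 q45 (.c 2 q52 (.c 4 q45 (.c 6 q45 .e)))
noncomputable def t37 : Tr := .c 4 r68 (.c 5 r69 .e)
noncomputable def q53 : Tr := .c 3 (.l 8) (.c 5 (.l 8) .e)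
noncomputable def q54 : Tr := .c 3 (.l 8) .e
noncomputable def r70 : Tr := .c 5 q26 (.c 6 q53 (.c 8 q54 .e))
noncomputable def r71 : Tr := .c 3 q30 (.c 4 q9 (.c 5 q26 (.c 8 q54 .e)))
noncomputable def q55 : Tr := .c 3 (.l 2) (.c 4 (.l 2) (.c 5 (.l 2) (.c 8 (.l 2) .e)))
noncomputable def r72 : Tr := .c 2 q55 (.c 5 q26 .e)
noncomputable def r73 : Tr := .c 0 q11 (.c 3 q30 (.c 5 q26 .e))
noncomputable def t38 : Tr := .c 0 r70 (.c 2 r71 (.c 4 r72 (.c 6 r73 .e)))
noncomputable def r74 : Tr := .c 6 q9 .e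
noncomputable def r75 : Tr := .c 4 q9 (.c 6 q9 .e)
noncomputable def q56 : Tr := .c 5 (.l 2) (.c 8 (.l 2) .e)
noncomputable def r76 : Tr := .c 2 q56 .e
noncomputable def t39 : Tr := .c 0 r74 (.c 1 r75 (.c 4 r76 .e))
noncomputable def q57 : Tr := .c 3 (.l 12) (.c 4 (.l 12) .e)
noncomputable def r77 : Tr := .c 2 q57 .e
noncomputable def r78 : Tr := .c 1 q38 (.c 5 q38 .e)
noncomputable def r79 : Tr := .c 1 q23 .e
noncomputable def t40 : Tr := .c 5 r77 (.c 6 r78 (.c 7 r79 .e))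
noncomputable def q58 : Tr := .c 4 (.l 6) (.c 5 (.l 1) .e)
noncomputable def r80 : Tr := .c 1 q35 (.c 2 q58 (.c 5 q35 (.c 7 q35 .e)))
noncomputable def q59 : Tr := .c 4 (.l 12) (.c 5 (.l 25) .e)
noncomputable def r81 : Tr := .c 2 q59 (.c 4 q45 .e)
noncomputable def t41 : Tr := .c 4 r80 (.c 5 r81 .e)
noncomputable def q60 : Tr := .c 3 (.l 0) (.c 4 (.l 0) .e)
noncomputable def q61 : Tr := .c 3 (.l 3) .e
noncomputable def r82 : Tr := .c 4 q3 (.c 7 q60 (.c 8 q61 .e))
noncomputable def r83 : Tr := .c 3 q16 (.c 4 q3 (.c 5 q38 (.c 8 q61 .e)))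
noncomputable def q62 : Tr := .c 3 (.l 12) (.c 4 (.l 12) (.c 5 (.l 12) (.c 8 (.l 12) .e)))
noncomputable def r84 : Tr := .c 2 q62 (.c 4 q3 .e)
noncomputable def q63 : Tr := .c 4 (.l 15) (.c 8 (.l 15) .e)
noncomputable def r85 : Tr := .c 1 q63 (.c 3 q46 (.c 4 q3 .e))
noncomputable def t42 : Tr := .c 1 r82 (.c 2 r83 (.c 5 r84 (.c 7 r85 .e)))
noncomputable def r86 : Tr := .c 5 q38 (.c 7 q38 .e)
noncomputable def r87 : Tr := .c 7 q38 .e
noncomputable def q64 : Tr := .c 4 (.l 12) (.c 8 (.l 12) .e)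
noncomputable def r88 : Tr := .c 2 q64 .e
noncomputable def t43 : Tr := .c 0 r86 (.c 1 r87 (.c 5 r88 .e))
noncomputable def q65 : Tr := .c 3 (.l 15) .e
noncomputable def r89 : Tr := .c 6 q65 .e
noncomputable def t44 : Tr := .c 5 r89 (.c 6 r32 .e)
noncomputable def q66 : Tr := .c 3 (.l 9) .e
noncomputable def r90 : Tr := .c 7 q66 .e
noncomputable def r91 : Tr := .c 4 q50 .e
noncomputable def t45 : Tr := .c 4 r90 (.c 7 r91 .e)
noncomputable def r92 : Tr := .c 5 q35 (.c 7 q35 .e)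
noncomputable def r93 : Tr := .c 4 q45 (.c 6 q45 .e)
noncomputable def t46 : Tr := .c 4 r92 (.c 5 r93 .e)
noncomputable def q67 : Tr := .c 3 (.l 26) .e
noncomputable def r94 : Tr := .c 3 q21 (.c 4 q9 (.c 5 q26 (.c 8 q67 .e)))
noncomputable def r95 : Tr := .c 3 q44 (.c 4 q50 .e)
noncomputable def t47 : Tr := .c 2 r94 (.c 6 r56 (.c 7 r95 .e))
noncomputable def q68 : Tr := .c 8 (.l 27) .e
noncomputable def r96 : Tr := .c 0 q68 (.c 1 q68 (.c 2 q68 .e))
noncomputable def t48 : Tr := .c 8 r96 .e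
noncomputable def q69 : Tr := .c 2 (.l 28) .e
noncomputable def r97 : Tr := .c 4 q69 .e
noncomputable def q70 : Tr := .c 6 (.l 16) (.c 8 (.l 16) .e)
noncomputable def r98 : Tr := .c 0 q70 (.c 2 q33 (.c 4 q69 .e))
noncomputable def t49 : Tr := .c 1 r97 (.c 5 r98 .e)
noncomputable def q71 : Tr := .c 2 (.l 29) .e
noncomputable def r99 : Tr := .c 5 q71 .e
noncomputable def r100 : Tr := .c 1 q27 (.c 2 q30 (.c 5 q71 .e))
noncomputable def t50 : Tr := .c 0 r99 (.c 4 r100 .e)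
noncomputable def q72 : Tr := .c 6 (.l 30) .e
noncomputable def r101 : Tr := .c 5 q72 .e
noncomputable def q73 : Tr := .c 7 (.l 3) .e
noncomputable def r102 : Tr := .c 4 q73 .e
noncomputable def q74 : Tr := .c 8 (.l 31) .e
noncomputable def r103 : Tr := .c 2 q74 .e
noncomputable def t51 : Tr := .c 0 r101 (.c 1 r102 (.c 3 r103 .e))
noncomputable def q75 : Tr := .c 2 (.l 16) .e
noncomputable def r104 : Tr := .c 0 q31 (.c 4 q75 .e)
noncomputable def r105 : Tr := .c 0 q18 .e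
noncomputable def t52 : Tr := .c 5 r104 (.c 8 r105 .e)
noncomputable def r106 : Tr := .c 0 q19 .e
noncomputable def t53 : Tr := .c 8 r106 .e
noncomputable def r107 : Tr := .c 0 q68 (.c 2 q68 .e)
noncomputable def t54 : Tr := .c 8 r107 .e
noncomputable def q76 : Tr := .c 2 (.l 32) .e
noncomputable def r108 : Tr := .c 8 q76 .e
noncomputable def t55 : Tr := .c 0 r108 (.c 4 r36 .e)
noncomputable def r109 : Tr := .c 1 q0 .e
noncomputable def t56 : Tr := .c 8 r109 .e
noncomputable def q77 : Tr := .c 2 (.l 0) .e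
noncomputable def r110 : Tr := .c 1 q14 (.c 5 q77 .e)
noncomputable def t57 : Tr := .c 4 r110 (.c 8 r19 .e)
noncomputable def q78 : Tr := .c 8 (.l 33) .e
noncomputable def r111 : Tr := .c 1 q78 (.c 2 q78 .e)
noncomputable def t58 : Tr := .c 8 r111 .e
noncomputable def q79 : Tr := .c 2 (.l 3) .e
noncomputable def r112 : Tr := .c 8 q79 .e
noncomputable def t59 : Tr := .c 1 r112 (.c 5 r7 .e)
noncomputable def r113 : Tr := .c 4 q75 .e
noncomputable def q80 : Tr := .c 2 (.l 34) (.c 6 (.l 34) .e)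
noncomputable def r114 : Tr := .c 3 q80 .e
noncomputable def t60 : Tr := .c 5 r113 (.c 8 r114 .e)
noncomputable def q81 : Tr := .c 2 (.l 9) .e
noncomputable def r115 : Tr := .c 5 q81 .e
noncomputable def q82 : Tr := .c 2 (.l 34) (.c 7 (.l 35) .e)
noncomputable def r116 : Tr := .c 3 q82 .e
noncomputable def t61 : Tr := .c 4 r115 (.c 8 r116 .e)
noncomputable def q83 : Tr := .c 2 (.l 36) .e
noncomputable def r117 : Tr := .c 8 q83 .e
noncomputable def q84 : Tr := .c 2 (.l 9) (.c 6 (.l 9) .e)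
noncomputable def r118 : Tr := .c 5 q84 .e
noncomputable def q85 : Tr := .c 2 (.l 16) (.c 7 (.l 2) .e)
noncomputable def r119 : Tr := .c 4 q85 .e
noncomputable def q86 : Tr := .c 2 (.l 34) (.c 6 (.l 34) (.c 7 (.l 35) .e))
noncomputable def r120 : Tr := .c 3 q86 .e
noncomputable def t62 : Tr := .c 3 r117 (.c 4 r118 (.c 5 r119 (.c 8 r120 .e)))
noncomputable def q87 : Tr := .c 8 (.l 37) .e
noncomputable def r121 : Tr := .c 3 q87 .e
noncomputable def t63 : Tr := .c 8 r121 .e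
noncomputable def q88 : Tr := .c 2 (.l 30) .e
noncomputable def r122 : Tr := .c 3 q88 (.c 5 q88 .e)
noncomputable def r123 : Tr := .c 0 q3 (.c 2 q3 .e)
noncomputable def t64 : Tr := .c 2 r122 (.c 5 r123 .e)
noncomputable def r124 : Tr := .c 5 q77 .e
noncomputable def q89 : Tr := .c 7 (.l 1) .e
noncomputable def r125 : Tr := .c 0 q89 .e
noncomputable def t65 : Tr := .c 0 r124 (.c 5 r125 .e)
noncomputable def q90 : Tr := .c 1 (.l 38) .e
noncomputable def r126 : Tr := .c 5 q76 (.c 7 q90 .e)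
noncomputable def r127 : Tr := .c 2 q9 (.c 7 q90 .e)
noncomputable def q91 : Tr := .c 7 (.l 39) .e
noncomputable def r128 : Tr := .c 1 q91 (.c 2 q9 (.c 5 q76 (.c 7 q90 .e)))
noncomputable def t66 : Tr := .c 0 r126 (.c 3 r127 (.c 4 r128 .e))
noncomputable def r129 : Tr := .c 3 q73 .e
noncomputable def r130 : Tr := .c 2 q3 .e
noncomputable def t67 : Tr := .c 2 r129 (.c 3 r130 .e)
noncomputable def q92 : Tr := .c 1 (.l 32) (.c 5 (.l 32) .e)
noncomputable def r131 : Tr := .c 4 q92 .e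
noncomputable def r132 : Tr := .c 0 q9 (.c 2 q9 .e)
noncomputable def t68 : Tr := .c 2 r131 (.c 6 r66 (.c 8 r132 .e))
noncomputable def q93 : Tr := .c 2 (.l 40) (.c 5 (.l 32) .e)
noncomputable def r133 : Tr := .c 4 q93 (.c 5 q88 .e)
noncomputable def q94 : Tr := .c 2 (.l 28) (.c 5 (.l 3) .e)
noncomputable def r134 : Tr := .c 0 q3 (.c 2 q3 (.c 4 q94 (.c 6 q3 .e)))
noncomputable def t69 : Tr := .c 2 r133 (.c 5 r134 .e)
noncomputable def q95 : Tr := .c 1 (.l 8) (.c 5 (.l 8) .e)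
noncomputable def q96 : Tr := .c 1 (.l 30) .e
noncomputable def r135 : Tr := .c 5 q71 (.c 6 q95 (.c 7 q96 .e))
noncomputable def q97 : Tr := .c 1 (.l 32) (.c 2 (.l 32) (.c 5 (.l 32) (.c 7 (.l 32) .e)))
noncomputable def r136 : Tr := .c 4 q97 (.c 5 q71 .e)
noncomputable def r137 : Tr := .c 1 q19 (.c 2 q9 (.c 5 q71 (.c 7 q96 .e)))
noncomputable def r138 : Tr := .c 0 q10 (.c 1 q19 (.c 5 q71 .e))
noncomputable def t70 : Tr := .c 0 r135 (.c 2 r136 (.c 4 r137 (.c 6 r138 .e)))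
noncomputable def r139 : Tr := .c 6 q3 .e
noncomputable def q98 : Tr := .c 5 (.l 32) (.c 7 (.l 32) .e)
noncomputable def r140 : Tr := .c 4 q98 .e
noncomputable def r141 : Tr := .c 2 q3 (.c 6 q3 .e)
noncomputable def t71 : Tr := .c 0 r139 (.c 2 r140 (.c 3 r141 .e))
noncomputable def q99 : Tr := .c 1 (.l 3) (.c 2 (.l 3) .e)
noncomputable def r142 : Tr := .c 4 q99 .e
noncomputable def r143 : Tr := .c 3 q77 (.c 5 q77 .e)
noncomputable def r144 : Tr := .c 3 q77 .e
noncomputable def t72 : Tr := .c 5 r142 (.c 6 r143 (.c 8 r144 .e))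
noncomputable def q100 : Tr := .c 1 (.l 0) .e
noncomputable def r145 : Tr := .c 2 q1 (.c 7 q100 (.c 8 q99 .e))
noncomputable def r146 : Tr := .c 1 q25 (.c 2 q1 (.c 5 q77 (.c 7 q100 .e)))
noncomputable def q101 : Tr := .c 1 (.l 3) (.c 2 (.l 3) (.c 5 (.l 3) (.c 7 (.l 3) .e)))
noncomputable def r147 : Tr := .c 2 q1 (.c 4 q101 .e)
noncomputable def q102 : Tr := .c 2 (.l 0) (.c 7 (.l 2) .e)
noncomputable def r148 : Tr := .c 1 q25 (.c 2 q1 (.c 3 q102 .e))
noncomputable def t73 : Tr := .c 3 r145 (.c 4 r146 (.c 5 r147 (.c 8 r148 .e)))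
noncomputable def q103 : Tr := .c 2 (.l 30) (.c 5 (.l 3) .e)
noncomputable def r149 : Tr := .c 3 q88 (.c 4 q103 (.c 5 q88 (.c 8 q88 .e)))
noncomputable def q104 : Tr := .c 2 (.l 3) (.c 5 (.l 41) .e)
noncomputable def r150 : Tr := .c 2 q3 (.c 4 q104 .e)
noncomputable def t74 : Tr := .c 2 r149 (.c 5 r150 .e)
noncomputable def r151 : Tr := .c 5 q77 (.c 8 q79 .e)
noncomputable def q105 : Tr := .c 2 (.l 3) (.c 7 (.l 3) .e)
noncomputable def r152 : Tr := .c 4 q105 .e
noncomputable def t75 : Tr := .c 0 r151 (.c 3 r112 (.c 5 r152 .e))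
noncomputable def q106 : Tr := .c 1 (.l 1) .e
noncomputable def r153 : Tr := .c 6 q106 .e
noncomputable def t76 : Tr := .c 5 r153 (.c 6 r124 .e)
noncomputable def q107 : Tr := .c 1 (.l 42) .e
noncomputable def r154 : Tr := .c 1 q14 (.c 2 q15 (.c 5 q77 (.c 7 q107 .e)))
noncomputable def t77 : Tr := .c 4 r154 (.c 6 r110 (.c 8 r18 .e))
noncomputable def q108 : Tr := .c 1 (.l 3) .e
noncomputable def r155 : Tr := .c 8 q108 .e
noncomputable def r156 : Tr := .c 2 q15 .e
noncomputable def t78 : Tr := .c 2 r155 (.c 8 r156 .e)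
noncomputable def r157 : Tr := .c 5 q88 (.c 8 q88 .e)
noncomputable def t79 : Tr := .c 2 r157 (.c 5 r141 .e)
noncomputable def q109 : Tr := .c 2 (.l 17) .e
noncomputable def r158 : Tr := .c 3 q109 (.c 4 q109 .e)
noncomputable def r159 : Tr := .c 1 q26 (.c 2 q26 .e)
noncomputable def t80 : Tr := .c 2 r158 (.c 4 r159 .e)
noncomputable def q110 : Tr := .c 0 (.l 16) .e
noncomputable def r160 : Tr := .c 4 q75 (.c 6 q110 .e)
noncomputable def r161 : Tr := .c 2 q32 (.c 6 q110 .e)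
noncomputable def q111 : Tr := .c 6 (.l 43) .e
noncomputable def r162 : Tr := .c 0 q111 (.c 2 q32 (.c 4 q75 (.c 6 q110 .e)))
noncomputable def t81 : Tr := .c 1 r160 (.c 3 r161 (.c 5 r162 .e))
noncomputable def r163 : Tr := .c 4 q76 .e
noncomputable def q112 : Tr := .c 6 (.l 29) .e
noncomputable def r164 : Tr := .c 1 q112 .e
noncomputable def t82 : Tr := .c 1 r163 (.c 4 r164 .e)
noncomputable def q113 : Tr := .c 6 (.l 28) .e
noncomputable def r165 : Tr := .c 3 q113 .e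
noncomputable def r166 : Tr := .c 2 q32 .e
noncomputable def t83 : Tr := .c 2 r165 (.c 3 r166 .e)
noncomputable def q114 : Tr := .c 0 (.l 18) (.c 4 (.l 18) .e)
noncomputable def r167 : Tr := .c 5 q114 .e
noncomputable def r168 : Tr := .c 1 q32 .e
noncomputable def t84 : Tr := .c 2 r167 (.c 7 r168 (.c 8 r159 .e))
noncomputable def q115 : Tr := .c 0 (.l 30) (.c 4 (.l 30) .e)
noncomputable def r169 : Tr := .c 4 q69 (.c 6 q110 (.c 7 q115 .e))
noncomputable def q116 : Tr := .c 0 (.l 18) (.c 2 (.l 18) (.c 4 (.l 18) (.c 6 (.l 18) .e)))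
noncomputable def r170 : Tr := .c 4 q69 (.c 5 q116 .e)
noncomputable def r171 : Tr := .c 0 q31 (.c 2 q32 (.c 4 q69 (.c 6 q110 .e)))
noncomputable def q117 : Tr := .c 4 (.l 16) (.c 6 (.l 16) .e)
noncomputable def r172 : Tr := .c 0 q31 (.c 1 q117 (.c 4 q69 .e))
noncomputable def t85 : Tr := .c 1 r169 (.c 2 r170 (.c 5 r171 (.c 7 r172 .e)))
noncomputable def q118 : Tr := .c 2 (.l 44) (.c 4 (.l 18) .e)
noncomputable def r173 : Tr := .c 4 q109 (.c 5 q118 .e)
noncomputable def q119 : Tr := .c 2 (.l 29) (.c 4 (.l 9) .e)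
noncomputable def r174 : Tr := .c 1 q26 (.c 2 q26 (.c 5 q119 (.c 7 q26 .e)))
noncomputable def t86 : Tr := .c 2 r173 (.c 4 r174 .e)
noncomputable def q120 : Tr := .c 4 (.l 30) .e
noncomputable def r175 : Tr := .c 7 q120 .e
noncomputable def q121 : Tr := .c 4 (.l 18) (.c 6 (.l 18) .e)
noncomputable def r176 : Tr := .c 5 q121 .e
noncomputable def r177 : Tr := .c 2 q32 (.c 7 q120 .e)
noncomputable def t87 : Tr := .c 1 r175 (.c 2 r176 (.c 3 r177 .e))
noncomputable def q122 : Tr := .c 0 (.l 9) (.c 2 (.l 9) .e)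
noncomputable def r178 : Tr := .c 5 q122 .e
noncomputable def r179 : Tr := .c 3 q75 (.c 4 q75 .e)
noncomputable def r180 : Tr := .c 3 q81 .e
noncomputable def t88 : Tr := .c 4 r178 (.c 7 r179 (.c 8 r180 .e))
noncomputable def q123 : Tr := .c 0 (.l 16) (.c 2 (.l 16) .e)
noncomputable def r181 : Tr := .c 2 q23 (.c 6 q110 (.c 8 q123 .e))
noncomputable def q124 : Tr := .c 0 (.l 9) (.c 2 (.l 9) (.c 4 (.l 9) (.c 6 (.l 9) .e)))
noncomputable def r182 : Tr := .c 2 q23 (.c 5 q124 .e)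
noncomputable def r183 : Tr := .c 0 q31 (.c 2 q23 (.c 4 q75 (.c 6 q110 .e)))
noncomputable def r184 : Tr := .c 0 q18 (.c 2 q23 (.c 3 q84 .e))
noncomputable def t89 : Tr := .c 3 r181 (.c 4 r182 (.c 5 r183 (.c 8 r184 .e)))
noncomputable def q125 : Tr := .c 2 (.l 17) (.c 4 (.l 9) .e)
noncomputable def r185 : Tr := .c 3 q109 (.c 4 q109 (.c 5 q125 (.c 8 q109 .e)))
noncomputable def q126 : Tr := .c 2 (.l 9) (.c 4 (.l 45) .e)
noncomputable def r186 : Tr := .c 2 q26 (.c 5 q126 .e)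
noncomputable def t90 : Tr := .c 2 r185 (.c 4 r186 .e)
noncomputable def r187 : Tr := .c 4 q76 (.c 8 q76 .e)
noncomputable def t91 : Tr := .c 1 r187 (.c 3 r108 (.c 4 r118 .e))
noncomputable def q127 : Tr := .c 0 (.l 46) .e
noncomputable def r188 : Tr := .c 0 q31 (.c 2 q32 (.c 4 q75 (.c 6 q127 .e)))
noncomputable def r189 : Tr := .c 0 q18 (.c 2 q26 .e)
noncomputable def t92 : Tr := .c 5 r188 (.c 7 r104 (.c 8 r189 .e))
noncomputable def q128 : Tr := .c 0 (.l 29) .e
noncomputable def r190 : Tr := .c 7 q128 .e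
noncomputable def t93 : Tr := .c 4 r190 (.c 7 r113 .e)
noncomputable def q129 : Tr := .c 0 (.l 28) .e
noncomputable def r191 : Tr := .c 8 q129 .e
noncomputable def r192 : Tr := .c 2 q26 .e
noncomputable def t94 : Tr := .c 2 r191 (.c 8 r192 .e)
noncomputable def r193 : Tr := .c 4 q109 (.c 8 q109 .e)
noncomputable def r194 : Tr := .c 2 q26 (.c 7 q26 .e)
noncomputable def t95 : Tr := .c 2 r193 (.c 4 r194 .e)
noncomputable def q130 : Tr := .c 1 (.l 8) (.c 3 (.l 8) (.c 5 (.l 8) .e))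
noncomputable def r195 : Tr := .c 6 q130 .e
noncomputable def r196 : Tr := .c 4 q95 .e
noncomputable def r197 : Tr := .c 2 q53 .e
noncomputable def q131 : Tr := .c 5 (.l 39) .e
noncomputable def r198 : Tr := .c 0 q131 .e
noncomputable def t96 : Tr := .c 0 r195 (.c 2 r196 (.c 4 r197 (.c 6 r198 .e)))
noncomputable def q132 : Tr := .c 0 (.l 47) .e
noncomputable def r199 : Tr := .c 6 q132 .e
noncomputable def t97 : Tr := .c 0 r199 .e
noncomputable def r200 : Tr := .c 6 q95 .e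
noncomputable def t98 : Tr := .c 0 r200 (.c 4 r9 .e)
noncomputable def q133 : Tr := .c 3 (.l 3) (.c 5 (.l 3) .e)
noncomputable def r201 : Tr := .c 6 q133 .e
noncomputable def t99 : Tr := .c 0 r201 (.c 2 r3 .e)
noncomputable def q134 : Tr := .c 0 (.l 0) .e
noncomputable def r202 : Tr := .c 5 q134 .e
noncomputable def r203 : Tr := .c 0 q17 .e
noncomputable def t100 : Tr := .c 2 r202 (.c 7 r203 .e)
noncomputable def r204 : Tr := .c 5 q134 (.c 7 q134 .e)
noncomputable def t101 : Tr := .c 0 r204 .e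
noncomputable def r205 : Tr := .c 7 q90 .e
noncomputable def t102 : Tr := .c 0 r205 (.c 4 r127 .e)
noncomputable def q135 : Tr := .c 3 (.l 0) .e
noncomputable def r206 : Tr := .c 7 q135 .e
noncomputable def t103 : Tr := .c 0 r206 .e
noncomputable def r207 : Tr := .c 0 q20 .e
noncomputable def t104 : Tr := .c 4 r202 (.c 8 r207 .e)
noncomputable def q136 : Tr := .c 0 (.l 3) .e
noncomputable def r208 : Tr := .c 5 q134 (.c 8 q136 .e)
noncomputable def t105 : Tr := .c 0 r208 .e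
noncomputable def q137 : Tr := .c 1 (.l 8) .e
noncomputable def r209 : Tr := .c 8 q137 .e
noncomputable def t106 : Tr := .c 0 r209 .e
noncomputable def r210 : Tr := .c 8 q47 .e
noncomputable def t107 : Tr := .c 0 r210 (.c 2 r63 .e)
noncomputable def q138 : Tr := .c 0 (.l 42) .e
noncomputable def r211 : Tr := .c 5 q138 .e
noncomputable def q139 : Tr := .c 1 (.l 5) .e
noncomputable def r212 : Tr := .c 4 q139 .e
noncomputable def q140 : Tr := .c 3 (.l 6) .e
noncomputable def r213 : Tr := .c 2 q140 .e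
noncomputable def t108 : Tr := .c 6 r211 (.c 7 r212 (.c 8 r213 .e))
noncomputable def q141 : Tr := .c 0 (.l 0) (.c 1 (.l 0) .e)
noncomputable def r214 : Tr := .c 2 q1 (.c 5 q134 (.c 7 q141 .e))
noncomputable def t109 : Tr := .c 4 r214 (.c 8 r1 .e)
noncomputable def q142 : Tr := .c 0 (.l 3) (.c 3 (.l 3) .e)
noncomputable def r215 : Tr := .c 4 q3 (.c 5 q134 (.c 8 q142 .e))
noncomputable def t110 : Tr := .c 2 r215 (.c 7 r3 .e)
noncomputable def r216 : Tr := .c 5 q134 (.c 7 q134 (.c 8 q136 .e))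
noncomputable def t111 : Tr := .c 0 r216 .e
noncomputable def q143 : Tr := .c 1 (.l 28) .e
noncomputable def r217 : Tr := .c 4 q143 .e
noncomputable def r218 : Tr := .c 1 q34 .e
noncomputable def t112 : Tr := .c 2 r217 (.c 6 r218 .e)
noncomputable def r219 : Tr := .c 6 q110 .e
noncomputable def t113 : Tr := .c 1 r219 (.c 5 r161 .e)
noncomputable def q144 : Tr := .c 1 (.l 48) .e
noncomputable def r220 : Tr := .c 4 q144 (.c 6 q144 .e)
noncomputable def t114 : Tr := .c 1 r220 .e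
noncomputable def q145 : Tr := .c 3 (.l 16) .e
noncomputable def r221 : Tr := .c 6 q145 .e
noncomputable def t115 : Tr := .c 1 r221 .e
noncomputable def q146 : Tr := .c 0 (.l 49) (.c 3 (.l 49) (.c 4 (.l 49) .e))
noncomputable def r222 : Tr := .c 7 q146 .e
noncomputable def q147 : Tr := .c 0 (.l 28) (.c 4 (.l 28) .e)
noncomputable def r223 : Tr := .c 5 q147 .e
noncomputable def q148 : Tr := .c 3 (.l 16) (.c 4 (.l 16) .e)
noncomputable def r224 : Tr := .c 2 q148 .e
noncomputable def q149 : Tr := .c 4 (.l 43) .e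
noncomputable def r225 : Tr := .c 1 q149 .e
noncomputable def t116 : Tr := .c 1 r222 (.c 2 r223 (.c 5 r224 (.c 7 r225 .e)))
noncomputable def q150 : Tr := .c 0 (.l 49) (.c 4 (.l 49) .e)
noncomputable def r226 : Tr := .c 7 q150 .e
noncomputable def t117 : Tr := .c 1 r226 (.c 5 r166 .e)
noncomputable def q151 : Tr := .c 1 (.l 50) .e
noncomputable def r227 : Tr := .c 7 q151 .e
noncomputable def t118 : Tr := .c 1 r227 .e
noncomputable def q152 : Tr := .c 3 (.l 49) (.c 4 (.l 49) .e)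
noncomputable def r228 : Tr := .c 7 q152 .e
noncomputable def q153 : Tr := .c 4 (.l 28) .e
noncomputable def r229 : Tr := .c 5 q153 .e
noncomputable def t119 : Tr := .c 1 r228 (.c 2 r229 .e)
noncomputable def q154 : Tr := .c 1 (.l 16) .e
noncomputable def r230 : Tr := .c 4 q154 .e
noncomputable def r231 : Tr := .c 1 q26 .e
noncomputable def t120 : Tr := .c 5 r230 (.c 8 r231 .e)
noncomputable def r232 : Tr := .c 8 q110 .e
noncomputable def t121 : Tr := .c 1 r232 .e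
noncomputable def r233 : Tr := .c 4 q144 (.c 8 q144 .e)
noncomputable def t122 : Tr := .c 1 r233 .e
noncomputable def q155 : Tr := .c 3 (.l 51) .e
noncomputable def r234 : Tr := .c 8 q155 .e
noncomputable def r235 : Tr := .c 5 q153 (.c 8 q155 .e)
noncomputable def t123 : Tr := .c 1 r234 (.c 2 r235 .e)
noncomputable def q156 : Tr := .c 0 (.l 17) .e
noncomputable def r236 : Tr := .c 5 q156 .e
noncomputable def q157 : Tr := .c 1 (.l 46) .e
noncomputable def r237 : Tr := .c 4 q157 .e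
noncomputable def r238 : Tr := .c 2 q66 .e
noncomputable def t124 : Tr := .c 6 r236 (.c 7 r237 (.c 8 r238 .e))
noncomputable def q158 : Tr := .c 0 (.l 16) (.c 1 (.l 16) .e)
noncomputable def r239 : Tr := .c 2 q23 (.c 4 q154 (.c 6 q158 .e))
noncomputable def t125 : Tr := .c 5 r239 (.c 8 r30 .e)
noncomputable def q159 : Tr := .c 1 (.l 28) (.c 3 (.l 28) .e)
noncomputable def r240 : Tr := .c 4 q143 (.c 5 q26 (.c 8 q159 .e))
noncomputable def t126 : Tr := .c 2 r240 (.c 6 r32 .e)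
noncomputable def r241 : Tr := .c 4 q144 (.c 6 q144 (.c 8 q144 .e))
noncomputable def t127 : Tr := .c 1 r241 .e
noncomputable def r242 : Tr := .c 2 q54 .e
noncomputable def r243 : Tr := .c 3 q76 .e
noncomputable def t128 : Tr := .c 4 r242 (.c 6 r243 .e)
noncomputable def r244 : Tr := .c 6 q136 .e
noncomputable def r245 : Tr := .c 4 q79 (.c 6 q136 .e)
noncomputable def t129 : Tr := .c 3 r244 (.c 5 r245 .e)
noncomputable def r246 : Tr := .c 6 q137 .e
noncomputable def t130 : Tr := .c 3 r246 .e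
noncomputable def q160 : Tr := .c 3 (.l 52) .e
noncomputable def r247 : Tr := .c 2 q160 (.c 6 q160 .e)
noncomputable def t131 : Tr := .c 3 r247 .e
noncomputable def r248 : Tr := .c 2 q61 .e
noncomputable def r249 : Tr := .c 3 q79 .e
noncomputable def t132 : Tr := .c 5 r248 (.c 7 r249 .e)
noncomputable def r250 : Tr := .c 7 q134 .e
noncomputable def t133 : Tr := .c 3 r250 .e
noncomputable def t134 : Tr := .c 3 r205 (.c 4 r126 .e)
noncomputable def q161 : Tr := .c 3 (.l 53) .e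
noncomputable def r251 : Tr := .c 2 q160 (.c 7 q161 .e)
noncomputable def t135 : Tr := .c 3 r251 .e
noncomputable def q162 : Tr := .c 0 (.l 30) .e
noncomputable def r252 : Tr := .c 5 q162 .e
noncomputable def r253 : Tr := .c 4 q108 .e
noncomputable def q163 : Tr := .c 3 (.l 54) .e
noncomputable def r254 : Tr := .c 2 q163 .e
noncomputable def t136 : Tr := .c 6 r252 (.c 7 r253 (.c 8 r254 .e))
noncomputable def r255 : Tr := .c 2 q61 (.c 4 q69 (.c 6 q142 .e))
noncomputable def t137 : Tr := .c 5 r255 (.c 7 r97 .e)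
noncomputable def q164 : Tr := .c 1 (.l 30) (.c 3 (.l 30) .e)
noncomputable def r256 : Tr := .c 2 q54 (.c 5 q71 (.c 7 q164 .e))
noncomputable def t138 : Tr := .c 4 r256 (.c 6 r99 .e)
noncomputable def r257 : Tr := .c 2 q160 (.c 6 q160 (.c 7 q161 .e))
noncomputable def t139 : Tr := .c 3 r257 .e
noncomputable def q165 : Tr := .c 0 (.l 55) (.c 1 (.l 55) (.c 2 (.l 55) .e))
noncomputable def r258 : Tr := .c 8 q165 .e
noncomputable def q166 : Tr := .c 0 (.l 0) (.c 2 (.l 0) .e)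
noncomputable def r259 : Tr := .c 5 q166 .e
noncomputable def q167 : Tr := .c 2 (.l 56) .e
noncomputable def r260 : Tr := .c 3 q167 .e
noncomputable def t140 : Tr := .c 3 r258 (.c 4 r259 (.c 5 r142 (.c 8 r260 .e)))
noncomputable def q168 : Tr := .c 0 (.l 55) (.c 2 (.l 55) .e)
noncomputable def r261 : Tr := .c 8 q168 .e
noncomputable def r262 : Tr := .c 4 q79 .e
noncomputable def t141 : Tr := .c 3 r261 (.c 5 r262 .e)
noncomputable def q169 : Tr := .c 1 (.l 57) (.c 2 (.l 57) .e)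
noncomputable def r263 : Tr := .c 8 q169 .e
noncomputable def r264 : Tr := .c 5 q76 .e
noncomputable def t142 : Tr := .c 3 r263 (.c 4 r264 .e)
noncomputable def q170 : Tr := .c 3 (.l 58) .e
noncomputable def r265 : Tr := .c 8 q170 .e
noncomputable def t143 : Tr := .c 3 r265 .e

/-- the diagram -/
noncomputable def T : Tr := (.c 0 (.c 5 (.c 0 t0 (.c 2 t1 (.c 4 t2 (.c 6 t3 .e)))) (.c 6 (.c 0 t4 (.c 1 t5 (.c 3 t6 (.c 5
t7 .e)))) (.c 7 (.c 0 t8 (.c 1 t9 (.c 3 t10 (.c 4 t11 .e)))) (.c 8 (.c 0 t12 (.c 1 t13 (.c 2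
t14 (.c 3 t15 .e)))) .e)))) (.c 1 (.c 4 (.c 1 t16 (.c 2 t17 (.c 5 t18 (.c 7 t19 .e)))) (.c 6
(.c 0 t20 (.c 1 t21 (.c 3 t22 (.c 5 t23 .e)))) (.c 7 (.c 0 t24 (.c 1 t25 (.c 3 t26 (.c 4 t27
.e)))) (.c 8 (.c 0 t28 (.c 1 t29 (.c 2 t30 (.c 3 t31 .e)))) .e)))) (.c 2 (.c 3 (.c 2 t32 (.c 6
t33 (.c 7 t34 (.c 8 t35 .e)))) (.c 4 (.c 1 t36 (.c 2 t37 (.c 5 t38 (.c 7 t39 .e)))) (.c 5 (.c 0
t40 (.c 2 t41 (.c 4 t42 (.c 6 t43 .e)))) (.c 8 (.c 0 t44 (.c 1 t45 (.c 2 t46 (.c 3 t47 .e))))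
.e)))) (.c 3 (.c 2 (.c 3 t48 (.c 4 t49 (.c 5 t50 (.c 8 t51 .e)))) (.c 6 (.c 0 t52 (.c 1 t53 (.c
3 t54 (.c 5 t55 .e)))) (.c 7 (.c 0 t56 (.c 1 t57 (.c 3 t58 (.c 4 t59 .e)))) (.c 8 (.c 0 t60 (.c
1 t61 (.c 2 t62 (.c 3 t63 .e)))) .e)))) (.c 4 (.c 1 (.c 4 t64 (.c 6 t65 (.c 7 t66 (.c 8 t67
.e)))) (.c 2 (.c 3 t68 (.c 4 t69 (.c 5 t70 (.c 8 t71 .e)))) (.c 5 (.c 0 t72 (.c 2 t73 (.c 4 t74
(.c 6 t75 .e)))) (.c 7 (.c 0 t76 (.c 1 t77 (.c 3 t78 (.c 4 t79 .e)))) .e)))) (.c 5 (.c 0 (.c 5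
t80 (.c 6 t81 (.c 7 t82 (.c 8 t83 .e)))) (.c 2 (.c 3 t84 (.c 4 t85 (.c 5 t86 (.c 8 t87 .e))))
(.c 4 (.c 1 t88 (.c 2 t89 (.c 5 t90 (.c 7 t91 .e)))) (.c 6 (.c 0 t92 (.c 1 t93 (.c 3 t94 (.c 5
t95 .e)))) .e)))) (.c 6 (.c 0 (.c 5 t96 (.c 6 t97 (.c 7 t98 (.c 8 t99 .e)))) (.c 1 (.c 4 t100
(.c 6 t101 (.c 7 t102 (.c 8 t103 .e)))) (.c 3 (.c 2 t104 (.c 6 t105 (.c 7 t106 (.c 8 t107
.e)))) (.c 5 (.c 0 t108 (.c 2 t109 (.c 4 t110 (.c 6 t111 .e)))) .e)))) (.c 7 (.c 0 (.c 5 t112
(.c 6 t113 (.c 7 t114 (.c 8 t115 .e)))) (.c 1 (.c 4 t116 (.c 6 t117 (.c 7 t118 (.c 8 t119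
.e)))) (.c 3 (.c 2 t120 (.c 6 t121 (.c 7 t122 (.c 8 t123 .e)))) (.c 4 (.c 1 t124 (.c 2 t125 (.c
5 t126 (.c 7 t127 .e)))) .e)))) (.c 8 (.c 0 (.c 5 t128 (.c 6 t129 (.c 7 t130 (.c 8 t131 .e))))
(.c 1 (.c 4 t132 (.c 6 t133 (.c 7 t134 (.c 8 t135 .e)))) (.c 2 (.c 3 t136 (.c 4 t137 (.c 5 t138
(.c 8 t139 .e)))) (.c 3 (.c 2 t140 (.c 6 t141 (.c 7 t142 (.c 8 t143 .e)))) .e)))) .e)))))))))

theorem k0 : chkQ0 D J R 59 T = true := by decide +kernel
theorem pr : Fast.preF D J 59 T = true := by decide +kernel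
theorem c0 : csP D J T 0 = true := csP_of_csF pr (by decide +kernel)
theorem c1 : csP D J T 1 = true := csP_of_csF pr (by decide +kernel)
theorem c2 : csP D J T 2 = true := csP_of_csF pr (by decide +kernel)
theorem c3 : csP D J T 3 = true := csP_of_csF pr (by decide +kernel)
theorem c4 : csP D J T 4 = true := csP_of_csF pr (by decide +kernel)
theorem c5 : csP D J T 5 = true := csP_of_csF pr (by decide +kernel)
theorem c6 : csP D J T 6 = true := csP_of_csF pr (by decide +kernel)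
theorem c7 : csP D J T 7 = true := csP_of_csF pr (by decide +kernel)
theorem c8 : csP D J T 8 = true := csP_of_csF pr (by decide +kernel)
theorem c9 : csP D J T 9 = true := csP_of_csF pr (by decide +kernel)
theorem c10 : csP D J T 10 = true := csP_of_csF pr (by decide +kernel)
theorem c11 : csP D J T 11 = true := csP_of_csF pr (by decide +kernel)
theorem c12 : csP D J T 12 = true := csP_of_csF pr (by decide +kernel)
theorem c13 : csP D J T 13 = true := csP_of_csF pr (by decide +kernel)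
theorem c14 : csP D J T 14 = true := csP_of_csF pr (by decide +kernel)
theorem c15 : csP D J T 15 = true := csP_of_csF pr (by decide +kernel)
theorem c16 : csP D J T 16 = true := csP_of_csF pr (by decide +kernel)
theorem c17 : csP D J T 17 = true := csP_of_csF pr (by decide +kernel)
theorem c18 : csP D J T 18 = true := csP_of_csF pr (by decide +kernel)
theorem c19 : csP D J T 19 = true := csP_of_csF pr (by decide +kernel)

theorem cs : ∀ p < D.N, csP D J T p = true := by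
  intro p hp
  have hp : p < 20 := hp
  interval_cases p
  · exact c0
  · exact c1
  · exact c2
  · exact c3
  · exact c4
  · exact c5
  · exact c6
  · exact c7
  · exact c8
  · exact c9
  · exact c10
  · exact c11
  · exact c12
  · exact c13
  · exact c14
  · exact c15
  · exact c16
  · exact c17
  · exact c18
  · exact c19

/-- the box table -/
theorem tab : BoxTab D := boxTab_of (by decide) (by decide) k0 cs

end F35_28

end Vale.Agent.P032.Words.Trie
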